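import Vale.Agent.Lib.P226.Y.CertBase

/-!
Part of the certificate tree for the exclusion of the trigonometric system.
-/

namespace Vale.Agent.Lib.P226.Y

/-- The encoded certificate, part 29. -/
def certNat29 : ℕ :=
  301568369226044446526882531870403265840413250477873952198324816013580178107540095765876747507086114700136266460147158352334749121841190815608514476540798777905906452321263697463346780677695090797760475197124430582145917717808804977218635911445643267

theorem cert_ok29 : chk (dec 40 certNat29).1 (rb 3 box0) = true := by decide +kernel

end Vale.Agent.Lib.P226.Y
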