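import Vale.Agent.Lib.P226.Y.CertP0
import Vale.Agent.Lib.P226.Y.CertP1
import Vale.Agent.Lib.P226.Y.CertP2
import Vale.Agent.Lib.P226.Y.CertP3
import Vale.Agent.Lib.P226.Y.CertP4
import Vale.Agent.Lib.P226.Y.CertP5
import Vale.Agent.Lib.P226.Y.CertP6
import Vale.Agent.Lib.P226.Y.CertP7

/-!
The certificate: the initial box contains no solution of the trigonometric system.
-/

namespace Vale.Agent.Lib.P226.Y

variable {t0 t1 t2 t3 d01 d02 d03 d12 d13 d23 : ℝ}

theorem box0_empty (S : Sys t0 t1 t2 t3 d01 d02 d03 d12 d13 d23)
    (hm : box0.Mem t0 t1 t2 t3) : False := by
  rcases mem_split 3 _ hm with hm | hm
  · skip
    rcases mem_split 3 _ hm with hm | hm
    · skip
      rcases mem_split 2 _ hm with hm | hm
      · skip
        rcases mem_split 3 _ hm with hm | hm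
        · skip
          rcases mem_split 0 _ hm with hm | hm
          · skip
            rcases mem_split 2 _ hm with hm | hm
            · skip
              exact chk_sound S _ _ cert_ok0 hm
            · skip
              exact chk_sound S _ _ cert_ok1 hm
          · skip
            rcases mem_split 2 _ hm with hm | hm
            · skip
              rcases mem_split 1 _ hm with hm | hm
              · skip
                rcases mem_split 3 _ hm with hm | hm
                · skip
                  exact chk_sound S _ _ cert_ok2 hm
                · skip
                  rcases mem_split 0 _ hm with hm | hm
                  · skip
                    rcases mem_split 2 _ hm with hm | hm
                    · skip
                      exact chk_sound S _ _ cert_ok3 hm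
                    · skip
                      rcases mem_split 1 _ hm with hm | hm
                      · skip
                        exact chk_sound S _ _ cert_ok4 hm
                      · skip
                        rcases mem_split 3 _ hm with hm | hm
                        · skip
                          rcases mem_split 0 _ hm with hm | hm
                          · skip
                            rcases mem_split 2 _ hm with hm | hm
                            · skip
                              rcases mem_split 1 _ hm with hm | hm
                              · skip
                                exact chk_sound S _ _ cert_ok5 hm
                              · skip
                                rcases mem_split 3 _ hm with hm | hm
                                · skip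
                                  rcases mem_split 0 _ hm with hm | hm
                                  · skip
                                    exact chk_sound S _ _ cert_ok6 hm
                                  · skip
                                    rcases mem_split 2 _ hm with hm | hm
                                    · skip
                                      exact chk_sound S _ _ cert_ok7 hm
                                    · skip
                                      exact chk_sound S _ _ cert_ok8 hm
                                · skip
                                  exact chk_sound S _ _ cert_ok9 hm
                            · skip
                              exact chk_sound S _ _ cert_ok10 hm
                          · skip
                            exact chk_sound S _ _ cert_ok11 hm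
                        · skip
                          exact chk_sound S _ _ cert_ok12 hm
                  · skip
                    exact chk_sound S _ _ cert_ok13 hm
              · skip
                exact chk_sound S _ _ cert_ok14 hm
            · skip
              exact chk_sound S _ _ cert_ok15 hm
        · skip
          rcases mem_split 0 _ hm with hm | hm
          · skip
            rcases mem_split 2 _ hm with hm | hm
            · skip
              rcases mem_split 1 _ hm with hm | hm
              · skip
                rcases mem_split 3 _ hm with hm | hm
                · skip
                  rcases mem_split 0 _ hm with hm | hm
                  · skip
                    exact chk_sound S _ _ cert_ok16 hm
                  · skip
                    rcases mem_split 2 _ hm with hm | hm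
                    · skip
                      rcases mem_split 1 _ hm with hm | hm
                      · skip
                        exact chk_sound S _ _ cert_ok17 hm
                      · skip
                        rcases mem_split 3 _ hm with hm | hm
                        · skip
                          exact chk_sound S _ _ cert_ok18 hm
                        · skip
                          exact chk_sound S _ _ cert_ok19 hm
                    · skip
                      exact chk_sound S _ _ cert_ok20 hm
                · skip
                  rcases mem_split 0 _ hm with hm | hm
                  · skip
                    exact chk_sound S _ _ cert_ok21 hm
                  · skip
                    rcases mem_split 2 _ hm with hm | hm
                    · skip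
                      exact chk_sound S _ _ cert_ok22 hm
                    · skip
                      exact chk_sound S _ _ cert_ok23 hm
              · skip
                exact chk_sound S _ _ cert_ok24 hm
            · skip
              exact chk_sound S _ _ cert_ok25 hm
          · skip
            exact chk_sound S _ _ cert_ok26 hm
      · skip
        exact chk_sound S _ _ cert_ok27 hm
    · skip
      exact chk_sound S _ _ cert_ok28 hm
  · skip
    exact chk_sound S _ _ cert_ok29 hm

end Vale.Agent.Lib.P226.Y
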