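import Vale.Agent.Lib.P226.Y.Check

/-!
Decoder and boxes for the certificate tree of the exclusion of the trigonometric system. The tree
is stored in several parts, encoded as natural numbers in base `16384`.
-/

namespace Vale.Agent.Lib.P226.Y

/-- Decoder, with fuel for the depth of the tree. -/
def dec : ℕ → ℕ → Tr × ℕ
  | 0, s => (Tr.ox, s)
  | f + 1, s =>
    let op := s % 16384
    let s := s / 16384
    if op < 4 then
      let r1 := dec f s
      let r2 := dec f r1.2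
      (Tr.n op r1.1 r2.1, r2.2)
    else if op = 4 then (Tr.ox, s)
    else if op = 5 then (Tr.o0, s)
    else if op = 6 then (Tr.o1, s)
    else if op = 7 then (Tr.o2, s)
    else if op = 8 then
      (Tr.s (s % 16384) (s / 16384 % 16384) (s / 16384 ^ 2 % 16384) (s / 16384 ^ 3 % 16384)
        (s / 16384 ^ 4 % 16384) (s / 16384 ^ 5 % 16384), s / 16384 ^ 6)
    else if op < 13 then
      (Tr.pn (op - 9) (s % 16384) (s / 16384 % 16384) (s / 16384 ^ 2 % 16384), s / 16384 ^ 3)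
    else
      (Tr.pp (op - 13) (s % 16384) (s / 16384 % 16384) (s / 16384 ^ 2 % 16384), s / 16384 ^ 3)

/-- The initial box. -/
def box0 : Box := ⟨1 / 2, 2, 1, 2, 1, 4, 1, 8⟩

/-- The lower half of a box in direction `k`. -/
def lb (k : ℕ) (B : Box) : Box :=
  if k = 0 then { B with h0 := (B.l0 + B.h0) / 2 }
  else if k = 1 then { B with h1 := (B.l1 + B.h1) / 2 }
  else if k = 2 then { B with h2 := (B.l2 + B.h2) / 2 }
  else { B with h3 := (B.l3 + B.h3) / 2 }

/-- The upper half of a box in direction `k`. -/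
def rb (k : ℕ) (B : Box) : Box :=
  if k = 0 then { B with l0 := (B.l0 + B.h0) / 2 }
  else if k = 1 then { B with l1 := (B.l1 + B.h1) / 2 }
  else if k = 2 then { B with l2 := (B.l2 + B.h2) / 2 }
  else { B with l3 := (B.l3 + B.h3) / 2 }

lemma mem_split {t0 t1 t2 t3 : ℝ} (k : ℕ) (B : Box) (hm : B.Mem t0 t1 t2 t3) :
    (lb k B).Mem t0 t1 t2 t3 ∨ (rb k B).Mem t0 t1 t2 t3 := by
  obtain ⟨m1, m2, m3, m4, m5, m6, m7, m8⟩ := hm
  unfold lb rb
  split_ifs with h0 h1 h2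
  · rcases le_total t0 (((B.l0 + B.h0) / 2 : ℚ) : ℝ) with hle | hle
    · exact Or.inl ⟨m1, hle, m3, m4, m5, m6, m7, m8⟩
    · exact Or.inr ⟨hle, m2, m3, m4, m5, m6, m7, m8⟩
  · rcases le_total t1 (((B.l1 + B.h1) / 2 : ℚ) : ℝ) with hle | hle
    · exact Or.inl ⟨m1, m2, m3, hle, m5, m6, m7, m8⟩
    · exact Or.inr ⟨m1, m2, hle, m4, m5, m6, m7, m8⟩
  · rcases le_total t2 (((B.l2 + B.h2) / 2 : ℚ) : ℝ) with hle | hle
    · exact Or.inl ⟨m1, m2, m3, m4, m5, hle, m7, m8⟩
    · exact Or.inr ⟨m1, m2, m3, m4, hle, m6, m7, m8⟩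
  · rcases le_total t3 (((B.l3 + B.h3) / 2 : ℚ) : ℝ) with hle | hle
    · exact Or.inl ⟨m1, m2, m3, m4, m5, m6, m7, hle⟩
    · exact Or.inr ⟨m1, m2, m3, m4, m5, m6, hle, m8⟩

end Vale.Agent.Lib.P226.Y
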