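import Vale.Agent.Lib.P226.Y.Trig

/-!
A verified checker for the exclusion of the four-dimensional trigonometric system.
-/

open Real Set

namespace Vale.Agent.Lib.P226.Y

lemma conc_aux {D d : ℝ} (hD : 0 < D) (hdD : D < d) (hd : d ≤ π) : D * sin d < d * sin D := by
  have hd0 : 0 < d := by linarith
  have h := strictConcaveOn_sin_Icc.2 (show (0 : ℝ) ∈ Icc 0 π from ⟨le_rfl, pi_pos.le⟩)
    (show d ∈ Icc 0 π from ⟨hd0.le, hd⟩) (ne_of_lt hd0)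
    (show 0 < 1 - D / d by have : D / d < 1 := (div_lt_one hd0).mpr hdD; linarith)
    (show 0 < D / d from div_pos hD hd0) (by ring)
  simp only [sin_zero, smul_eq_mul, mul_zero, zero_add] at h
  have h1 : D / d * d = D := by field_simp
  rw [h1] at h
  have h2 : D / d * sin d * d < sin D * d := mul_lt_mul_of_pos_right h hd0
  have h3 : D / d * sin d * d = D * sin d := by field_simp
  rw [h3] at h2
  linarith

lemma lower_d {D x x' : ℝ} {d : ℚ} (hD : 0 < D) (hDπ : D < π) (hEq : D = x * sin D)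
    (hx' : 0 ≤ x') (hxx' : x' ≤ x) (hd0 : 0 ≤ d) (hdπ : (d : ℝ) < π)
    (h : (d : ℝ) ≤ x' * (sinLo d : ℚ)) : (d : ℝ) ≤ D := by
  by_contra hlt
  push Not at hlt
  have hd0' : (0 : ℝ) < d := by linarith
  have hd00 : 0 ≤ d := hd0
  have h1 := sinLo_le_sin hd00
  have h2 : (0 : ℝ) < (sinLo d : ℚ) := by
    by_contra hc
    push Not at hc
    nlinarith
  have hx0 : 0 ≤ x := by linarith
  have h3 : (d : ℝ) ≤ x * sin (d : ℝ) := by
    calc (d : ℝ) ≤ x' * (sinLo d : ℚ) := h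
      _ ≤ x * (sinLo d : ℚ) := mul_le_mul_of_nonneg_right hxx' h2.le
      _ ≤ x * sin (d : ℝ) := mul_le_mul_of_nonneg_left h1 hx0
  have h4 := conc_aux hD hlt hdπ.le
  have hsin : 0 < sin D := sin_pos_of_pos_of_lt_pi hD hDπ
  have h5 : (d : ℝ) * sin D ≤ x * sin (d : ℝ) * sin D := mul_le_mul_of_nonneg_right h3 hsin.le
  have h6 : x * sin (d : ℝ) * sin D = D * sin (d : ℝ) := by
    conv_rhs => rw [hEq]
    ring
  linarith

lemma upper_d {D x x' : ℝ} {d : ℚ} (hD : 0 < D) (hDπ : D < π) (hEq : D = x * sin D)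
    (hx : 0 ≤ x) (hxx' : x ≤ x') (hd0 : 0 < d) (hdπ : (d : ℝ) < π)
    (h : x' * (sinHi d : ℚ) ≤ d) : D ≤ (d : ℝ) := by
  by_contra hlt
  push Not at hlt
  have hd0' : (0 : ℝ) < d := by exact_mod_cast hd0
  have h1 := sin_le_sinHi hd0.le
  have hsd : 0 < sin (d : ℝ) := sin_pos_of_pos_of_lt_pi hd0' hdπ
  have h3 : x * sin (d : ℝ) ≤ d := by
    calc x * sin (d : ℝ) ≤ x * (sinHi d : ℚ) := mul_le_mul_of_nonneg_left h1 hx
      _ ≤ x' * (sinHi d : ℚ) := mul_le_mul_of_nonneg_right hxx' (by linarith)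
      _ ≤ d := h
  have h4 := conc_aux hd0' hlt hDπ.le
  have hsin : 0 < sin D := sin_pos_of_pos_of_lt_pi hD hDπ
  have h5 : x * sin (d : ℝ) * sin D ≤ d * sin D := mul_le_mul_of_nonneg_right h3 hsin.le
  have h6 : x * sin (d : ℝ) * sin D = D * sin (d : ℝ) := by
    conv_rhs => rw [hEq]
    ring
  linarith

/-- Upper bound for the product of a number in `[l, h]` with `c`. -/
def mulUp (c l h : ℚ) : ℚ := if 0 ≤ c then h * c else l * c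

/-- Lower bound for the product of a number in `[l, h]` with `c`. -/
def mulLo (c l h : ℚ) : ℚ := if 0 ≤ c then l * c else h * c

lemma le_mulUp {c l h : ℚ} {t x : ℝ} (hl : (l : ℝ) ≤ t) (hh : t ≤ h) (ht : 0 ≤ t)
    (hx : x ≤ (c : ℝ)) : t * x ≤ (mulUp c l h : ℚ) := by
  unfold mulUp
  split_ifs with hc
  · have hc' : (0 : ℝ) ≤ c := by exact_mod_cast hc
    push_cast
    calc t * x ≤ t * c := mul_le_mul_of_nonneg_left hx ht
      _ ≤ h * c := mul_le_mul_of_nonneg_right hh hc'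
  · have hc' : (c : ℝ) < 0 := by
      push Not at hc
      exact_mod_cast hc
    push_cast
    calc t * x ≤ t * c := mul_le_mul_of_nonneg_left hx ht
      _ ≤ l * c := mul_le_mul_of_nonpos_right hl hc'.le

lemma mulLo_le {c l h : ℚ} {t x : ℝ} (hl : (l : ℝ) ≤ t) (hh : t ≤ h) (ht : 0 ≤ t)
    (hx : (c : ℝ) ≤ x) : ((mulLo c l h : ℚ) : ℝ) ≤ t * x := by
  unfold mulLo
  split_ifs with hc
  · have hc' : (0 : ℝ) ≤ c := by exact_mod_cast hc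
    push_cast
    calc (l : ℝ) * c ≤ t * c := mul_le_mul_of_nonneg_right hl hc'
      _ ≤ t * x := mul_le_mul_of_nonneg_left hx ht
  · have hc' : (c : ℝ) < 0 := by
      push Not at hc
      exact_mod_cast hc
    push_cast
    calc (h : ℝ) * c ≤ t * c := mul_le_mul_of_nonpos_right hh hc'.le
      _ ≤ t * x := mul_le_mul_of_nonneg_left hx ht

/-- Valid lower bound `d` for the solution of `D = x sin D`. -/
def lowOK (d x : ℚ) : Bool :=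
  decide (0 ≤ d) && decide (d ≤ 3) && decide (0 ≤ x) && decide (d ≤ x * sinLo d)

/-- Valid upper bound `d` for the solution of `D = x sin D`. -/
def upOK (d x : ℚ) : Bool :=
  decide (0 < d) && decide (d ≤ 6283 / 2000) && decide (x * sinHi d ≤ d)

lemma pi_gt_aux : (6283 / 2000 : ℝ) < π := by
  have := Real.pi_gt_d4
  norm_num at this ⊢
  linarith

lemma lowOK_spec {d x : ℚ} (h : lowOK d x = true) :
    0 ≤ d ∧ (d : ℝ) < π ∧ 0 ≤ (x : ℝ) ∧ (d : ℝ) ≤ x * (sinLo d : ℚ) := by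
  simp only [lowOK, Bool.and_eq_true, decide_eq_true_eq] at h
  obtain ⟨⟨⟨h1, h2⟩, h3⟩, h4⟩ := h
  refine ⟨h1, ?_, by exact_mod_cast h3, by exact_mod_cast h4⟩
  have h5 : (d : ℝ) ≤ 3 := by exact_mod_cast h2
  have := Real.pi_gt_three
  linarith

lemma upOK_spec {d x : ℚ} (h : upOK d x = true) :
    0 < d ∧ (d : ℝ) < π ∧ (x : ℝ) * (sinHi d : ℚ) ≤ d := by
  simp only [upOK, Bool.and_eq_true, decide_eq_true_eq] at h
  obtain ⟨⟨h1, h2⟩, h3⟩ := h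
  refine ⟨h1, ?_, by exact_mod_cast h3⟩
  have h5 : (d : ℝ) ≤ (6283 / 2000 : ℚ) := by exact_mod_cast h2
  have := pi_gt_aux
  push_cast at h5
  linarith

/-- Contribution of one neighbour, upper bound. -/
lemma neighbour_up {ta tb D : ℝ} {la lb hb d : ℚ} (hta : 0 ≤ ta) (htb : 0 ≤ tb)
    (hla : (la : ℝ) ≤ ta) (hlb : (lb : ℝ) ≤ tb) (hhb : tb ≤ hb) (hla0 : 0 ≤ la) (hlb0 : 0 ≤ lb)
    (hD : 0 < D) (hDπ : D < π) (hEq : D = ta * tb * sin D) (hok : lowOK d (la * lb) = true) :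
    tb * cos D ≤ (mulUp (cosHi d) lb hb : ℚ) := by
  obtain ⟨h1, h2, h3, h4⟩ := lowOK_spec hok
  have hla0' : (0 : ℝ) ≤ la := by exact_mod_cast hla0
  have hlb0' : (0 : ℝ) ≤ lb := by exact_mod_cast hlb0
  have hx : ((la * lb : ℚ) : ℝ) ≤ ta * tb := by
    push_cast
    exact mul_le_mul hla hlb hlb0' hta
  have h5 := lower_d hD hDπ hEq h3 hx h1 h2 h4
  have h6 : cos D ≤ cos (d : ℝ) :=
    Real.cos_le_cos_of_nonneg_of_le_pi (by exact_mod_cast h1) hDπ.le h5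
  exact le_mulUp hlb hhb htb (h6.trans (cos_le_cosHi h1))

/-- Contribution of one neighbour, lower bound. -/
lemma neighbour_lo {ta tb D : ℝ} {ha lb hb d : ℚ} (hta : 0 ≤ ta) (htb : 0 ≤ tb)
    (hha : ta ≤ ha) (hlb : (lb : ℝ) ≤ tb) (hhb : tb ≤ hb)
    (hD : 0 < D) (hDπ : D < π) (hEq : D = ta * tb * sin D) (hok : upOK d (ha * hb) = true) :
    ((mulLo (cosLo d) lb hb : ℚ) : ℝ) ≤ tb * cos D := by
  obtain ⟨h1, h2, h3⟩ := upOK_spec hok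
  have hx : ta * tb ≤ ((ha * hb : ℚ) : ℝ) := by
    push_cast
    exact mul_le_mul hha hhb htb (hta.trans hha)
  have h5 := upper_d hD hDπ hEq (mul_nonneg hta htb) hx h1 h2 h3
  have h6 : cos (d : ℝ) ≤ cos D :=
    Real.cos_le_cos_of_nonneg_of_le_pi hD.le h2.le h5
  exact mulLo_le hlb hhb htb ((cosLo_le_cos h1.le).trans h6)

/-- The check that the equation of index `a` has a negative left side on the box. -/
def pNeg (la ha lb hb lc hc ld hd d1 d2 d3 : ℚ) : Bool :=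
  decide (0 ≤ la) && decide (0 ≤ lb) && decide (0 ≤ lc) && decide (0 ≤ ld) &&
  lowOK d1 (la * lb) && lowOK d2 (la * lc) && lowOK d3 (la * ld) &&
  decide (ha + mulUp (cosHi d1) lb hb + mulUp (cosHi d2) lc hc + mulUp (cosHi d3) ld hd < 0)

/-- The check that the equation of index `a` has a positive left side on the box. -/
def pPos (la ha lb hb lc hc ld hd d1 d2 d3 : ℚ) : Bool :=
  upOK d1 (ha * hb) && upOK d2 (ha * hc) && upOK d3 (ha * hd) &&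
  decide (0 < la + mulLo (cosLo d1) lb hb + mulLo (cosLo d2) lc hc + mulLo (cosLo d3) ld hd)

lemma pNeg_sound {ta tb tc td Db Dc Dd : ℝ} {la ha lb hb lc hc ld hd d1 d2 d3 : ℚ}
    (hta : 0 ≤ ta) (htb : 0 ≤ tb) (htc : 0 ≤ tc) (htd : 0 ≤ td)
    (m1 : (la : ℝ) ≤ ta) (m2 : ta ≤ ha) (m3 : (lb : ℝ) ≤ tb) (m4 : tb ≤ hb)
    (m5 : (lc : ℝ) ≤ tc) (m6 : tc ≤ hc) (m7 : (ld : ℝ) ≤ td) (m8 : td ≤ hd)
    (r1 : 0 < Db) (r2 : Db < π) (r3 : 0 < Dc) (r4 : Dc < π) (r5 : 0 < Dd) (r6 : Dd < π)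
    (e1 : Db = ta * tb * sin Db) (e2 : Dc = ta * tc * sin Dc) (e3 : Dd = ta * td * sin Dd)
    (heq : ta + tb * cos Db + tc * cos Dc + td * cos Dd = 0)
    (h : pNeg la ha lb hb lc hc ld hd d1 d2 d3 = true) : False := by
  simp only [pNeg, Bool.and_eq_true, decide_eq_true_eq] at h
  obtain ⟨⟨⟨⟨⟨⟨⟨h0a, h0b⟩, h0c⟩, h0d⟩, h1⟩, h2⟩, h3⟩, h4⟩ := h
  have b1 := neighbour_up hta htb m1 m3 m4 h0a h0b r1 r2 e1 h1
  have b2 := neighbour_up hta htc m1 m5 m6 h0a h0c r3 r4 e2 h2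
  have b3 := neighbour_up hta htd m1 m7 m8 h0a h0d r5 r6 e3 h3
  have h5 : ((ha + mulUp (cosHi d1) lb hb + mulUp (cosHi d2) lc hc + mulUp (cosHi d3) ld hd : ℚ) : ℝ)
      < 0 := by exact_mod_cast h4
  push_cast at h5
  linarith

lemma pPos_sound {ta tb tc td Db Dc Dd : ℝ} {la ha lb hb lc hc ld hd d1 d2 d3 : ℚ}
    (hta : 0 ≤ ta) (htb : 0 ≤ tb) (htc : 0 ≤ tc) (htd : 0 ≤ td)
    (m1 : (la : ℝ) ≤ ta) (m2 : ta ≤ ha) (m3 : (lb : ℝ) ≤ tb) (m4 : tb ≤ hb)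
    (m5 : (lc : ℝ) ≤ tc) (m6 : tc ≤ hc) (m7 : (ld : ℝ) ≤ td) (m8 : td ≤ hd)
    (r1 : 0 < Db) (r2 : Db < π) (r3 : 0 < Dc) (r4 : Dc < π) (r5 : 0 < Dd) (r6 : Dd < π)
    (e1 : Db = ta * tb * sin Db) (e2 : Dc = ta * tc * sin Dc) (e3 : Dd = ta * td * sin Dd)
    (heq : ta + tb * cos Db + tc * cos Dc + td * cos Dd = 0)
    (h : pPos la ha lb hb lc hc ld hd d1 d2 d3 = true) : False := by
  simp only [pPos, Bool.and_eq_true, decide_eq_true_eq] at h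
  obtain ⟨⟨⟨h1, h2⟩, h3⟩, h4⟩ := h
  have b1 := neighbour_lo hta htb m2 m3 m4 r1 r2 e1 h1
  have b2 := neighbour_lo hta htc m2 m5 m6 r3 r4 e2 h2
  have b3 := neighbour_lo hta htd m2 m7 m8 r5 r6 e3 h3
  have h5 : (0 : ℝ) < ((la + mulLo (cosLo d1) lb hb + mulLo (cosLo d2) lc hc
      + mulLo (cosLo d3) ld hd : ℚ) : ℝ) := by exact_mod_cast h4
  push_cast at h5
  linarith

/-- The trigonometric system. -/
structure Sys (t0 t1 t2 t3 d01 d02 d03 d12 d13 d23 : ℝ) : Prop where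
  pos : 0 < t0
  o01 : t0 ≤ t1
  o12 : t1 ≤ t2
  o23 : t2 ≤ t3
  r01 : 0 < d01 ∧ d01 < π
  r02 : 0 < d02 ∧ d02 < π
  r03 : 0 < d03 ∧ d03 < π
  r12 : 0 < d12 ∧ d12 < π
  r13 : 0 < d13 ∧ d13 < π
  r23 : 0 < d23 ∧ d23 < π
  e01 : d01 = t0 * t1 * sin d01
  e02 : d02 = t0 * t2 * sin d02
  e03 : d03 = t0 * t3 * sin d03
  e12 : d12 = t1 * t2 * sin d12
  e13 : d13 = t1 * t3 * sin d13
  e23 : d23 = t2 * t3 * sin d23
  p0 : t0 + t1 * cos d01 + t2 * cos d02 + t3 * cos d03 = 0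
  p1 : t1 + t0 * cos d01 + t2 * cos d12 + t3 * cos d13 = 0
  p2 : t2 + t0 * cos d02 + t1 * cos d12 + t3 * cos d23 = 0
  p3 : t3 + t0 * cos d03 + t1 * cos d13 + t2 * cos d23 = 0
  big : 9 * π ^ 2 / 4 < d01 ^ 2 + d02 ^ 2 + d03 ^ 2 + d12 ^ 2 + d13 ^ 2 + d23 ^ 2

/-- A box of parameters. -/
structure Box where
  l0 : ℚ
  h0 : ℚ
  l1 : ℚ
  h1 : ℚ
  l2 : ℚ
  h2 : ℚ
  l3 : ℚ
  h3 : ℚ

/-- Membership in a box. -/
def Box.Mem (B : Box) (t0 t1 t2 t3 : ℝ) : Prop :=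
  (B.l0 : ℝ) ≤ t0 ∧ t0 ≤ B.h0 ∧ (B.l1 : ℝ) ≤ t1 ∧ t1 ≤ B.h1 ∧
  (B.l2 : ℝ) ≤ t2 ∧ t2 ≤ B.h2 ∧ (B.l3 : ℝ) ≤ t3 ∧ t3 ≤ B.h3

/-- Certificate trees. -/
inductive Tr where
  | n (k : ℕ) (a b : Tr) : Tr
  | ox : Tr
  | o0 : Tr
  | o1 : Tr
  | o2 : Tr
  | s (e1 e2 e3 e4 e5 e6 : ℕ) : Tr
  | pn (a d1 d2 d3 : ℕ) : Tr
  | pp (a d1 d2 d3 : ℕ) : Tr

/-- Grid for the angles. -/
def dq (k : ℕ) : ℚ := (k : ℚ) / 4096

/-- The checker. -/
def chk : Tr → Box → Bool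
  | .n k a b, B =>
    if k = 0 then
      chk a { B with h0 := (B.l0 + B.h0) / 2 } && chk b { B with l0 := (B.l0 + B.h0) / 2 }
    else if k = 1 then
      chk a { B with h1 := (B.l1 + B.h1) / 2 } && chk b { B with l1 := (B.l1 + B.h1) / 2 }
    else if k = 2 then
      chk a { B with h2 := (B.l2 + B.h2) / 2 } && chk b { B with l2 := (B.l2 + B.h2) / 2 }
    else
      chk a { B with h3 := (B.l3 + B.h3) / 2 } && chk b { B with l3 := (B.l3 + B.h3) / 2 }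
  | .ox, B => decide (0 ≤ B.h0) && decide (B.h0 * B.h1 ≤ 1)
  | .o0, B => decide (B.h1 < B.l0)
  | .o1, B => decide (B.h2 < B.l1)
  | .o2, B => decide (B.h3 < B.l2)
  | .s e1 e2 e3 e4 e5 e6, B =>
    upOK (dq e1) (B.h0 * B.h1) && upOK (dq e2) (B.h0 * B.h2) && upOK (dq e3) (B.h0 * B.h3) &&
    upOK (dq e4) (B.h1 * B.h2) && upOK (dq e5) (B.h1 * B.h3) && upOK (dq e6) (B.h2 * B.h3) &&
    decide (dq e1 ^ 2 + dq e2 ^ 2 + dq e3 ^ 2 + dq e4 ^ 2 + dq e5 ^ 2 + dq e6 ^ 2 ≤ 111 / 5)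
  | .pn a d1 d2 d3, B =>
    if a = 0 then pNeg B.l0 B.h0 B.l1 B.h1 B.l2 B.h2 B.l3 B.h3 (dq d1) (dq d2) (dq d3)
    else if a = 1 then pNeg B.l1 B.h1 B.l0 B.h0 B.l2 B.h2 B.l3 B.h3 (dq d1) (dq d2) (dq d3)
    else if a = 2 then pNeg B.l2 B.h2 B.l0 B.h0 B.l1 B.h1 B.l3 B.h3 (dq d1) (dq d2) (dq d3)
    else pNeg B.l3 B.h3 B.l0 B.h0 B.l1 B.h1 B.l2 B.h2 (dq d1) (dq d2) (dq d3)
  | .pp a d1 d2 d3, B =>
    if a = 0 then pPos B.l0 B.h0 B.l1 B.h1 B.l2 B.h2 B.l3 B.h3 (dq d1) (dq d2) (dq d3)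
    else if a = 1 then pPos B.l1 B.h1 B.l0 B.h0 B.l2 B.h2 B.l3 B.h3 (dq d1) (dq d2) (dq d3)
    else if a = 2 then pPos B.l2 B.h2 B.l0 B.h0 B.l1 B.h1 B.l3 B.h3 (dq d1) (dq d2) (dq d3)
    else pPos B.l3 B.h3 B.l0 B.h0 B.l1 B.h1 B.l2 B.h2 (dq d1) (dq d2) (dq d3)

lemma one_lt_prod {D x : ℝ} (hD : 0 < D) (hDπ : D < π) (hEq : D = x * sin D) : 1 < x := by
  have hs : 0 < sin D := sin_pos_of_pos_of_lt_pi hD hDπ
  have h1 : sin D < D := sin_lt hD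
  by_contra hc
  push Not at hc
  have : x * sin D ≤ 1 * sin D := mul_le_mul_of_nonneg_right hc hs.le
  linarith

variable {t0 t1 t2 t3 d01 d02 d03 d12 d13 d23 : ℝ}

/-- Positivity of all parameters. -/
lemma Sys.pos1 (S : Sys t0 t1 t2 t3 d01 d02 d03 d12 d13 d23) : 0 < t1 := lt_of_lt_of_le S.pos S.o01
lemma Sys.pos2 (S : Sys t0 t1 t2 t3 d01 d02 d03 d12 d13 d23) : 0 < t2 :=
  lt_of_lt_of_le S.pos1 S.o12
lemma Sys.pos3 (S : Sys t0 t1 t2 t3 d01 d02 d03 d12 d13 d23) : 0 < t3 :=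
  lt_of_lt_of_le S.pos2 S.o23

lemma sq_pi_gt : (111 / 5 : ℝ) < 9 * π ^ 2 / 4 := by
  have h := Real.pi_gt_d4
  nlinarith

/-- Soundness of the checker. -/
theorem chk_sound (S : Sys t0 t1 t2 t3 d01 d02 d03 d12 d13 d23) :
    ∀ (T : Tr) (B : Box), chk T B = true → B.Mem t0 t1 t2 t3 → False := by
  intro T
  have hp0 := S.pos
  have hp1 := S.pos1
  have hp2 := S.pos2
  have hp3 := S.pos3
  induction T with
  | n k a b iha ihb =>
    intro B hc hm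
    obtain ⟨m1, m2, m3, m4, m5, m6, m7, m8⟩ := hm
    unfold chk at hc
    split_ifs at hc with h0 h1 h2
    · simp only [Bool.and_eq_true] at hc
      rcases le_total t0 (((B.l0 + B.h0) / 2 : ℚ) : ℝ) with hle | hle
      · exact iha _ hc.1 ⟨m1, hle, m3, m4, m5, m6, m7, m8⟩
      · exact ihb _ hc.2 ⟨hle, m2, m3, m4, m5, m6, m7, m8⟩
    · simp only [Bool.and_eq_true] at hc
      rcases le_total t1 (((B.l1 + B.h1) / 2 : ℚ) : ℝ) with hle | hle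
      · exact iha _ hc.1 ⟨m1, m2, m3, hle, m5, m6, m7, m8⟩
      · exact ihb _ hc.2 ⟨m1, m2, hle, m4, m5, m6, m7, m8⟩
    · simp only [Bool.and_eq_true] at hc
      rcases le_total t2 (((B.l2 + B.h2) / 2 : ℚ) : ℝ) with hle | hle
      · exact iha _ hc.1 ⟨m1, m2, m3, m4, m5, hle, m7, m8⟩
      · exact ihb _ hc.2 ⟨m1, m2, m3, m4, hle, m6, m7, m8⟩
    · simp only [Bool.and_eq_true] at hc
      rcases le_total t3 (((B.l3 + B.h3) / 2 : ℚ) : ℝ) with hle | hle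
      · exact iha _ hc.1 ⟨m1, m2, m3, m4, m5, m6, m7, hle⟩
      · exact ihb _ hc.2 ⟨m1, m2, m3, m4, m5, m6, hle, m8⟩
  | ox =>
    intro B hc hm
    obtain ⟨m1, m2, m3, m4, m5, m6, m7, m8⟩ := hm
    simp only [chk, Bool.and_eq_true, decide_eq_true_eq] at hc
    have h1 : ((B.h0 * B.h1 : ℚ) : ℝ) ≤ 1 := by exact_mod_cast hc.2
    push_cast at h1
    have h2 := one_lt_prod S.r01.1 S.r01.2 S.e01
    have h3 : t0 * t1 ≤ B.h0 * B.h1 := mul_le_mul m2 m4 hp1.le (hp0.le.trans m2)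
    linarith
  | o0 =>
    intro B hc hm
    obtain ⟨m1, m2, m3, m4, m5, m6, m7, m8⟩ := hm
    simp only [chk, decide_eq_true_eq] at hc
    have h1 : (B.h1 : ℝ) < B.l0 := by exact_mod_cast hc
    have := S.o01
    linarith
  | o1 =>
    intro B hc hm
    obtain ⟨m1, m2, m3, m4, m5, m6, m7, m8⟩ := hm
    simp only [chk, decide_eq_true_eq] at hc
    have h1 : (B.h2 : ℝ) < B.l1 := by exact_mod_cast hc
    have := S.o12
    linarith
  | o2 =>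
    intro B hc hm
    obtain ⟨m1, m2, m3, m4, m5, m6, m7, m8⟩ := hm
    simp only [chk, decide_eq_true_eq] at hc
    have h1 : (B.h3 : ℝ) < B.l2 := by exact_mod_cast hc
    have := S.o23
    linarith
  | s e1 e2 e3 e4 e5 e6 =>
    intro B hc hm
    obtain ⟨m1, m2, m3, m4, m5, m6, m7, m8⟩ := hm
    simp only [chk, Bool.and_eq_true, decide_eq_true_eq] at hc
    obtain ⟨⟨⟨⟨⟨⟨c1, c2⟩, c3⟩, c4⟩, c5⟩, c6⟩, c7⟩ := hc
    have key : ∀ {D ti tj : ℝ} {hi hj : ℚ} {e : ℕ}, 0 < ti → 0 < tj → ti ≤ hi → tj ≤ hj →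
        0 < D → D < π → D = ti * tj * sin D → upOK (dq e) (hi * hj) = true →
        D ^ 2 ≤ ((dq e : ℚ) : ℝ) ^ 2 := by
      intro D ti tj hi hj e hti htj h1 h2 r1 r2 he hok
      obtain ⟨a1, a2, a3⟩ := upOK_spec hok
      have hx : ti * tj ≤ ((hi * hj : ℚ) : ℝ) := by
        push_cast
        exact mul_le_mul h1 h2 htj.le (hti.le.trans h1)
      have h5 := upper_d r1 r2 he (mul_nonneg hti.le htj.le) hx a1 a2 a3
      exact pow_le_pow_left₀ r1.le h5 2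
    have k1 := key hp0 hp1 m2 m4 S.r01.1 S.r01.2 S.e01 c1
    have k2 := key hp0 hp2 m2 m6 S.r02.1 S.r02.2 S.e02 c2
    have k3 := key hp0 hp3 m2 m8 S.r03.1 S.r03.2 S.e03 c3
    have k4 := key hp1 hp2 m4 m6 S.r12.1 S.r12.2 S.e12 c4
    have k5 := key hp1 hp3 m4 m8 S.r13.1 S.r13.2 S.e13 c5
    have k6 := key hp2 hp3 m6 m8 S.r23.1 S.r23.2 S.e23 c6
    have h7 : (((dq e1 ^ 2 + dq e2 ^ 2 + dq e3 ^ 2 + dq e4 ^ 2 + dq e5 ^ 2 + dq e6 ^ 2 : ℚ)) : ℝ)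
        ≤ ((111 / 5 : ℚ) : ℝ) := by exact_mod_cast c7
    push_cast at h7
    have h8 := sq_pi_gt
    have h9 := S.big
    push_cast at k1 k2 k3 k4 k5 k6
    linarith
  | pn a d1 d2 d3 =>
    intro B hc hm
    obtain ⟨m1, m2, m3, m4, m5, m6, m7, m8⟩ := hm
    unfold chk at hc
    have e10 : d01 = t1 * t0 * sin d01 := by rw [mul_comm t1 t0]; exact S.e01
    have e20 : d02 = t2 * t0 * sin d02 := by rw [mul_comm t2 t0]; exact S.e02
    have e21 : d12 = t2 * t1 * sin d12 := by rw [mul_comm t2 t1]; exact S.e12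
    have e30 : d03 = t3 * t0 * sin d03 := by rw [mul_comm t3 t0]; exact S.e03
    have e31 : d13 = t3 * t1 * sin d13 := by rw [mul_comm t3 t1]; exact S.e13
    have e32 : d23 = t3 * t2 * sin d23 := by rw [mul_comm t3 t2]; exact S.e23
    split_ifs at hc with h0 h1 h2
    · exact pNeg_sound hp0.le hp1.le hp2.le hp3.le m1 m2 m3 m4 m5 m6 m7 m8 S.r01.1 S.r01.2 S.r02.1
        S.r02.2 S.r03.1 S.r03.2 S.e01 S.e02 S.e03 S.p0 hc
    · exact pNeg_sound hp1.le hp0.le hp2.le hp3.le m3 m4 m1 m2 m5 m6 m7 m8 S.r01.1 S.r01.2 S.r12.1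
        S.r12.2 S.r13.1 S.r13.2 e10 S.e12 S.e13 S.p1 hc
    · exact pNeg_sound hp2.le hp0.le hp1.le hp3.le m5 m6 m1 m2 m3 m4 m7 m8 S.r02.1 S.r02.2 S.r12.1
        S.r12.2 S.r23.1 S.r23.2 e20 e21 S.e23 S.p2 hc
    · exact pNeg_sound hp3.le hp0.le hp1.le hp2.le m7 m8 m1 m2 m3 m4 m5 m6 S.r03.1 S.r03.2 S.r13.1
        S.r13.2 S.r23.1 S.r23.2 e30 e31 e32 S.p3 hc
  | pp a d1 d2 d3 =>
    intro B hc hm
    obtain ⟨m1, m2, m3, m4, m5, m6, m7, m8⟩ := hm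
    unfold chk at hc
    have e10 : d01 = t1 * t0 * sin d01 := by rw [mul_comm t1 t0]; exact S.e01
    have e20 : d02 = t2 * t0 * sin d02 := by rw [mul_comm t2 t0]; exact S.e02
    have e21 : d12 = t2 * t1 * sin d12 := by rw [mul_comm t2 t1]; exact S.e12
    have e30 : d03 = t3 * t0 * sin d03 := by rw [mul_comm t3 t0]; exact S.e03
    have e31 : d13 = t3 * t1 * sin d13 := by rw [mul_comm t3 t1]; exact S.e13
    have e32 : d23 = t3 * t2 * sin d23 := by rw [mul_comm t3 t2]; exact S.e23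
    split_ifs at hc with h0 h1 h2
    · exact pPos_sound hp0.le hp1.le hp2.le hp3.le m1 m2 m3 m4 m5 m6 m7 m8 S.r01.1 S.r01.2 S.r02.1
        S.r02.2 S.r03.1 S.r03.2 S.e01 S.e02 S.e03 S.p0 hc
    · exact pPos_sound hp1.le hp0.le hp2.le hp3.le m3 m4 m1 m2 m5 m6 m7 m8 S.r01.1 S.r01.2 S.r12.1
        S.r12.2 S.r13.1 S.r13.2 e10 S.e12 S.e13 S.p1 hc
    · exact pPos_sound hp2.le hp0.le hp1.le hp3.le m5 m6 m1 m2 m3 m4 m7 m8 S.r02.1 S.r02.2 S.r12.1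
        S.r12.2 S.r23.1 S.r23.2 e20 e21 S.e23 S.p2 hc
    · exact pPos_sound hp3.le hp0.le hp1.le hp2.le m7 m8 m1 m2 m3 m4 m5 m6 S.r03.1 S.r03.2 S.r13.1
        S.r13.2 S.r23.1 S.r23.2 e30 e31 e32 S.p3 hc

end Vale.Agent.Lib.P226.Y
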