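import Vale.Agent.Lib.P226.Y.CoverTable

/-!
A verified branch and bound search over boxes of the four unknowns, run by the kernel.
Units: the unknowns are multiples of `2 ^ (-14)`, the table values multiples of `2 ^ (-40)`.
-/

namespace Vale.Agent.Lib.P226.Cov

/-- The table entry gives the lower bound `j / 256` of the angle, from a lower bound of the
product of the unknowns. -/
def predLo (pl : ℕ) (e : Ent) : Bool := Nat.ble (e.j * 1152921504606846976) (pl * e.sl)

/-- The table entry gives the upper bound `j / 256` of the angle, from an upper bound of the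
product of the unknowns. -/
def predHi (ph : ℕ) (e : Ent) : Bool := Nat.ble (ph * e.su) (e.j * 1152921504606846976)

/-- Search for the largest entry satisfying `predLo`. -/
def searchLo (pl : ℕ) : Tr → Ent → Ent
  | .leaf, b => b
  | .node e l r, b => bif predLo pl e then searchLo pl r e else searchLo pl l b

/-- Search for the smallest entry satisfying `predHi`. -/
def searchHi (ph : ℕ) : Tr → Ent → Ent
  | .leaf, b => b
  | .node e l r, b => bif predHi ph e then searchHi ph l e else searchHi ph r b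

/-- Enclosure of an angle: `angle ≤ jh / 256` and `cl ≤ (cos angle + 1) * 2 ^ 40 ≤ cu`. -/
structure PI where
  jh : ℕ
  cl : ℕ
  cu : ℕ

/-- The enclosure of the angle for the box `[la, ua] × [lb, ub]`. -/
def pairInfo (T : Tr) (la ua lb ub : ℕ) : PI :=
  match searchHi (ua * ub) T (Ent.mk 805 0 0 0 2199023255552),
    searchLo (la * lb) T (Ent.mk 0 0 0 2199023255552 2199023255552) with
  | ⟨jh, _, _, c, _⟩, ⟨_, _, _, _, d⟩ => PI.mk jh c d

/-- Evaluate the enclosure once before passing it on. -/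
def withPI (T : Tr) (la ua lb ub : ℕ) (k : PI → Bool) : Bool :=
  match pairInfo T la ua lb ub with
  | ⟨a, b, c⟩ => k (PI.mk a b c)

/-- The row equation cannot hold on the box: the value is positive or negative. -/
def rowTest (la ua lb ub lc uc ld ud : ℕ) (pb pc pd : PI) : Bool :=
  Nat.blt (ub * (1099511627776 - pb.cl) + uc * (1099511627776 - pc.cl)
      + ud * (1099511627776 - pd.cl))
    (la * 1099511627776 + lb * (pb.cl - 1099511627776) + lc * (pc.cl - 1099511627776)
      + ld * (pd.cl - 1099511627776)) ||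
  Nat.blt (ua * 1099511627776 + ub * (pb.cu - 1099511627776) + uc * (pc.cu - 1099511627776)
      + ud * (pd.cu - 1099511627776))
    (lb * (1099511627776 - pb.cu) + lc * (1099511627776 - pc.cu) + ld * (1099511627776 - pd.cu))

/-- The box contains nothing of interest: the order of the unknowns fails, or a product of two
unknowns is at most `1`, or the sum of the squares of the angles is small, or a row fails. -/
def leafOK (l1 u1 l2 u2 l3 u3 l4 u4 : ℕ) (p12 p13 p14 p23 p24 p34 : PI) : Bool :=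
  Nat.blt u1 l2 || Nat.blt u2 l3 || Nat.blt u3 l4 ||
  Nat.ble (u1 * u2) 268435456 || Nat.ble (u1 * u3) 268435456 || Nat.ble (u1 * u4) 268435456 ||
  Nat.ble (u2 * u3) 268435456 || Nat.ble (u2 * u4) 268435456 || Nat.ble (u3 * u4) 268435456 ||
  Nat.ble (p12.jh * p12.jh + p13.jh * p13.jh + p14.jh * p14.jh + p23.jh * p23.jh + p24.jh * p24.jh
    + p34.jh * p34.jh) 1455330 ||
  rowTest l1 u1 l2 u2 l3 u3 l4 u4 p12 p13 p14 ||
  rowTest l2 u2 l1 u1 l3 u3 l4 u4 p12 p23 p24 ||
  rowTest l3 u3 l1 u1 l2 u2 l4 u4 p13 p23 p34 ||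
  rowTest l4 u4 l1 u1 l2 u2 l3 u3 p14 p24 p34

/-- The branch and bound search. -/
def check (T : Tr) : ℕ → (l1 u1 l2 u2 l3 u3 l4 u4 : ℕ) → (p12 p13 p14 p23 p24 p34 : PI) → Bool
  | 0, l1, u1, l2, u2, l3, u3, l4, u4, p12, p13, p14, p23, p24, p34 =>
    leafOK l1 u1 l2 u2 l3 u3 l4 u4 p12 p13 p14 p23 p24 p34
  | n + 1, l1, u1, l2, u2, l3, u3, l4, u4, p12, p13, p14, p23, p24, p34 =>
    leafOK l1 u1 l2 u2 l3 u3 l4 u4 p12 p13 p14 p23 p24 p34 ||
    bif Nat.ble (u2 - l2) (u1 - l1) && Nat.ble (u3 - l3) (u1 - l1) && Nat.ble (u4 - l4) (u1 - l1) then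
      (withPI T l1 ((l1 + u1) / 2) l2 u2 fun a => withPI T l1 ((l1 + u1) / 2) l3 u3 fun b =>
        withPI T l1 ((l1 + u1) / 2) l4 u4 fun c =>
          check T n l1 ((l1 + u1) / 2) l2 u2 l3 u3 l4 u4 a b c p23 p24 p34) &&
      (withPI T ((l1 + u1) / 2) u1 l2 u2 fun a => withPI T ((l1 + u1) / 2) u1 l3 u3 fun b =>
        withPI T ((l1 + u1) / 2) u1 l4 u4 fun c =>
          check T n ((l1 + u1) / 2) u1 l2 u2 l3 u3 l4 u4 a b c p23 p24 p34)
    else bif Nat.ble (u3 - l3) (u2 - l2) && Nat.ble (u4 - l4) (u2 - l2) then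
      (withPI T l1 u1 l2 ((l2 + u2) / 2) fun a => withPI T l2 ((l2 + u2) / 2) l3 u3 fun b =>
        withPI T l2 ((l2 + u2) / 2) l4 u4 fun c =>
          check T n l1 u1 l2 ((l2 + u2) / 2) l3 u3 l4 u4 a p13 p14 b c p34) &&
      (withPI T l1 u1 ((l2 + u2) / 2) u2 fun a => withPI T ((l2 + u2) / 2) u2 l3 u3 fun b =>
        withPI T ((l2 + u2) / 2) u2 l4 u4 fun c =>
          check T n l1 u1 ((l2 + u2) / 2) u2 l3 u3 l4 u4 a p13 p14 b c p34)
    else bif Nat.ble (u4 - l4) (u3 - l3) then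
      (withPI T l1 u1 l3 ((l3 + u3) / 2) fun a => withPI T l2 u2 l3 ((l3 + u3) / 2) fun b =>
        withPI T l3 ((l3 + u3) / 2) l4 u4 fun c =>
          check T n l1 u1 l2 u2 l3 ((l3 + u3) / 2) l4 u4 p12 a p14 b p24 c) &&
      (withPI T l1 u1 ((l3 + u3) / 2) u3 fun a => withPI T l2 u2 ((l3 + u3) / 2) u3 fun b =>
        withPI T ((l3 + u3) / 2) u3 l4 u4 fun c =>
          check T n l1 u1 l2 u2 ((l3 + u3) / 2) u3 l4 u4 p12 a p14 b p24 c)
    else
      (withPI T l1 u1 l4 ((l4 + u4) / 2) fun a => withPI T l2 u2 l4 ((l4 + u4) / 2) fun b =>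
        withPI T l3 u3 l4 ((l4 + u4) / 2) fun c =>
          check T n l1 u1 l2 u2 l3 u3 l4 ((l4 + u4) / 2) p12 p13 a p23 b c) &&
      (withPI T l1 u1 ((l4 + u4) / 2) u4 fun a => withPI T l2 u2 ((l4 + u4) / 2) u4 fun b =>
        withPI T l3 u3 ((l4 + u4) / 2) u4 fun c =>
          check T n l1 u1 l2 u2 l3 u3 ((l4 + u4) / 2) u4 p12 p13 a p23 b c)

/-- The search on the root box `[1, 6] × [1, 3] × [1, 2] × [1 / 2, 2]`. -/
def rootCheck : Bool :=
  check tbl 60 16384 98304 16384 49152 16384 32768 8192 32768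
    (pairInfo tbl 16384 98304 16384 49152) (pairInfo tbl 16384 98304 16384 32768)
    (pairInfo tbl 16384 98304 8192 32768) (pairInfo tbl 16384 49152 16384 32768)
    (pairInfo tbl 16384 49152 8192 32768) (pairInfo tbl 16384 32768 8192 32768)

theorem rootCheck_eq : rootCheck = true := by decide +kernel

end Vale.Agent.Lib.P226.Cov
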