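import Vale.Agent.Lib.P226.Y.CoverSound2

/-!
The four cell case of the Gaussian propeller bound.
-/

open Real MeasureTheory ProbabilityTheory

namespace Vale.Agent.Lib.P226

variable {t₁ t₂ t₃ t₄ D₁₂ D₁₃ D₁₄ D₂₃ D₂₄ D₃₄ : ℝ}

lemma FourSys.swap12 (h : FourSys t₁ t₂ t₃ t₄ D₁₂ D₁₃ D₁₄ D₂₃ D₂₄ D₃₄) :
    FourSys t₂ t₁ t₃ t₄ D₁₂ D₂₃ D₂₄ D₁₃ D₁₄ D₃₄ where
  t₁_pos := h.t₂_pos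
  t₂_pos := h.t₁_pos
  t₃_pos := h.t₃_pos
  t₄_pos := h.t₄_pos
  D₁₂_pos := h.D₁₂_pos
  D₁₃_pos := h.D₂₃_pos
  D₁₄_pos := h.D₂₄_pos
  D₂₃_pos := h.D₁₃_pos
  D₂₄_pos := h.D₁₄_pos
  D₃₄_pos := h.D₃₄_pos
  D₁₂_lt := h.D₁₂_lt
  D₁₃_lt := h.D₂₃_lt
  D₁₄_lt := h.D₂₄_lt
  D₂₃_lt := h.D₁₃_lt
  D₂₄_lt := h.D₁₄_lt
  D₃₄_lt := h.D₃₄_lt
  s₁₂ := by rw [mul_comm t₂ t₁]; exact h.s₁₂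
  s₁₃ := h.s₂₃
  s₁₄ := h.s₂₄
  s₂₃ := h.s₁₃
  s₂₄ := h.s₁₄
  s₃₄ := h.s₃₄
  r₁ := h.r₂
  r₂ := h.r₁
  r₃ := by linarith [h.r₃]
  r₄ := by linarith [h.r₄]
  tri₁₂₃ := by linarith [h.tri₁₂₃]
  tri₁₂₄ := by linarith [h.tri₁₂₄]
  tri₁₃₄ := h.tri₂₃₄
  tri₂₃₄ := h.tri₁₃₄

lemma FourSys.swap23 (h : FourSys t₁ t₂ t₃ t₄ D₁₂ D₁₃ D₁₄ D₂₃ D₂₄ D₃₄) :
    FourSys t₁ t₃ t₂ t₄ D₁₃ D₁₂ D₁₄ D₂₃ D₃₄ D₂₄ where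
  t₁_pos := h.t₁_pos
  t₂_pos := h.t₃_pos
  t₃_pos := h.t₂_pos
  t₄_pos := h.t₄_pos
  D₁₂_pos := h.D₁₃_pos
  D₁₃_pos := h.D₁₂_pos
  D₁₄_pos := h.D₁₄_pos
  D₂₃_pos := h.D₂₃_pos
  D₂₄_pos := h.D₃₄_pos
  D₃₄_pos := h.D₂₄_pos
  D₁₂_lt := h.D₁₃_lt
  D₁₃_lt := h.D₁₂_lt
  D₁₄_lt := h.D₁₄_lt
  D₂₃_lt := h.D₂₃_lt
  D₂₄_lt := h.D₃₄_lt
  D₃₄_lt := h.D₂₄_lt
  s₁₂ := h.s₁₃
  s₁₃ := h.s₁₂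
  s₁₄ := h.s₁₄
  s₂₃ := by rw [mul_comm t₃ t₂]; exact h.s₂₃
  s₂₄ := h.s₃₄
  s₃₄ := h.s₂₄
  r₁ := by linarith [h.r₁]
  r₂ := h.r₃
  r₃ := h.r₂
  r₄ := by linarith [h.r₄]
  tri₁₂₃ := by linarith [h.tri₁₂₃]
  tri₁₂₄ := h.tri₁₃₄
  tri₁₃₄ := h.tri₁₂₄
  tri₂₃₄ := by linarith [h.tri₂₃₄]

lemma FourSys.swap34 (h : FourSys t₁ t₂ t₃ t₄ D₁₂ D₁₃ D₁₄ D₂₃ D₂₄ D₃₄) :
    FourSys t₁ t₂ t₄ t₃ D₁₂ D₁₄ D₁₃ D₂₄ D₂₃ D₃₄ where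
  t₁_pos := h.t₁_pos
  t₂_pos := h.t₂_pos
  t₃_pos := h.t₄_pos
  t₄_pos := h.t₃_pos
  D₁₂_pos := h.D₁₂_pos
  D₁₃_pos := h.D₁₄_pos
  D₁₄_pos := h.D₁₃_pos
  D₂₃_pos := h.D₂₄_pos
  D₂₄_pos := h.D₂₃_pos
  D₃₄_pos := h.D₃₄_pos
  D₁₂_lt := h.D₁₂_lt
  D₁₃_lt := h.D₁₄_lt
  D₁₄_lt := h.D₁₃_lt
  D₂₃_lt := h.D₂₄_lt
  D₂₄_lt := h.D₂₃_lt
  D₃₄_lt := h.D₃₄_lt
  s₁₂ := h.s₁₂
  s₁₃ := h.s₁₄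
  s₁₄ := h.s₁₃
  s₂₃ := h.s₂₄
  s₂₄ := h.s₂₃
  s₃₄ := by rw [mul_comm t₄ t₃]; exact h.s₃₄
  r₁ := by linarith [h.r₁]
  r₂ := by linarith [h.r₂]
  r₃ := h.r₄
  r₄ := h.r₃
  tri₁₂₃ := h.tri₁₂₄
  tri₁₂₄ := h.tri₁₂₃
  tri₁₃₄ := by linarith [h.tri₁₃₄]
  tri₂₃₄ := by linarith [h.tri₂₃₄]


/-- Sorting the unknowns. -/
theorem fourSys_bound (h : FourSys t₁ t₂ t₃ t₄ D₁₂ D₁₃ D₁₄ D₂₃ D₂₄ D₃₄) :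
    D₁₂ ^ 2 + D₁₃ ^ 2 + D₁₄ ^ 2 + D₂₃ ^ 2 + D₂₄ ^ 2 + D₃₄ ^ 2 ≤ 1455330 / 65536 := by
  -- the sorted case
  have S3 : ∀ {a b c d D₁ D₂ D₃ D₄ D₅ D₆ : ℝ}, FourSys a b c d D₁ D₂ D₃ D₄ D₅ D₆ → b ≤ a → c ≤ b →
      d ≤ c → D₁ ^ 2 + D₂ ^ 2 + D₃ ^ 2 + D₄ ^ 2 + D₅ ^ 2 + D₆ ^ 2 ≤ 1455330 / 65536 :=
    fun hs o1 o2 o3 => Cov.sorted_bound hs o1 o2 o3
  -- insert the first one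
  have S2 : ∀ {a b c d D₁ D₂ D₃ D₄ D₅ D₆ : ℝ}, FourSys a b c d D₁ D₂ D₃ D₄ D₅ D₆ → c ≤ b → d ≤ c →
      D₁ ^ 2 + D₂ ^ 2 + D₃ ^ 2 + D₄ ^ 2 + D₅ ^ 2 + D₆ ^ 2 ≤ 1455330 / 65536 := by
    intro a b c d D₁ D₂ D₃ D₄ D₅ D₆ hs o2 o3
    rcases le_total b a with h1 | h1
    · exact S3 hs h1 o2 o3
    rcases le_total c a with h2 | h2
    · have := S3 hs.swap12 h1 h2 o3
      linarith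
    rcases le_total d a with h3 | h3
    · have := S3 hs.swap12.swap23 o2 h2 h3
      linarith
    · have := S3 hs.swap12.swap23.swap34 o2 o3 h3
      linarith
  -- insert the second one
  have S1 : ∀ {a b c d D₁ D₂ D₃ D₄ D₅ D₆ : ℝ}, FourSys a b c d D₁ D₂ D₃ D₄ D₅ D₆ → d ≤ c →
      D₁ ^ 2 + D₂ ^ 2 + D₃ ^ 2 + D₄ ^ 2 + D₅ ^ 2 + D₆ ^ 2 ≤ 1455330 / 65536 := by
    intro a b c d D₁ D₂ D₃ D₄ D₅ D₆ hs o3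
    rcases le_total c b with h1 | h1
    · exact S2 hs h1 o3
    rcases le_total d b with h2 | h2
    · have := S2 hs.swap23 h1 h2
      linarith
    · have := S2 hs.swap23.swap34 o3 h2
      linarith
  rcases le_total t₄ t₃ with h1 | h1
  · exact S1 h h1
  · have := S1 h.swap34 h1
    linarith

/-- The closed system has no solution with a large sum of squares of angles. -/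
theorem fourSys_noSol (t₁ t₂ t₃ t₄ D₁₂ D₁₃ D₁₄ D₂₃ D₂₄ D₃₄ : ℝ)
    (h : FourSys t₁ t₂ t₃ t₄ D₁₂ D₁₃ D₁₄ D₂₃ D₂₄ D₃₄) :
    D₁₂ ^ 2 + D₁₃ ^ 2 + D₁₄ ^ 2 + D₂₃ ^ 2 + D₂₄ ^ 2 + D₃₄ ^ 2 ≤ 9 * π ^ 2 / 4 := by
  refine (fourSys_bound h).trans ?_
  have hpi := Real.pi_gt_d6
  have h2 : (3.141592 : ℝ) ^ 2 ≤ π ^ 2 := pow_le_pow_left₀ (by norm_num) hpi.le 2
  norm_num at h2 ⊢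
  linarith

variable (E : Type*) [NormedAddCommGroup E] [InnerProductSpace ℝ E] [FiniteDimensional ℝ E]
  [MeasurableSpace E] [BorelSpace E]

/-- The Gaussian propeller bound for partitions into at most four cells. -/
theorem PB_four : PB E 4 := PB_four_of_noSol fourSys_noSol

end Vale.Agent.Lib.P226
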