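import Vale.Agent.Lib.P226.Y.CoverCheck
import Mathlib

/-!
Correctness of the table and of the enclosures of the angles.
-/

open Real

namespace Vale.Agent.Lib.P226.Cov

/-- The bounds of an entry are correct. -/
def Ent.Valid (e : Ent) : Prop :=
  (e.sl : ℝ) / 1099511627776 ≤ sin ((e.j : ℝ) / 256) ∧
  sin ((e.j : ℝ) / 256) ≤ (e.su : ℝ) / 1099511627776 ∧
  (e.cl : ℝ) / 1099511627776 ≤ cos ((e.j : ℝ) / 256) + 1 ∧
  cos ((e.j : ℝ) / 256) + 1 ≤ (e.cu : ℝ) / 1099511627776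

/-- A property of all the entries of a tree. -/
def Tr.All (P : Ent → Prop) : Tr → Prop
  | .leaf => True
  | .node e l r => P e ∧ Tr.All P l ∧ Tr.All P r

lemma Tr.All.imp {P Q : Ent → Prop} (hPQ : ∀ e, P e → Q e) : ∀ t : Tr, t.All P → t.All Q
  | .leaf, _ => trivial
  | .node e l r, h => ⟨hPQ e h.1, Tr.All.imp hPQ l h.2.1, Tr.All.imp hPQ r h.2.2⟩

/-- One step of the addition formulas in interval arithmetic. -/
lemma step_real {s c S C sl su cl cu SL SU CL CU sl' su' cl' cu' Z : ℝ} (hZ : 0 < Z)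
    (h1 : sl / Z ≤ s) (h2 : s ≤ su / Z) (h3 : cl / Z ≤ c + 1) (h4 : c + 1 ≤ cu / Z)
    (h5 : SL / Z ≤ S) (h6 : S ≤ SU / Z) (h7 : CL / Z ≤ C) (h8 : C ≤ CU / Z)
    (n1 : 0 ≤ sl) (n2 : 0 ≤ cl) (n3 : 0 ≤ SL) (n4 : 0 ≤ CL)
    (e1 : sl' * Z + Z * SU ≤ sl * CL + cl * SL)
    (e2 : su * CU + cu * SU ≤ su' * Z + Z * SL)
    (e3 : cl' * Z + su * SU + Z * CU ≤ cl * CL + Z * Z)
    (e4 : cu * CU + Z * Z ≤ cu' * Z + sl * SL + Z * CL) :
    sl' / Z ≤ s * C + c * S ∧ s * C + c * S ≤ su' / Z ∧ cl' / Z ≤ c * C - s * S + 1 ∧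
      c * C - s * S + 1 ≤ cu' / Z := by
  rw [div_le_iff₀ hZ] at h1 h3 h5 h7
  rw [le_div_iff₀ hZ] at h2 h4 h6 h8
  obtain ⟨x, hx⟩ : ∃ x : ℝ, x = s * Z := ⟨_, rfl⟩
  obtain ⟨y, hy⟩ : ∃ y : ℝ, y = (c + 1) * Z := ⟨_, rfl⟩
  obtain ⟨X, hX⟩ : ∃ X : ℝ, X = S * Z := ⟨_, rfl⟩
  obtain ⟨W, hW⟩ : ∃ W : ℝ, W = C * Z := ⟨_, rfl⟩
  rw [← hx] at h1 h2
  rw [← hy] at h3 h4
  rw [← hX] at h5 h6
  rw [← hW] at h7 h8
  have hx0 : 0 ≤ x := n1.trans h1
  have hy0 : 0 ≤ y := n2.trans h3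
  have hX0 : 0 ≤ X := n3.trans h5
  have hW0 : 0 ≤ W := n4.trans h7
  have a1 : sl * CL ≤ x * W := mul_le_mul h1 h7 n4 hx0
  have a2 : cl * SL ≤ y * X := mul_le_mul h3 h5 n3 hy0
  have a3 : x * W ≤ su * CU := mul_le_mul h2 h8 hW0 (hx0.trans h2)
  have a4 : y * X ≤ cu * SU := mul_le_mul h4 h6 hX0 (hy0.trans h4)
  have a5 : sl * SL ≤ x * X := mul_le_mul h1 h5 n3 hx0
  have a6 : x * X ≤ su * SU := mul_le_mul h2 h6 hX0 (hx0.trans h2)
  have a7 : cl * CL ≤ y * W := mul_le_mul h3 h7 n4 hy0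
  have a8 : y * W ≤ cu * CU := mul_le_mul h4 h8 hW0 (hy0.trans h4)
  have b1 : Z * X ≤ Z * SU := mul_le_mul_of_nonneg_left h6 hZ.le
  have b2 : Z * SL ≤ Z * X := mul_le_mul_of_nonneg_left h5 hZ.le
  have b3 : Z * W ≤ Z * CU := mul_le_mul_of_nonneg_left h8 hZ.le
  have b4 : Z * CL ≤ Z * W := mul_le_mul_of_nonneg_left h7 hZ.le
  have f1 : (s * C + c * S) * Z * Z = x * W + y * X - Z * X := by
    rw [hx, hy, hX, hW]; ring
  have f2 : (c * C - s * S + 1) * Z * Z = y * W - x * X + Z * Z - Z * W := by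
    rw [hx, hy, hX, hW]; ring
  refine ⟨?_, ?_, ?_, ?_⟩
  · rw [div_le_iff₀ hZ]
    refine le_of_mul_le_mul_right ?_ hZ
    rw [f1]
    linarith
  · rw [le_div_iff₀ hZ]
    refine le_of_mul_le_mul_right ?_ hZ
    rw [f1]
    linarith
  · rw [div_le_iff₀ hZ]
    refine le_of_mul_le_mul_right ?_ hZ
    rw [f2]
    linarith
  · rw [le_div_iff₀ hZ]
    refine le_of_mul_le_mul_right ?_ hZ
    rw [f2]
    linarith

lemma sin_h_bounds :
    (4294956360 : ℝ) / 1099511627776 ≤ sin (1 / 256) ∧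
      sin (1 / 256) ≤ (4294956387 : ℝ) / 1099511627776 := by
  have h := Real.sin_bound (x := 1 / 256) (by rw [abs_of_pos] <;> norm_num)
  rw [abs_le, abs_of_pos (by norm_num : (0 : ℝ) < 1 / 256)] at h
  constructor <;> norm_num at h ⊢ <;> linarith [h.1, h.2]

lemma cos_h_bounds :
    (1099503239154 : ℝ) / 1099511627776 ≤ cos (1 / 256) ∧
      cos (1 / 256) ≤ (1099503239182 : ℝ) / 1099511627776 := by
  have h := Real.cos_bound (x := 1 / 256) (by rw [abs_of_pos] <;> norm_num)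
  rw [abs_le, abs_of_pos (by norm_num : (0 : ℝ) < 1 / 256)] at h
  constructor <;> norm_num at h ⊢ <;> linarith [h.1, h.2]

lemma stepOK_valid {p e : Ent} (hp : p.Valid) (h : stepOK p e = true) :
    e.Valid ∧ 1 ≤ e.j ∧ e.j ≤ 804 := by
  simp only [stepOK, Bool.and_eq_true, Nat.ble_eq, Nat.beq_eq] at h
  obtain ⟨⟨⟨⟨⟨⟨hj, hj1⟩, hj2⟩, h1⟩, h2⟩, h3⟩, h4⟩ := h
  refine ⟨?_, hj1, hj2⟩
  have hjr : (e.j : ℝ) / 256 = (p.j : ℝ) / 256 + 1 / 256 := by
    rw [hj]
    push_cast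
    ring
  obtain ⟨p1, p2, p3, p4⟩ := hp
  obtain ⟨s1, s2⟩ := sin_h_bounds
  obtain ⟨c1, c2⟩ := cos_h_bounds
  have e1 : (e.sl : ℝ) * 1099511627776 + 1099511627776 * 4294956387 ≤
      (p.sl : ℝ) * 1099503239154 + (p.cl : ℝ) * 4294956360 := by exact_mod_cast h1
  have e2 : (p.su : ℝ) * 1099503239182 + (p.cu : ℝ) * 4294956387 ≤
      (e.su : ℝ) * 1099511627776 + 1099511627776 * 4294956360 := by exact_mod_cast h2
  have e3 : (e.cl : ℝ) * 1099511627776 + (p.su : ℝ) * 4294956387 + 1099511627776 * 1099503239182 ≤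
      (p.cl : ℝ) * 1099503239154 + 1099511627776 * 1099511627776 := by exact_mod_cast h3
  have e4 : (p.cu : ℝ) * 1099503239182 + 1099511627776 * 1099511627776 ≤
      (e.cu : ℝ) * 1099511627776 + (p.sl : ℝ) * 4294956360 + 1099511627776 * 1099503239154 := by
    exact_mod_cast h4
  have := step_real (by norm_num : (0 : ℝ) < 1099511627776) p1 p2 p3 p4 s1 s2 c1 c2
    (Nat.cast_nonneg _) (Nat.cast_nonneg _) (by norm_num) (by norm_num) e1 e2 e3 e4
  unfold Ent.Valid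
  rw [hjr, sin_add, cos_add]
  exact this

lemma chain_sound : ∀ (t : Tr) (p q : Ent), p.Valid → chain t p = some q →
    t.All (fun e => e.Valid ∧ 1 ≤ e.j ∧ e.j ≤ 804) ∧ q.Valid
  | .leaf, p, q, hp, h => by
    simp only [chain, Option.some.injEq] at h
    subst h
    exact ⟨trivial, hp⟩
  | .node e l r, p, q, hp, h => by
    rw [chain] at h
    rcases hl : chain l p with _ | q'
    · rw [hl] at h
      simp at h
    · rw [hl] at h
      obtain ⟨hAl, hq'⟩ := chain_sound l p q' hp hl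
      simp only at h
      rcases hs : stepOK q' e with _ | _
      · rw [hs] at h
        simp at h
      · rw [hs] at h
        simp only [cond_true] at h
        obtain ⟨he, hj1, hj2⟩ := stepOK_valid hq' hs
        obtain ⟨hAr, hq⟩ := chain_sound r e q he h
        exact ⟨⟨⟨he, hj1, hj2⟩, hAl, hAr⟩, hq⟩

lemma ent0_valid : ent0.Valid := by
  simp [Ent.Valid, ent0]
  norm_num

/-- All the entries of the table are correct. -/
theorem tbl_all : tbl.All (fun e => e.Valid ∧ 1 ≤ e.j ∧ e.j ≤ 804) := by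
  obtain ⟨q, hq⟩ := Option.isSome_iff_exists.1 chain_tbl
  exact (chain_sound tbl ent0 q ent0_valid hq).1

/-- The function `sin x / x` is decreasing on `(0, π)`. -/
lemma mul_sin_lt {x y : ℝ} (hx : 0 < x) (hxy : x < y) (hy : y < π) :
    x * sin y < y * sin x := by
  have hy0 : 0 < y := hx.trans hxy
  have ha : 0 < 1 - x / y := by rw [sub_pos, div_lt_one hy0]; exact hxy
  have hb : 0 < x / y := by positivity
  have h := strictConcaveOn_sin_Icc.2 (Set.left_mem_Icc.2 pi_pos.le)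
    (Set.mem_Icc.2 ⟨hy0.le, hy.le⟩) hy0.ne ha hb (by ring)
  simp only [smul_eq_mul, sin_zero, mul_zero, zero_add] at h
  rw [div_mul_cancel₀ x hy0.ne'] at h
  have h2 := mul_lt_mul_of_pos_right h hy0
  calc x * sin y = x / y * sin y * y := by field_simp
    _ < sin x * y := h2
    _ = y * sin x := by ring

lemma angle_ge {t D g : ℝ} (hD0 : 0 < D) (hDπ : D < π) (hgπ : g < π) (ht : t * sin D = D)
    (h : g ≤ t * sin g) : g ≤ D := by
  by_contra hc
  push Not at hc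
  have h1 := mul_sin_lt hD0 hc hgπ
  have hs := sin_pos_of_pos_of_lt_pi hD0 hDπ
  have h2 : 0 ≤ sin D * (t * sin g - g) := mul_nonneg hs.le (sub_nonneg.2 h)
  have e : D * sin g = sin D * (t * sin g) := by
    conv_lhs => rw [← ht]
    ring
  have e2 : sin D * (t * sin g - g) = sin D * (t * sin g) - g * sin D := by ring
  linarith

lemma angle_le {t D g : ℝ} (hD0 : 0 < D) (hDπ : D < π) (hg0 : 0 < g) (ht : t * sin D = D)
    (h : t * sin g ≤ g) : D ≤ g := by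
  by_contra hc
  push Not at hc
  have h1 := mul_sin_lt hg0 hc hDπ
  have hs := sin_pos_of_pos_of_lt_pi hD0 hDπ
  have h2 : 0 ≤ sin D * (g - t * sin g) := mul_nonneg hs.le (sub_nonneg.2 h)
  have e : D * sin g = sin D * (t * sin g) := by
    conv_lhs => rw [← ht]
    ring
  have e2 : sin D * (g - t * sin g) = g * sin D - sin D * (t * sin g) := by ring
  linarith

lemma grid_bounds {j : ℕ} (h1 : 1 ≤ j) (h2 : j ≤ 804) :
    0 < (j : ℝ) / 256 ∧ (j : ℝ) / 256 < π := by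
  have h1' : (1 : ℝ) ≤ j := by exact_mod_cast h1
  have h2' : (j : ℝ) ≤ 804 := by exact_mod_cast h2
  have hpi := Real.pi_gt_d4
  constructor
  · positivity
  · rw [div_lt_iff₀ (by norm_num)]
    linarith

lemma entry_lo {e : Ent} (hv : e.Valid) (hj1 : 1 ≤ e.j) (hj2 : e.j ≤ 804) {la lb : ℕ}
    {ta tb D : ℝ} (hla : (la : ℝ) / 16384 ≤ ta) (hlb : (lb : ℝ) / 16384 ≤ tb)
    (ht : ta * tb * sin D = D) (hD0 : 0 < D) (hDπ : D < π)
    (hp : predLo (la * lb) e = true) : (e.j : ℝ) / 256 ≤ D := by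
  obtain ⟨hg0, hgπ⟩ := grid_bounds hj1 hj2
  refine angle_ge hD0 hDπ hgπ ht ?_
  simp only [predLo, Nat.ble_eq] at hp
  have hp' : (e.j : ℝ) * 1152921504606846976 ≤ (la : ℝ) * lb * e.sl := by exact_mod_cast hp
  have h1 : (la : ℝ) / 16384 * ((lb : ℝ) / 16384) ≤ ta * tb :=
    mul_le_mul hla hlb (by positivity) (le_trans (by positivity) hla)
  have h2 : (la : ℝ) / 16384 * ((lb : ℝ) / 16384) * ((e.sl : ℝ) / 1099511627776) ≤
      ta * tb * sin ((e.j : ℝ) / 256) :=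
    mul_le_mul h1 hv.1 (by positivity) (le_trans (by positivity) h1)
  refine le_trans ?_ h2
  rw [show (la : ℝ) / 16384 * ((lb : ℝ) / 16384) * ((e.sl : ℝ) / 1099511627776) =
    ((la : ℝ) * lb * e.sl) / 295147905179352825856 by ring, le_div_iff₀ (by norm_num)]
  linarith

lemma entry_hi {e : Ent} (hv : e.Valid) (hj1 : 1 ≤ e.j) (hj2 : e.j ≤ 804) {ua ub : ℕ}
    {ta tb D : ℝ} (ha0 : 0 ≤ ta) (hb0 : 0 ≤ tb) (hua : ta ≤ (ua : ℝ) / 16384)
    (hub : tb ≤ (ub : ℝ) / 16384)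
    (ht : ta * tb * sin D = D) (hD0 : 0 < D) (hDπ : D < π)
    (hp : predHi (ua * ub) e = true) : D ≤ (e.j : ℝ) / 256 := by
  obtain ⟨hg0, hgπ⟩ := grid_bounds hj1 hj2
  refine angle_le hD0 hDπ hg0 ht ?_
  simp only [predHi, Nat.ble_eq] at hp
  have hp' : (ua : ℝ) * ub * e.su ≤ (e.j : ℝ) * 1152921504606846976 := by exact_mod_cast hp
  have hs0 : 0 ≤ sin ((e.j : ℝ) / 256) := (sin_pos_of_pos_of_lt_pi hg0 hgπ).le
  have h1 : ta * tb ≤ (ua : ℝ) / 16384 * ((ub : ℝ) / 16384) :=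
    mul_le_mul hua hub hb0 (le_trans ha0 hua)
  have h2 : ta * tb * sin ((e.j : ℝ) / 256) ≤
      (ua : ℝ) / 16384 * ((ub : ℝ) / 16384) * ((e.su : ℝ) / 1099511627776) :=
    mul_le_mul h1 hv.2.1 hs0 (le_trans (mul_nonneg ha0 hb0) h1)
  refine le_trans h2 ?_
  rw [show (ua : ℝ) / 16384 * ((ub : ℝ) / 16384) * ((e.su : ℝ) / 1099511627776) =
    ((ua : ℝ) * ub * e.su) / 295147905179352825856 by ring, div_le_iff₀ (by norm_num)]
  linarith

lemma searchLo_spec (P : Ent → Prop) (pl : ℕ) : ∀ (t : Tr) (b : Ent), P b →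
    t.All (fun e => predLo pl e = true → P e) → P (searchLo pl t b)
  | .leaf, _, hb, _ => hb
  | .node e l r, b, hb, h => by
    rw [searchLo]
    rcases hp : predLo pl e with _ | _
    · simp only [cond_false]
      exact searchLo_spec P pl l b hb h.2.1
    · simp only [cond_true]
      exact searchLo_spec P pl r e (h.1 hp) h.2.2

lemma searchHi_spec (P : Ent → Prop) (ph : ℕ) : ∀ (t : Tr) (b : Ent), P b →
    t.All (fun e => predHi ph e = true → P e) → P (searchHi ph t b)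
  | .leaf, _, hb, _ => hb
  | .node e l r, b, hb, h => by
    rw [searchHi]
    rcases hp : predHi ph e with _ | _
    · simp only [cond_false]
      exact searchHi_spec P ph r b hb h.2.2
    · simp only [cond_true]
      exact searchHi_spec P ph l e (h.1 hp) h.2.1

/-- The enclosure of an angle. -/
def PairOK (D : ℝ) (p : PI) : Prop :=
  D ≤ (p.jh : ℝ) / 256 ∧ (p.cl : ℝ) / 1099511627776 ≤ cos D + 1 ∧
    cos D + 1 ≤ (p.cu : ℝ) / 1099511627776

/-- The correctness of the enclosure computed from a box. -/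
theorem pairInfo_sound {T : Tr} (hT : T.All (fun e => e.Valid ∧ 1 ≤ e.j ∧ e.j ≤ 804))
    {la ua lb ub : ℕ} {ta tb D : ℝ} (hla : (la : ℝ) / 16384 ≤ ta)
    (hua : ta ≤ (ua : ℝ) / 16384) (hlb : (lb : ℝ) / 16384 ≤ tb) (hub : tb ≤ (ub : ℝ) / 16384)
    (ht : ta * tb * sin D = D) (hD0 : 0 < D) (hDπ : D < π) :
    PairOK D (pairInfo T la ua lb ub) := by
  have ha0 : 0 ≤ ta := le_trans (by positivity) hla
  have hb0 : 0 ≤ tb := le_trans (by positivity) hlb
  have hhi : D ≤ ((searchHi (ua * ub) T (Ent.mk 805 0 0 0 2199023255552)).j : ℝ) / 256 ∧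
      ((searchHi (ua * ub) T (Ent.mk 805 0 0 0 2199023255552)).cl : ℝ) / 1099511627776 ≤
        cos D + 1 := by
    refine searchHi_spec (fun e => D ≤ (e.j : ℝ) / 256 ∧ (e.cl : ℝ) / 1099511627776 ≤ cos D + 1)
      _ _ _ ⟨?_, ?_⟩ (Tr.All.imp ?_ _ hT)
    · have hpi := Real.pi_lt_d4
      simp only
      push_cast
      linarith
    · simp only
      push_cast
      have := neg_one_le_cos D
      linarith
    · rintro e ⟨hv, hj1, hj2⟩ hp
      have hD := entry_hi hv hj1 hj2 ha0 hb0 hua hub ht hD0 hDπ hp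
      refine ⟨hD, hv.2.2.1.trans ?_⟩
      have := Real.cos_le_cos_of_nonneg_of_le_pi hD0.le (grid_bounds hj1 hj2).2.le hD
      linarith
  have hlo : cos D + 1 ≤
      ((searchLo (la * lb) T (Ent.mk 0 0 0 2199023255552 2199023255552)).cu : ℝ) /
        1099511627776 := by
    refine searchLo_spec (fun e => cos D + 1 ≤ (e.cu : ℝ) / 1099511627776)
      _ _ _ ?_ (Tr.All.imp ?_ _ hT)
    · simp only
      push_cast
      have := cos_le_one D
      norm_num
      linarith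
    · rintro e ⟨hv, hj1, hj2⟩ hp
      have hD := entry_lo hv hj1 hj2 hla hlb ht hD0 hDπ hp
      refine le_trans ?_ hv.2.2.2
      have := Real.cos_le_cos_of_nonneg_of_le_pi (grid_bounds hj1 hj2).1.le hDπ.le hD
      linarith
  exact ⟨hhi.1, hhi.2, hlo⟩

lemma withPI_eq (T : Tr) (la ua lb ub : ℕ) (k : PI → Bool) :
    withPI T la ua lb ub k = k (pairInfo T la ua lb ub) := by
  unfold withPI
  rcases pairInfo T la ua lb ub with ⟨a, b, c⟩
  rfl

end Vale.Agent.Lib.P226.Cov
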