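import Vale.Agent.Lib.P226.Y.System
import Vale.Agent.Lib.P226.X.Crit

/-!
The three cell case of the propeller bound, and the reduction of the four cell case to the closed
system of `Y.System`.
-/

open MeasureTheory ProbabilityTheory Real Set Filter Topology
open scoped RealInnerProductSpace ENNReal NNReal

namespace Vale.Agent.Lib.P226

variable {E : Type*} [NormedAddCommGroup E] [InnerProductSpace ℝ E] [FiniteDimensional ℝ E]
  [MeasurableSpace E] [BorelSpace E]

/-- The reflection invariance of the Gaussian measure. -/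
lemma integral_comp_neg_gauss {f : E → ℝ} (hf : Integrable f (stdGaussian E)) :
    ∫ x, f (-x) ∂(stdGaussian E) = ∫ x, f x ∂(stdGaussian E) := by
  have hmap : (stdGaussian E).map (LinearIsometryEquiv.neg ℝ (E := E)) = stdGaussian E :=
    stdGaussian_map _
  have hm : Measurable (LinearIsometryEquiv.neg ℝ (E := E)) :=
    (LinearIsometryEquiv.neg ℝ (E := E)).continuous.measurable
  conv_rhs => rw [← hmap]
  rw [integral_map hm.aemeasurable (by rw [hmap]; exact hf.aestronglyMeasurable)]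
  rfl

/-- The mean of the absolute value of a linear form. -/
lemma integral_abs_inner (z : E) : ∫ x, |⟪z, x⟫| ∂(stdGaussian E) = 2 * cG * ‖z‖ := by
  by_cases hz : z = 0
  · subst hz
    simp
  have e : ∀ x : E, |⟪z, x⟫| = max (⟪z, x⟫ - 0) 0 + max (⟪-z, x⟫ - 0) 0 := by
    intro x
    rw [inner_neg_left, sub_zero, sub_zero]
    rcases le_total 0 ⟪z, x⟫ with h | h
    · rw [abs_of_nonneg h, max_eq_left h, max_eq_right (by linarith), add_zero]
    · rw [abs_of_nonpos h, max_eq_right h, max_eq_left (by linarith), zero_add]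
  simp_rw [e]
  rw [integral_add (integrable_max_inner z 0) (integrable_max_inner (-z) 0),
    integral_max_inner z hz 0, integral_max_inner (-z) (neg_ne_zero.mpr hz) 0, norm_neg]
  simp only [zero_div, psi_zero]
  ring

omit [FiniteDimensional ℝ E] [MeasurableSpace E] [BorelSpace E] in
/-- Pointwise identity for three numbers. -/
lemma max3_add_neg (a b c : ℝ) :
    max (max a b) c + max (max (-a) (-b)) (-c) = (|a - b| + |b - c| + |a - c|) / 2 := by
  simp only [abs_eq_max_neg, max_def]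
  split_ifs <;> linarith

/-- The mean of the maximum of three linear forms. -/
lemma integral_max3 (p q r : E) :
    ∫ x, max (max ⟪p, x⟫ ⟪q, x⟫) ⟪r, x⟫ ∂(stdGaussian E) =
      cG / 2 * (‖p - q‖ + ‖q - r‖ + ‖p - r‖) := by
  have hi : Integrable (fun x : E => max (max ⟪p, x⟫ ⟪q, x⟫) ⟪r, x⟫) (stdGaussian E) :=
    ((integrable_inner p).sup (integrable_inner q)).sup (integrable_inner r)
  have h1 := integral_comp_neg_gauss hi
  have h2 : ∫ x, (max (max ⟪p, x⟫ ⟪q, x⟫) ⟪r, x⟫ + max (max ⟪p, -x⟫ ⟪q, -x⟫) ⟪r, -x⟫)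
      ∂(stdGaussian E) = ∫ x, (|⟪p - q, x⟫| + |⟪q - r, x⟫| + |⟪p - r, x⟫|) / 2 ∂(stdGaussian E) := by
    congr 1
    ext x
    simp only [inner_neg_right, inner_sub_left]
    exact max3_add_neg _ _ _
  have hneg : Integrable (fun x : E => max (max ⟪p, -x⟫ ⟪q, -x⟫) ⟪r, -x⟫) (stdGaussian E) := by
    have hb : Integrable (fun x : E => -⟪p, x⟫) (stdGaussian E) := (integrable_inner p).neg
    have hc : Integrable (fun x : E => -⟪q, x⟫) (stdGaussian E) := (integrable_inner q).neg
    have hd : Integrable (fun x : E => -⟪r, x⟫) (stdGaussian E) := (integrable_inner r).neg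
    simp only [inner_neg_right]
    exact (hb.sup hc).sup hd
  have hA : Integrable (fun x : E => |⟪p - q, x⟫|) (stdGaussian E) := (integrable_inner (p - q)).abs
  have hB : Integrable (fun x : E => |⟪q - r, x⟫|) (stdGaussian E) := (integrable_inner (q - r)).abs
  have hC : Integrable (fun x : E => |⟪p - r, x⟫|) (stdGaussian E) := (integrable_inner (p - r)).abs
  have hAB : Integrable (fun x : E => |⟪p - q, x⟫| + |⟪q - r, x⟫|) (stdGaussian E) := hA.add hB
  rw [integral_add hi hneg, h1, integral_div, integral_add hAB hC, integral_add hA hB,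
    integral_abs_inner, integral_abs_inner, integral_abs_inner] at h2
  linarith

omit [FiniteDimensional ℝ E] [MeasurableSpace E] [BorelSpace E] in
/-- The energy bound from the mean of the maximum, three vectors of sum zero. -/
lemma three_energy_bound {p q r : E} (hs : p + q + r = 0)
    (h : ‖p‖ ^ 2 + ‖q‖ ^ 2 + ‖r‖ ^ 2 ≤ cG / 2 * (‖p - q‖ + ‖q - r‖ + ‖p - r‖)) :
    ‖p‖ ^ 2 + ‖q‖ ^ 2 + ‖r‖ ^ 2 ≤ t0 := by
  obtain ⟨X, hX⟩ : ∃ X : ℝ, X = ‖p‖ ^ 2 + ‖q‖ ^ 2 + ‖r‖ ^ 2 := ⟨_, rfl⟩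
  rw [← hX] at h ⊢
  have hXnn : 0 ≤ X := by rw [hX]; positivity
  have hpair : ‖p - q‖ ^ 2 + ‖q - r‖ ^ 2 + ‖p - r‖ ^ 2 = 3 * X := by
    have h0 : ⟪p + q + r, p + q + r⟫ = 0 := by rw [hs, inner_zero_left]
    simp only [inner_add_left, inner_add_right] at h0
    rw [real_inner_comm p q, real_inner_comm p r, real_inner_comm q r] at h0
    simp only [real_inner_self_eq_norm_sq] at h0
    simp only [norm_sub_sq_real]
    rw [hX]
    linear_combination (-1 : ℝ) * h0
  have hcs : (‖p - q‖ + ‖q - r‖ + ‖p - r‖) ^ 2 ≤ 9 * X := by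
    nlinarith [sq_nonneg (‖p - q‖ - ‖q - r‖), sq_nonneg (‖q - r‖ - ‖p - r‖),
      sq_nonneg (‖p - q‖ - ‖p - r‖)]
  have hc := cG_pos
  have hsq : X ^ 2 ≤ (cG / 2) ^ 2 * (9 * X) := by
    calc X ^ 2 ≤ (cG / 2 * (‖p - q‖ + ‖q - r‖ + ‖p - r‖)) ^ 2 :=
          pow_le_pow_left₀ hXnn h 2
      _ = (cG / 2) ^ 2 * (‖p - q‖ + ‖q - r‖ + ‖p - r‖) ^ 2 := by ring
      _ ≤ _ := mul_le_mul_of_nonneg_left hcs (by positivity)
  have hval : (cG / 2) ^ 2 * 9 = t0 := by
    unfold t0
    rw [div_pow, cG_sq']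
    have := Real.pi_pos
    field_simp
    norm_num
  rcases hXnn.eq_or_lt with h0 | h0
  · rw [← h0]
    exact t0_pos_M1.le
  · have h3 : X * X ≤ t0 * X := by
      calc X * X = X ^ 2 := by ring
        _ ≤ (cG / 2) ^ 2 * (9 * X) := hsq
        _ = t0 * X := by rw [← hval]; ring
    exact le_of_mul_le_mul_right h3 h0

/-- A partition into at most three cells has energy at most `t0`. -/
theorem PB_three : PB E 3 := by
  classical
  intro S hcard A hA
  rcases S.eq_empty_or_nonempty with rfl | hS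
  · simpa using t0_pos_M1.le
  obtain ⟨p, q, r, hsum, hE, hmx⟩ : ∃ p q r : E, p + q + r = 0 ∧
      ∑ l ∈ S, ‖mom (A l)‖ ^ 2 = ‖p‖ ^ 2 + ‖q‖ ^ 2 + ‖r‖ ^ 2 ∧
      ∀ x : E, mx S hS (fun l => mom (A l)) x ≤ max (max ⟪p, x⟫ ⟪q, x⟫) ⟪r, x⟫ := by
    have hs0 := sum_mom_eq_zero hA
    have hcases : S.card = 1 ∨ S.card = 2 ∨ S.card = 3 := by
      have := Finset.card_pos.2 hS
      omega
    rcases hcases with h1 | h2 | h3
    · obtain ⟨a, rfl⟩ := Finset.card_eq_one.1 h1
      refine ⟨mom (A a), 0, 0, ?_, ?_, fun x => ?_⟩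
      · simpa using hs0
      · simp
      · refine mx_le _ _ x fun l hl => ?_
        rw [Finset.mem_singleton] at hl
        subst hl
        exact (le_max_left _ _).trans (le_max_left _ _)
    · obtain ⟨a, b, hab, rfl⟩ := Finset.card_eq_two.1 h2
      refine ⟨mom (A a), mom (A b), 0, ?_, ?_, fun x => ?_⟩
      · rw [Finset.sum_pair hab] at hs0
        simpa using hs0
      · rw [Finset.sum_pair hab]
        simp
      · refine mx_le _ _ x fun l hl => ?_
        simp only [Finset.mem_insert, Finset.mem_singleton] at hl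
        rcases hl with rfl | rfl
        · exact (le_max_left _ _).trans (le_max_left _ _)
        · exact (le_max_right _ _).trans (le_max_left _ _)
    · obtain ⟨a, b, c, hab, hac, hbc, rfl⟩ := Finset.card_eq_three.1 h3
      have hsum3 : ∀ f : ℕ → ℝ, ∑ l ∈ ({a, b, c} : Finset ℕ), f l = f a + f b + f c := by
        intro f
        rw [Finset.sum_insert (by simp [hab, hac]), Finset.sum_pair hbc]
        ring
      refine ⟨mom (A a), mom (A b), mom (A c), ?_, hsum3 _, fun x => ?_⟩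
      · rw [Finset.sum_insert (by simp [hab, hac]), Finset.sum_pair hbc] at hs0
        rw [← hs0]
        abel
      · refine mx_le _ _ x fun l hl => ?_
        simp only [Finset.mem_insert, Finset.mem_singleton] at hl
        rcases hl with rfl | rfl | rfl
        · exact (le_max_left _ _).trans (le_max_left _ _)
        · exact (le_max_right _ _).trans (le_max_left _ _)
        · exact le_max_right _ _
  have h1 := sum_sq_le_integral_mx hA hS
  have hi : Integrable (fun x : E => max (max ⟪p, x⟫ ⟪q, x⟫) ⟪r, x⟫) (stdGaussian E) :=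
    ((integrable_inner p).sup (integrable_inner q)).sup (integrable_inner r)
  have h2 : ∫ x, mx S hS (fun l => mom (A l)) x ∂(stdGaussian E) ≤
      ∫ x, max (max ⟪p, x⟫ ⟪q, x⟫) ⟪r, x⟫ ∂(stdGaussian E) :=
    integral_mono (integrable_mx hS _) hi hmx
  rw [integral_max3] at h2
  rw [hE] at h1 ⊢
  exact three_energy_bound hsum (h1.trans h2)

/-- The four cell bound follows from the absence of solutions of the closed system with large
sum of squared angles. -/
theorem PB_four_of_noSol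
    (hno : ∀ t₁ t₂ t₃ t₄ D₁₂ D₁₃ D₁₄ D₂₃ D₂₄ D₃₄ : ℝ, FourSys t₁ t₂ t₃ t₄ D₁₂ D₁₃ D₁₄ D₂₃ D₂₄ D₃₄ →
      D₁₂ ^ 2 + D₁₃ ^ 2 + D₁₄ ^ 2 + D₂₃ ^ 2 + D₂₄ ^ 2 + D₃₄ ^ 2 ≤ 9 * π ^ 2 / 4) :
    PB E 4 := by
  classical
  intro S hcard A hA
  by_cases h3 : S.card ≤ 3
  · exact PB_three S h3 A hA
  have h4 : S.card = 3 + 1 := by omega
  by_contra hF
  push Not at hF
  obtain ⟨u, hu⟩ := exists_crit (n := 3) (by norm_num) PB_three h4 hA hF
  obtain ⟨a, T, ha, hST, hT⟩ := Finset.card_eq_succ.1 h4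
  obtain ⟨b, c, d, hbc, hbd, hcd, rfl⟩ := Finset.card_eq_three.1 hT
  simp only [Finset.mem_insert, Finset.mem_singleton, not_or] at ha
  obtain ⟨hab, hac, had⟩ := ha
  obtain ⟨t₁, t₂, t₃, t₄, D₁₂, D₁₃, D₁₄, D₂₃, D₂₄, D₃₄, hsys, hbig⟩ :=
    crit4_big hu hST.symm hab hac had hbc hbd hcd
  exact absurd (hno _ _ _ _ _ _ _ _ _ _ hsys) (not_le.2 hbig)

end Vale.Agent.Lib.P226
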