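import Vale.Agent.Lib.P226.Y.CoverSound1
import Vale.Agent.Lib.P226.Y.PB3

/-!
Correctness of the branch and bound search, and the absence of solutions of the closed system with
a large sum of squares of angles.
-/

open Real

namespace Vale.Agent.Lib.P226.Cov

open Vale.Agent.Lib.P226

/-- Lower bound of a term of a row. -/
lemma term_lo {t c : ℝ} {L U cl : ℕ} (hl : (L : ℝ) / 16384 ≤ t) (hu : t ≤ (U : ℝ) / 16384)
    (hc : (cl : ℝ) / 1099511627776 ≤ c + 1) :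
    ((L * (cl - 1099511627776) : ℕ) : ℝ) - ((U * (1099511627776 - cl) : ℕ) : ℝ) ≤
      t * c * (16384 * 1099511627776) := by
  have ht0 : 0 ≤ t := le_trans (by positivity) hl
  rw [div_le_iff₀ (by norm_num)] at hc hl
  rw [le_div_iff₀ (by norm_num)] at hu
  rcases le_total cl 1099511627776 with h | h
  · rw [Nat.sub_eq_zero_of_le h, Nat.cast_mul, Nat.cast_mul, Nat.cast_sub h]
    push_cast
    have h1 : t * 16384 * (1099511627776 - (cl : ℝ)) ≤ (U : ℝ) * (1099511627776 - (cl : ℝ)) :=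
      mul_le_mul_of_nonneg_right hu (by
        have : (cl : ℝ) ≤ 1099511627776 := by exact_mod_cast h
        linarith)
    have h2 : t * 16384 * (1099511627776 - (cl : ℝ)) + t * c * (16384 * 1099511627776) ≥ 0 := by
      have : t * 16384 * ((c + 1) * 1099511627776 - (cl : ℝ)) ≥ 0 :=
        mul_nonneg (by positivity) (sub_nonneg.2 hc)
      nlinarith [this]
    linarith
  · rw [Nat.sub_eq_zero_of_le h, Nat.cast_mul, Nat.cast_mul, Nat.cast_sub h]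
    push_cast
    have hcl : (1099511627776 : ℝ) ≤ cl := by exact_mod_cast h
    have h1 : (L : ℝ) * ((cl : ℝ) - 1099511627776) ≤ t * 16384 * ((cl : ℝ) - 1099511627776) :=
      mul_le_mul_of_nonneg_right hl (by linarith)
    have h2 : t * 16384 * ((cl : ℝ) - 1099511627776) ≤ t * 16384 * (c * 1099511627776) :=
      mul_le_mul_of_nonneg_left (by linarith) (by positivity)
    nlinarith [h1, h2]

/-- Upper bound of a term of a row. -/
lemma term_hi {t c : ℝ} {L U cu : ℕ} (hl : (L : ℝ) / 16384 ≤ t) (hu : t ≤ (U : ℝ) / 16384)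
    (hc : c + 1 ≤ (cu : ℝ) / 1099511627776) :
    t * c * (16384 * 1099511627776) ≤
      ((U * (cu - 1099511627776) : ℕ) : ℝ) - ((L * (1099511627776 - cu) : ℕ) : ℝ) := by
  have ht0 : 0 ≤ t := le_trans (by positivity) hl
  rw [le_div_iff₀ (by norm_num)] at hc hu
  rw [div_le_iff₀ (by norm_num)] at hl
  rcases le_total cu 1099511627776 with h | h
  · rw [Nat.sub_eq_zero_of_le h, Nat.cast_mul, Nat.cast_mul, Nat.cast_sub h]
    push_cast
    have hcu : (cu : ℝ) ≤ 1099511627776 := by exact_mod_cast h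
    have h1 : (L : ℝ) * (1099511627776 - (cu : ℝ)) ≤ t * 16384 * (1099511627776 - (cu : ℝ)) :=
      mul_le_mul_of_nonneg_right hl (by linarith)
    have h2 : t * 16384 * (c * 1099511627776) ≤ t * 16384 * ((cu : ℝ) - 1099511627776) :=
      mul_le_mul_of_nonneg_left (by linarith) (by positivity)
    nlinarith [h1, h2]
  · rw [Nat.sub_eq_zero_of_le h, Nat.cast_mul, Nat.cast_mul, Nat.cast_sub h]
    push_cast
    have hcu : (1099511627776 : ℝ) ≤ cu := by exact_mod_cast h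
    have h1 : t * 16384 * ((cu : ℝ) - 1099511627776) ≤ (U : ℝ) * ((cu : ℝ) - 1099511627776) :=
      mul_le_mul_of_nonneg_right hu (by linarith)
    have h2 : t * 16384 * (c * 1099511627776) ≤ t * 16384 * ((cu : ℝ) - 1099511627776) :=
      mul_le_mul_of_nonneg_left (by linarith) (by positivity)
    nlinarith [h1, h2]

/-- A row cannot vanish if the test succeeds. -/
lemma rowTest_sound {la ua lb ub lc uc ld ud : ℕ} {pb pc pd : PI} {ta tb tc td Db Dc Dd : ℝ}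
    (hla : (la : ℝ) / 16384 ≤ ta) (hua : ta ≤ (ua : ℝ) / 16384)
    (hlb : (lb : ℝ) / 16384 ≤ tb) (hub : tb ≤ (ub : ℝ) / 16384)
    (hlc : (lc : ℝ) / 16384 ≤ tc) (huc : tc ≤ (uc : ℝ) / 16384)
    (hld : (ld : ℝ) / 16384 ≤ td) (hud : td ≤ (ud : ℝ) / 16384)
    (hb : PairOK Db pb) (hc : PairOK Dc pc) (hd : PairOK Dd pd)
    (hr : ta + tb * cos Db + tc * cos Dc + td * cos Dd = 0)
    (ht : rowTest la ua lb ub lc uc ld ud pb pc pd = true) : False := by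
  have key : (ta + tb * cos Db + tc * cos Dc + td * cos Dd) * (16384 * 1099511627776) = 0 := by
    rw [hr, zero_mul]
  simp only [rowTest, Bool.or_eq_true, Nat.blt_eq] at ht
  rcases ht with ht | ht
  · have t1 := term_lo hlb hub hb.2.1
    have t2 := term_lo hlc huc hc.2.1
    have t3 := term_lo hld hud hd.2.1
    have ht' : ((ub * (1099511627776 - pb.cl) + uc * (1099511627776 - pc.cl)
        + ud * (1099511627776 - pd.cl) : ℕ) : ℝ) < ((la * 1099511627776 + lb * (pb.cl - 1099511627776)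
        + lc * (pc.cl - 1099511627776) + ld * (pd.cl - 1099511627776) : ℕ) : ℝ) := by
      exact_mod_cast ht
    rw [Nat.cast_add, Nat.cast_add, Nat.cast_add, Nat.cast_add, Nat.cast_add, Nat.cast_mul la,
      Nat.cast_ofNat] at ht'
    have h0 : (la : ℝ) * 1099511627776 ≤ ta * (16384 * 1099511627776) := by
      rw [div_le_iff₀ (by norm_num)] at hla
      have := mul_le_mul_of_nonneg_right hla (by norm_num : (0 : ℝ) ≤ 1099511627776)
      linarith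
    have key' : ta * (16384 * 1099511627776) + tb * cos Db * (16384 * 1099511627776)
        + tc * cos Dc * (16384 * 1099511627776) + td * cos Dd * (16384 * 1099511627776) = 0 := by
      rw [← key]
      ring
    linarith
  · have t1 := term_hi hlb hub hb.2.2
    have t2 := term_hi hlc huc hc.2.2
    have t3 := term_hi hld hud hd.2.2
    have ht' : ((ua * 1099511627776 + ub * (pb.cu - 1099511627776) + uc * (pc.cu - 1099511627776)
        + ud * (pd.cu - 1099511627776) : ℕ) : ℝ) < ((lb * (1099511627776 - pb.cu)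
        + lc * (1099511627776 - pc.cu) + ld * (1099511627776 - pd.cu) : ℕ) : ℝ) := by
      exact_mod_cast ht
    rw [Nat.cast_add, Nat.cast_add, Nat.cast_add, Nat.cast_add, Nat.cast_add, Nat.cast_mul ua,
      Nat.cast_ofNat] at ht'
    have h0 : ta * (16384 * 1099511627776) ≤ (ua : ℝ) * 1099511627776 := by
      rw [le_div_iff₀ (by norm_num)] at hua
      have := mul_le_mul_of_nonneg_right hua (by norm_num : (0 : ℝ) ≤ 1099511627776)
      linarith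
    have key' : ta * (16384 * 1099511627776) + tb * cos Db * (16384 * 1099511627776)
        + tc * cos Dc * (16384 * 1099511627776) + td * cos Dd * (16384 * 1099511627776) = 0 := by
      rw [← key]
      ring
    linarith

/-- Membership in an interval of the grid. -/
def InB (l u : ℕ) (t : ℝ) : Prop := (l : ℝ) / 16384 ≤ t ∧ t ≤ (u : ℝ) / 16384

lemma prod_gt_one {p D : ℝ} (h : p * sin D = D) (h0 : 0 < D) (h1 : D < π) : 1 < p := by
  have hs := sin_pos_of_pos_of_lt_pi h0 h1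
  have hl := Real.sin_lt h0
  by_contra hc
  push Not at hc
  have : p * sin D ≤ 1 * sin D := mul_le_mul_of_nonneg_right hc hs.le
  linarith

lemma prod_test {ta tb D : ℝ} {ua ub : ℕ} (ha0 : 0 ≤ ta) (hb0 : 0 ≤ tb)
    (hua : ta ≤ (ua : ℝ) / 16384) (hub : tb ≤ (ub : ℝ) / 16384)
    (h : ta * tb * sin D = D) (h0 : 0 < D) (h1 : D < π) (ht : Nat.ble (ua * ub) 268435456 = true) :
    False := by
  have h2 := prod_gt_one h h0 h1
  simp only [Nat.ble_eq] at ht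
  have ht' : (ua : ℝ) * ub ≤ 268435456 := by exact_mod_cast ht
  have h3 : ta * tb ≤ (ua : ℝ) / 16384 * ((ub : ℝ) / 16384) :=
    mul_le_mul hua hub hb0 (le_trans ha0 hua)
  have h4 : (ua : ℝ) / 16384 * ((ub : ℝ) / 16384) = (ua : ℝ) * ub / 268435456 := by ring
  rw [h4] at h3
  have h5 : (ua : ℝ) * ub / 268435456 ≤ 1 := by
    rw [div_le_one (by norm_num)]
    exact ht'
  linarith

lemma sq_of_pairOK {D : ℝ} {p : PI} (h0 : 0 < D) (h : PairOK D p) :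
    D ^ 2 ≤ ((p.jh * p.jh : ℕ) : ℝ) / 65536 := by
  have h1 := pow_le_pow_left₀ h0.le h.1 2
  push_cast
  calc D ^ 2 ≤ ((p.jh : ℝ) / 256) ^ 2 := h1
    _ = _ := by ring

section Box

variable {t₁ t₂ t₃ t₄ D₁₂ D₁₃ D₁₄ D₂₃ D₂₄ D₃₄ : ℝ}

/-- The correctness of the tests at a leaf. -/
theorem leaf_sound (hs : FourSys t₁ t₂ t₃ t₄ D₁₂ D₁₃ D₁₄ D₂₃ D₂₄ D₃₄) (o12 : t₂ ≤ t₁) (o23 : t₃ ≤ t₂)
    (o34 : t₄ ≤ t₃) {l1 u1 l2 u2 l3 u3 l4 u4 : ℕ} {p12 p13 p14 p23 p24 p34 : PI}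
    (b1 : InB l1 u1 t₁) (b2 : InB l2 u2 t₂) (b3 : InB l3 u3 t₃) (b4 : InB l4 u4 t₄)
    (h12 : PairOK D₁₂ p12) (h13 : PairOK D₁₃ p13) (h14 : PairOK D₁₄ p14)
    (h23 : PairOK D₂₃ p23) (h24 : PairOK D₂₄ p24) (h34 : PairOK D₃₄ p34)
    (hl : leafOK l1 u1 l2 u2 l3 u3 l4 u4 p12 p13 p14 p23 p24 p34 = true) :
    D₁₂ ^ 2 + D₁₃ ^ 2 + D₁₄ ^ 2 + D₂₃ ^ 2 + D₂₄ ^ 2 + D₃₄ ^ 2 ≤ 1455330 / 65536 := by
  have a1 := hs.t₁_pos.le
  have a2 := hs.t₂_pos.le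
  have a3 := hs.t₃_pos.le
  have a4 := hs.t₄_pos.le
  simp only [leafOK, Bool.or_eq_true] at hl
  rcases hl with (((((((((((((h | h) | h) | h) | h) | h) | h) | h) | h) | h) | h) | h) | h) | h)
  · exfalso
    simp only [Nat.blt_eq] at h
    have h' : (u1 : ℝ) + 1 ≤ l2 := by exact_mod_cast h
    have e1 := b1.2
    have e2 := b2.1
    rw [le_div_iff₀ (by norm_num)] at e1
    rw [div_le_iff₀ (by norm_num)] at e2
    linarith
  · exfalso
    simp only [Nat.blt_eq] at h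
    have h' : (u2 : ℝ) + 1 ≤ l3 := by exact_mod_cast h
    have e1 := b2.2
    have e2 := b3.1
    rw [le_div_iff₀ (by norm_num)] at e1
    rw [div_le_iff₀ (by norm_num)] at e2
    linarith
  · exfalso
    simp only [Nat.blt_eq] at h
    have h' : (u3 : ℝ) + 1 ≤ l4 := by exact_mod_cast h
    have e1 := b3.2
    have e2 := b4.1
    rw [le_div_iff₀ (by norm_num)] at e1
    rw [div_le_iff₀ (by norm_num)] at e2
    linarith
  · exact (prod_test a1 a2 b1.2 b2.2 hs.s₁₂ hs.D₁₂_pos hs.D₁₂_lt h).elim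
  · exact (prod_test a1 a3 b1.2 b3.2 hs.s₁₃ hs.D₁₃_pos hs.D₁₃_lt h).elim
  · exact (prod_test a1 a4 b1.2 b4.2 hs.s₁₄ hs.D₁₄_pos hs.D₁₄_lt h).elim
  · exact (prod_test a2 a3 b2.2 b3.2 hs.s₂₃ hs.D₂₃_pos hs.D₂₃_lt h).elim
  · exact (prod_test a2 a4 b2.2 b4.2 hs.s₂₄ hs.D₂₄_pos hs.D₂₄_lt h).elim
  · exact (prod_test a3 a4 b3.2 b4.2 hs.s₃₄ hs.D₃₄_pos hs.D₃₄_lt h).elim
  · simp only [Nat.ble_eq] at h
    have h' : (((p12.jh * p12.jh + p13.jh * p13.jh + p14.jh * p14.jh + p23.jh * p23.jh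
        + p24.jh * p24.jh + p34.jh * p34.jh : ℕ) : ℝ)) ≤ 1455330 := by exact_mod_cast h
    have c1 := sq_of_pairOK hs.D₁₂_pos h12
    have c2 := sq_of_pairOK hs.D₁₃_pos h13
    have c3 := sq_of_pairOK hs.D₁₄_pos h14
    have c4 := sq_of_pairOK hs.D₂₃_pos h23
    have c5 := sq_of_pairOK hs.D₂₄_pos h24
    have c6 := sq_of_pairOK hs.D₃₄_pos h34
    push_cast at h' c1 c2 c3 c4 c5 c6
    linarith
  · exact (rowTest_sound b1.1 b1.2 b2.1 b2.2 b3.1 b3.2 b4.1 b4.2 h12 h13 h14 hs.r₁ h).elim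
  · exact (rowTest_sound b2.1 b2.2 b1.1 b1.2 b3.1 b3.2 b4.1 b4.2 h12 h23 h24 hs.r₂ h).elim
  · exact (rowTest_sound b3.1 b3.2 b1.1 b1.2 b2.1 b2.2 b4.1 b4.2 h13 h23 h34 hs.r₃ h).elim
  · exact (rowTest_sound b4.1 b4.2 b1.1 b1.2 b2.1 b2.2 b3.1 b3.2 h14 h24 h34 hs.r₄ h).elim

lemma pairOK_of_boxes {T : Tr} (hT : T.All (fun e => e.Valid ∧ 1 ≤ e.j ∧ e.j ≤ 804))
    {la ua lb ub : ℕ} {ta tb D : ℝ} (ba : InB la ua ta) (bb : InB lb ub tb)
    (ht : ta * tb * sin D = D) (hD0 : 0 < D) (hDπ : D < π) : PairOK D (pairInfo T la ua lb ub) :=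
  pairInfo_sound hT ba.1 ba.2 bb.1 bb.2 ht hD0 hDπ

/-- The correctness of the search. -/
theorem check_sound {T : Tr} (hT : T.All (fun e => e.Valid ∧ 1 ≤ e.j ∧ e.j ≤ 804))
    (hs : FourSys t₁ t₂ t₃ t₄ D₁₂ D₁₃ D₁₄ D₂₃ D₂₄ D₃₄) (o12 : t₂ ≤ t₁)
    (o23 : t₃ ≤ t₂) (o34 : t₄ ≤ t₃) (n : ℕ) :
    ∀ (l1 u1 l2 u2 l3 u3 l4 u4 : ℕ) (p12 p13 p14 p23 p24 p34 : PI),
    InB l1 u1 t₁ → InB l2 u2 t₂ → InB l3 u3 t₃ → InB l4 u4 t₄ →
    PairOK D₁₂ p12 → PairOK D₁₃ p13 → PairOK D₁₄ p14 → PairOK D₂₃ p23 → PairOK D₂₄ p24 →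
    PairOK D₃₄ p34 →
    check T n l1 u1 l2 u2 l3 u3 l4 u4 p12 p13 p14 p23 p24 p34 = true →
    D₁₂ ^ 2 + D₁₃ ^ 2 + D₁₄ ^ 2 + D₂₃ ^ 2 + D₂₄ ^ 2 + D₃₄ ^ 2 ≤ 1455330 / 65536 := by
  induction n with
  | zero =>
    intro l1 u1 l2 u2 l3 u3 l4 u4 p12 p13 p14 p23 p24 p34 b1 b2 b3 b4 h12 h13 h14 h23 h24 h34 hc
    rw [check] at hc
    exact leaf_sound hs o12 o23 o34 b1 b2 b3 b4 h12 h13 h14 h23 h24 h34 hc
  | succ n ih =>
    intro l1 u1 l2 u2 l3 u3 l4 u4 p12 p13 p14 p23 p24 p34 b1 b2 b3 b4 h12 h13 h14 h23 h24 h34 hc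
    rw [check, Bool.or_eq_true] at hc
    rcases hc with hc | hc
    · exact leaf_sound hs o12 o23 o34 b1 b2 b3 b4 h12 h13 h14 h23 h24 h34 hc
    -- the four possible splits
    rcases c1 : (Nat.ble (u2 - l2) (u1 - l1) && Nat.ble (u3 - l3) (u1 - l1)
      && Nat.ble (u4 - l4) (u1 - l1)) with _ | _
    · rw [c1, cond_false] at hc
      rcases c2 : (Nat.ble (u3 - l3) (u2 - l2) && Nat.ble (u4 - l4) (u2 - l2)) with _ | _
      · rw [c2, cond_false] at hc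
        rcases c3 : Nat.ble (u4 - l4) (u3 - l3) with _ | _
        · rw [c3, cond_false] at hc
          simp only [withPI_eq, Bool.and_eq_true] at hc
          rcases le_total t₄ (((l4 + u4) / 2 : ℕ) / 16384 : ℝ) with hm | hm
          · have b' : InB l4 ((l4 + u4) / 2) t₄ := ⟨b4.1, hm⟩
            exact ih _ _ _ _ _ _ _ _ _ _ _ _ _ _ b1 b2 b3 b' h12 h13
              (pairOK_of_boxes hT b1 b' hs.s₁₄ hs.D₁₄_pos hs.D₁₄_lt) h23
              (pairOK_of_boxes hT b2 b' hs.s₂₄ hs.D₂₄_pos hs.D₂₄_lt)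
              (pairOK_of_boxes hT b3 b' hs.s₃₄ hs.D₃₄_pos hs.D₃₄_lt) hc.1
          · have b' : InB ((l4 + u4) / 2) u4 t₄ := ⟨hm, b4.2⟩
            exact ih _ _ _ _ _ _ _ _ _ _ _ _ _ _ b1 b2 b3 b' h12 h13
              (pairOK_of_boxes hT b1 b' hs.s₁₄ hs.D₁₄_pos hs.D₁₄_lt) h23
              (pairOK_of_boxes hT b2 b' hs.s₂₄ hs.D₂₄_pos hs.D₂₄_lt)
              (pairOK_of_boxes hT b3 b' hs.s₃₄ hs.D₃₄_pos hs.D₃₄_lt) hc.2
        · rw [c3, cond_true] at hc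
          simp only [withPI_eq, Bool.and_eq_true] at hc
          rcases le_total t₃ (((l3 + u3) / 2 : ℕ) / 16384 : ℝ) with hm | hm
          · have b' : InB l3 ((l3 + u3) / 2) t₃ := ⟨b3.1, hm⟩
            exact ih _ _ _ _ _ _ _ _ _ _ _ _ _ _ b1 b2 b' b4 h12
              (pairOK_of_boxes hT b1 b' hs.s₁₃ hs.D₁₃_pos hs.D₁₃_lt) h14
              (pairOK_of_boxes hT b2 b' hs.s₂₃ hs.D₂₃_pos hs.D₂₃_lt) h24
              (pairOK_of_boxes hT b' b4 hs.s₃₄ hs.D₃₄_pos hs.D₃₄_lt) hc.1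
          · have b' : InB ((l3 + u3) / 2) u3 t₃ := ⟨hm, b3.2⟩
            exact ih _ _ _ _ _ _ _ _ _ _ _ _ _ _ b1 b2 b' b4 h12
              (pairOK_of_boxes hT b1 b' hs.s₁₃ hs.D₁₃_pos hs.D₁₃_lt) h14
              (pairOK_of_boxes hT b2 b' hs.s₂₃ hs.D₂₃_pos hs.D₂₃_lt) h24
              (pairOK_of_boxes hT b' b4 hs.s₃₄ hs.D₃₄_pos hs.D₃₄_lt) hc.2
      · rw [c2, cond_true] at hc
        simp only [withPI_eq, Bool.and_eq_true] at hc
        rcases le_total t₂ (((l2 + u2) / 2 : ℕ) / 16384 : ℝ) with hm | hm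
        · have b' : InB l2 ((l2 + u2) / 2) t₂ := ⟨b2.1, hm⟩
          exact ih _ _ _ _ _ _ _ _ _ _ _ _ _ _ b1 b' b3 b4
            (pairOK_of_boxes hT b1 b' hs.s₁₂ hs.D₁₂_pos hs.D₁₂_lt) h13 h14
            (pairOK_of_boxes hT b' b3 hs.s₂₃ hs.D₂₃_pos hs.D₂₃_lt)
            (pairOK_of_boxes hT b' b4 hs.s₂₄ hs.D₂₄_pos hs.D₂₄_lt) h34 hc.1
        · have b' : InB ((l2 + u2) / 2) u2 t₂ := ⟨hm, b2.2⟩
          exact ih _ _ _ _ _ _ _ _ _ _ _ _ _ _ b1 b' b3 b4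
            (pairOK_of_boxes hT b1 b' hs.s₁₂ hs.D₁₂_pos hs.D₁₂_lt) h13 h14
            (pairOK_of_boxes hT b' b3 hs.s₂₃ hs.D₂₃_pos hs.D₂₃_lt)
            (pairOK_of_boxes hT b' b4 hs.s₂₄ hs.D₂₄_pos hs.D₂₄_lt) h34 hc.2
    · rw [c1, cond_true] at hc
      simp only [withPI_eq, Bool.and_eq_true] at hc
      rcases le_total t₁ (((l1 + u1) / 2 : ℕ) / 16384 : ℝ) with hm | hm
      · have b' : InB l1 ((l1 + u1) / 2) t₁ := ⟨b1.1, hm⟩
        exact ih _ _ _ _ _ _ _ _ _ _ _ _ _ _ b' b2 b3 b4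
          (pairOK_of_boxes hT b' b2 hs.s₁₂ hs.D₁₂_pos hs.D₁₂_lt)
          (pairOK_of_boxes hT b' b3 hs.s₁₃ hs.D₁₃_pos hs.D₁₃_lt)
          (pairOK_of_boxes hT b' b4 hs.s₁₄ hs.D₁₄_pos hs.D₁₄_lt) h23 h24 h34 hc.1
      · have b' : InB ((l1 + u1) / 2) u1 t₁ := ⟨hm, b1.2⟩
        exact ih _ _ _ _ _ _ _ _ _ _ _ _ _ _ b' b2 b3 b4
          (pairOK_of_boxes hT b' b2 hs.s₁₂ hs.D₁₂_pos hs.D₁₂_lt)
          (pairOK_of_boxes hT b' b3 hs.s₁₃ hs.D₁₃_pos hs.D₁₃_lt)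
          (pairOK_of_boxes hT b' b4 hs.s₁₄ hs.D₁₄_pos hs.D₁₄_lt) h23 h24 h34 hc.2

/-- Monotonicity of the angle in the product. -/
lemma angle_mono {p q x y : ℝ} (hx0 : 0 < x) (hxπ : x < π) (hy0 : 0 < y) (hyπ : y < π)
    (hp : p * sin x = x) (hq : q * sin y = y) (hpq : p ≤ q) : x ≤ y := by
  by_contra hc
  push Not at hc
  have h1 := mul_sin_lt hy0 hc hxπ
  have hsx := sin_pos_of_pos_of_lt_pi hx0 hxπ
  have hsy := sin_pos_of_pos_of_lt_pi hy0 hyπ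
  have e1 : y * sin x = q * sin y * sin x := by rw [hq]
  have e2 : x * sin y = p * sin x * sin y := by rw [hp]
  have h2 : p * (sin x * sin y) ≤ q * (sin x * sin y) :=
    mul_le_mul_of_nonneg_right hpq (by positivity)
  nlinarith [h1, e1, e2, h2]

/-- The root box contains the sorted solutions. -/
theorem root_bounds (hs : FourSys t₁ t₂ t₃ t₄ D₁₂ D₁₃ D₁₄ D₂₃ D₂₄ D₃₄) (o12 : t₂ ≤ t₁)
    (o23 : t₃ ≤ t₂) (o34 : t₄ ≤ t₃) :
    InB 16384 98304 t₁ ∧ InB 16384 49152 t₂ ∧ InB 16384 32768 t₃ ∧ InB 8192 32768 t₄ := by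
  have a3 := hs.t₃_pos
  have a4 := hs.t₄_pos
  have a2 := hs.t₂_pos
  have a1 := hs.t₁_pos
  have hp34 : 1 < t₃ * t₄ := prod_gt_one hs.s₃₄ hs.D₃₄_pos hs.D₃₄_lt
  have ht3 : 1 < t₃ := by
    by_contra hc
    push Not at hc
    have : t₃ * t₄ ≤ 1 * 1 := mul_le_mul hc (o34.trans hc) a4.le (by norm_num)
    linarith
  -- the angle between the two middle ones
  have m1 : D₂₃ ≤ D₁₃ := angle_mono hs.D₂₃_pos hs.D₂₃_lt hs.D₁₃_pos hs.D₁₃_lt hs.s₂₃ hs.s₁₃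
    (mul_le_mul_of_nonneg_right o12 a3.le)
  have m2 : D₂₃ ≤ D₁₂ := angle_mono hs.D₂₃_pos hs.D₂₃_lt hs.D₁₂_pos hs.D₁₂_lt hs.s₂₃ hs.s₁₂ (by
    calc t₂ * t₃ ≤ t₂ * t₂ := mul_le_mul_of_nonneg_left o23 a2.le
      _ ≤ t₁ * t₂ := mul_le_mul_of_nonneg_right o12 a2.le)
  have htri := hs.tri₁₂₃
  have hD : D₂₃ ≤ 2 * π / 3 := by linarith
  have hpi := Real.pi_pos
  have hpi2 := Real.pi_lt_d2
  -- sin (2 π / 3) = √3 / 2
  have hsin : sin (2 * π / 3) = √3 / 2 := by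
    rw [show 2 * π / 3 = π - π / 3 by ring, sin_pi_sub, sin_pi_div_three]
  have hsq3 : (1.7 : ℝ) ≤ √3 := by
    apply Real.le_sqrt_of_sq_le
    norm_num
  have hsin2 : (0.85 : ℝ) ≤ sin (2 * π / 3) := by
    rw [hsin]
    linarith
  have hprod : t₂ * t₃ * sin (2 * π / 3) ≤ 2 * π / 3 := by
    rcases hD.eq_or_lt with e | hlt
    · rw [← e, hs.s₂₃]
    · have h1 := mul_sin_lt hs.D₂₃_pos hlt (by linarith)
      have hs0 := sin_pos_of_pos_of_lt_pi hs.D₂₃_pos hs.D₂₃_lt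
      have e1 : D₂₃ * sin (2 * π / 3) = sin D₂₃ * (t₂ * t₃ * sin (2 * π / 3)) := by
        conv_lhs => rw [← hs.s₂₃]
        ring
      rw [e1, mul_comm (2 * π / 3) (sin D₂₃)] at h1
      exact (lt_of_mul_lt_mul_left h1 hs0.le).le
  have hp23 : t₂ * t₃ ≤ 2.48 := by
    have hnn : 0 ≤ t₂ * t₃ := by positivity
    have h1 : t₂ * t₃ * 0.85 ≤ t₂ * t₃ * sin (2 * π / 3) := mul_le_mul_of_nonneg_left hsin2 hnn
    linarith
  have ht3u : t₃ ≤ 1.58 := by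
    by_contra hc
    push Not at hc
    have h1 : (1.58 : ℝ) * 1.58 < t₃ * t₃ := mul_lt_mul'' hc hc (by norm_num) (by norm_num)
    have h2 : t₃ * t₃ ≤ t₂ * t₃ := mul_le_mul_of_nonneg_right o23 a3.le
    norm_num at h1
    linarith
  have ht2u : t₂ ≤ 2.48 := by
    have h1 : t₂ * 1 ≤ t₂ * t₃ := mul_le_mul_of_nonneg_left ht3.le a2.le
    linarith
  have ht4l : 1 / 2 ≤ t₄ := by
    by_contra hc
    push Not at hc
    have h1 : t₃ * t₄ ≤ 1.58 * (1 / 2) := mul_le_mul ht3u hc.le a4.le (by norm_num)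
    norm_num at h1
    linarith
  have ht1u : t₁ ≤ 6 := by
    have h1 := hs.r₁
    have c1 := neg_one_le_cos D₁₂
    have c2 := neg_one_le_cos D₁₃
    have c3 := neg_one_le_cos D₁₄
    have d1 : -t₂ ≤ t₂ * cos D₁₂ := by nlinarith
    have d2 : -t₃ ≤ t₃ * cos D₁₃ := by nlinarith
    have d3 : -t₄ ≤ t₄ * cos D₁₄ := by nlinarith
    linarith
  refine ⟨⟨?_, ?_⟩, ⟨?_, ?_⟩, ⟨?_, ?_⟩, ⟨?_, ?_⟩⟩ <;> push_cast <;> norm_num <;> linarith

/-- The sorted case. -/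
theorem sorted_bound (hs : FourSys t₁ t₂ t₃ t₄ D₁₂ D₁₃ D₁₄ D₂₃ D₂₄ D₃₄) (o12 : t₂ ≤ t₁)
    (o23 : t₃ ≤ t₂) (o34 : t₄ ≤ t₃) :
    D₁₂ ^ 2 + D₁₃ ^ 2 + D₁₄ ^ 2 + D₂₃ ^ 2 + D₂₄ ^ 2 + D₃₄ ^ 2 ≤ 1455330 / 65536 := by
  obtain ⟨b1, b2, b3, b4⟩ := root_bounds hs o12 o23 o34
  have hc : check tbl 60 16384 98304 16384 49152 16384 32768 8192 32768
    (pairInfo tbl 16384 98304 16384 49152) (pairInfo tbl 16384 98304 16384 32768)
    (pairInfo tbl 16384 98304 8192 32768) (pairInfo tbl 16384 49152 16384 32768)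
    (pairInfo tbl 16384 49152 8192 32768) (pairInfo tbl 16384 32768 8192 32768) = true := rootCheck_eq
  have hT := tbl_all
  exact check_sound hT hs o12 o23 o34 60 _ _ _ _ _ _ _ _ _ _ _ _ _ _ b1 b2 b3 b4
    (pairOK_of_boxes hT b1 b2 hs.s₁₂ hs.D₁₂_pos hs.D₁₂_lt)
    (pairOK_of_boxes hT b1 b3 hs.s₁₃ hs.D₁₃_pos hs.D₁₃_lt)
    (pairOK_of_boxes hT b1 b4 hs.s₁₄ hs.D₁₄_pos hs.D₁₄_lt)
    (pairOK_of_boxes hT b2 b3 hs.s₂₃ hs.D₂₃_pos hs.D₂₃_lt)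
    (pairOK_of_boxes hT b2 b4 hs.s₂₄ hs.D₂₄_pos hs.D₂₄_lt)
    (pairOK_of_boxes hT b3 b4 hs.s₃₄ hs.D₃₄_pos hs.D₃₄_lt) hc

end Box

end Vale.Agent.Lib.P226.Cov
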