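import Vale.Agent.Lib.P226.Y.Cert

/-!
The a-priori box and the nonexistence of solutions of the trigonometric system.
-/

open Real Set

namespace Vale.Agent.Lib.P226.Y

lemma low_check1 : lowOK (121 / 50) (37 / 10) = true := by decide +kernel
lemma cos_check1 : cosHi (121 / 50) ≤ -3 / 4 := by decide +kernel

lemma cos_le_of_big {D x : ℝ} (hD : 0 < D) (hDπ : D < π) (hEq : D = x * sin D)
    (hx : 37 / 10 ≤ x) : cos D ≤ -3 / 4 := by
  obtain ⟨h1, h2, h3, h4⟩ := lowOK_spec low_check1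
  have hx' : (((37 / 10 : ℚ)) : ℝ) ≤ x := by
    push_cast
    linarith
  have h5 := lower_d hD hDπ hEq h3 hx' h1 h2 h4
  have h6 : cos D ≤ cos ((121 / 50 : ℚ) : ℝ) :=
    Real.cos_le_cos_of_nonneg_of_le_pi (by exact_mod_cast h1) hDπ.le h5
  have h7 := cos_le_cosHi h1
  have h8 : ((cosHi (121 / 50) : ℚ) : ℝ) ≤ ((-3 / 4 : ℚ) : ℝ) := by exact_mod_cast cos_check1
  push_cast at h8
  linarith

variable {t0 t1 t2 t3 d01 d02 d03 d12 d13 d23 : ℝ}

/-- The a-priori bound on the product of the middle parameters. -/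
lemma Sys.prod_lt (S : Sys t0 t1 t2 t3 d01 d02 d03 d12 d13 d23) : t1 * t2 < 37 / 10 := by
  by_contra hc
  push Not at hc
  have hp0 := S.pos
  have hp1 := S.pos1
  have hp2 := S.pos2
  have hp3 := S.pos3
  have h01 := S.o01
  have h12 := S.o12
  have h23 := S.o23
  have c12 := cos_le_of_big S.r12.1 S.r12.2 S.e12 hc
  have c13 := cos_le_of_big S.r13.1 S.r13.2 S.e13 (by nlinarith)
  have c23 := cos_le_of_big S.r23.1 S.r23.2 S.e23 (by nlinarith)
  have c01 := Real.cos_le_one d01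
  have c01' := Real.neg_one_le_cos d01
  have p1 := S.p1
  have hsum : 3 * (t2 + t3) ≤ 8 * t1 := by
    have a1 : t0 * cos d01 ≤ t0 * 1 := mul_le_mul_of_nonneg_left c01 hp0.le
    have a2 : t2 * cos d12 ≤ t2 * (-3 / 4) := mul_le_mul_of_nonneg_left c12 hp2.le
    have a3 : t3 * cos d13 ≤ t3 * (-3 / 4) := mul_le_mul_of_nonneg_left c13 hp3.le
    linarith
  have hid : t1 ^ 2 + t2 ^ 2 + t3 ^ 2 - t0 ^ 2 + 2 * (t1 * t2 * cos d12 + t1 * t3 * cos d13
      + t2 * t3 * cos d23) = 0 := by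
    have p0 := S.p0
    have p2 := S.p2
    have p3 := S.p3
    have : t1 * (t1 + t0 * cos d01 + t2 * cos d12 + t3 * cos d13)
        + t2 * (t2 + t0 * cos d02 + t1 * cos d12 + t3 * cos d23)
        + t3 * (t3 + t0 * cos d03 + t1 * cos d13 + t2 * cos d23)
        - t0 * (t0 + t1 * cos d01 + t2 * cos d02 + t3 * cos d03) = 0 := by
      rw [p0, p1, p2, p3]
      ring
    linarith
  have a1 : t1 * t2 * cos d12 ≤ t1 * t2 * (-3 / 4) :=
    mul_le_mul_of_nonneg_left c12 (mul_pos hp1 hp2).le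
  have a2 : t1 * t3 * cos d13 ≤ t1 * t3 * (-3 / 4) :=
    mul_le_mul_of_nonneg_left c13 (mul_pos hp1 hp3).le
  have a3 : t2 * t3 * cos d23 ≤ t2 * t3 * (-3 / 4) :=
    mul_le_mul_of_nonneg_left c23 (mul_pos hp2 hp3).le
  have hmain : (3 / 2) * (t1 * t2 + t1 * t3 + t2 * t3) ≤ t1 ^ 2 + t2 ^ 2 + t3 ^ 2 := by
    nlinarith [sq_nonneg t0]
  obtain ⟨p, hp⟩ : ∃ p, p = t2 - t1 := ⟨_, rfl⟩
  obtain ⟨q, hq⟩ : ∃ q, q = t3 - t1 := ⟨_, rfl⟩
  have hp' : 0 ≤ p := by rw [hp]; linarith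
  have hq' : 0 ≤ q := by rw [hq]; linarith
  have ht2 : t2 = t1 + p := by rw [hp]; ring
  have ht3 : t3 = t1 + q := by rw [hq]; ring
  subst ht2 ht3
  have hs : 3 * (p + q) ≤ 2 * t1 := by linarith
  have hs2 : (3 * (p + q)) ^ 2 ≤ (2 * t1) ^ 2 :=
    pow_le_pow_left₀ (by positivity) hs 2
  nlinarith [mul_nonneg hp' hq', mul_nonneg hp1.le hp', mul_nonneg hp1.le hq', mul_pos hp1 hp1]

/-- The trigonometric system has no solution. -/
theorem no_sys (S : Sys t0 t1 t2 t3 d01 d02 d03 d12 d13 d23) : False := by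
  have hp0 := S.pos
  have hp1 := S.pos1
  have hp2 := S.pos2
  have hp3 := S.pos3
  have h01 := S.o01
  have h12 := S.o12
  have h23 := S.o23
  have hprod := S.prod_lt
  have h1 := one_lt_prod S.r01.1 S.r01.2 S.e01
  have ht1 : 1 < t1 := by nlinarith
  have ht1' : t1 < 2 := by nlinarith
  have ht2' : t2 < 4 := by nlinarith
  have ht0' : 1 / 2 < t0 := by nlinarith
  have ht3' : t3 < 8 := by
    have p3 := S.p3
    have a1 : t0 * (-1) ≤ t0 * cos d03 := mul_le_mul_of_nonneg_left (Real.neg_one_le_cos _) hp0.le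
    have a2 : t1 * (-1) ≤ t1 * cos d13 := mul_le_mul_of_nonneg_left (Real.neg_one_le_cos _) hp1.le
    have a3 : t2 * (-1) ≤ t2 * cos d23 := mul_le_mul_of_nonneg_left (Real.neg_one_le_cos _) hp2.le
    linarith
  refine box0_empty S ?_
  simp only [box0, Box.Mem]
  push_cast
  refine ⟨?_, ?_, ?_, ?_, ?_, ?_, ?_, ?_⟩ <;> linarith

/-- The unsorted version of the nonexistence theorem. -/
theorem no_sys_fin (t : Fin 4 → ℝ) (D : Fin 4 → Fin 4 → ℝ) (ht : ∀ i, 0 < t i)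
    (hr : ∀ i j, i ≠ j → 0 < D i j ∧ D i j < π) (hsymm : ∀ i j, D i j = D j i)
    (hdiag : ∀ i, D i i = 0)
    (he : ∀ i j, i ≠ j → D i j = t i * t j * sin (D i j))
    (hp : ∀ i, ∑ j, t j * cos (D i j) = 0)
    (hbig : 9 * π ^ 2 / 2 < ∑ i, ∑ j, (D i j) ^ 2) : False := by
  obtain ⟨σ, hσ⟩ : ∃ σ : Equiv.Perm (Fin 4), Monotone (t ∘ σ) :=
    ⟨Tuple.sort t, Tuple.monotone_sort t⟩
  have hne : ∀ i j : Fin 4, i ≠ j → σ i ≠ σ j := fun i j h h' => h (σ.injective h')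
  have hs : ∀ i : Fin 4, ∑ j, t (σ j) * cos (D (σ i) (σ j)) = 0 := by
    intro i
    rw [← hp (σ i)]
    exact Equiv.sum_comp σ (fun j => t j * cos (D (σ i) j))
  have hb : ∑ i, ∑ j, (D (σ i) (σ j)) ^ 2 = ∑ i, ∑ j, (D i j) ^ 2 := by
    rw [← Equiv.sum_comp σ (fun i => ∑ j, (D i j) ^ 2)]
    apply Finset.sum_congr rfl
    intro i _
    exact Equiv.sum_comp σ (fun j => (D (σ i) j) ^ 2)
  have hs0 := hs 0
  have hs1 := hs 1
  have hs2 := hs 2
  have hs3 := hs 3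
  simp only [Fin.sum_univ_four, hdiag, cos_zero, mul_one] at hs0 hs1 hs2 hs3
  rw [← hb] at hbig
  simp only [Fin.sum_univ_four, hdiag] at hbig
  have s10 := hsymm (σ 1) (σ 0)
  have s20 := hsymm (σ 2) (σ 0)
  have s30 := hsymm (σ 3) (σ 0)
  have s21 := hsymm (σ 2) (σ 1)
  have s31 := hsymm (σ 3) (σ 1)
  have s32 := hsymm (σ 3) (σ 2)
  simp only [s10, s20, s30, s21, s31, s32] at hs1 hs2 hs3 hbig
  have hz : (0 : ℝ) ^ 2 = 0 := by norm_num
  rw [hz] at hbig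
  refine no_sys (t0 := t (σ 0)) (t1 := t (σ 1)) (t2 := t (σ 2)) (t3 := t (σ 3))
    (d01 := D (σ 0) (σ 1)) (d02 := D (σ 0) (σ 2)) (d03 := D (σ 0) (σ 3)) (d12 := D (σ 1) (σ 2))
    (d13 := D (σ 1) (σ 3)) (d23 := D (σ 2) (σ 3)) ⟨ht _, hσ (show (0 : Fin 4) ≤ 1 by decide),
      hσ (show (1 : Fin 4) ≤ 2 by decide), hσ (show (2 : Fin 4) ≤ 3 by decide),
      hr _ _ (hne 0 1 (by decide)), hr _ _ (hne 0 2 (by decide)), hr _ _ (hne 0 3 (by decide)),
      hr _ _ (hne 1 2 (by decide)), hr _ _ (hne 1 3 (by decide)), hr _ _ (hne 2 3 (by decide)),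
      he _ _ (hne 0 1 (by decide)), he _ _ (hne 0 2 (by decide)), he _ _ (hne 0 3 (by decide)),
      he _ _ (hne 1 2 (by decide)), he _ _ (hne 1 3 (by decide)), he _ _ (hne 2 3 (by decide)),
      hs0, by linarith, by linarith, by linarith, by linarith⟩

end Vale.Agent.Lib.P226.Y
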