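import Vale.Agent.Lib.P226.Y.Dual
import Vale.Agent.Lib.P226.Y.NoSys

/-!
There is no critical configuration with four cells.
-/

open MeasureTheory ProbabilityTheory Real Set Filter
open scoped RealInnerProductSpace ENNReal

namespace Vale.Agent.Lib.P226.Y

/-- The determinant of a principal three by three minor. -/
def det3 (G : Fin 4 → Fin 4 → ℝ) (b c d : Fin 4) : ℝ :=
  G b b * (G c c * G d d - G c d ^ 2) - G b c * (G b c * G d d - G c d * G b d)
    + G b d * (G b c * G c d - G c c * G b d)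

lemma det3_eq (G : Fin 4 → Fin 4 → ℝ) (hs : ∀ i j, G i j = G j i)
    (hr : ∀ i, G i 0 + G i 1 + G i 2 + G i 3 = 0) :
    ∀ b c d : Fin 4, b ≠ c → b ≠ d → c ≠ d → det3 G b c d = det3 G 0 1 2 := by
  have s10 := hs 1 0
  have s20 := hs 2 0
  have s30 := hs 3 0
  have s21 := hs 2 1
  have s31 := hs 3 1
  have s32 := hs 3 2
  have g00 : G 0 0 = -G 0 1 - G 0 2 - G 0 3 := by linarith [hr 0]
  have g11 : G 1 1 = -G 0 1 - G 1 2 - G 1 3 := by linarith [hr 1]
  have g22 : G 2 2 = -G 0 2 - G 1 2 - G 2 3 := by linarith [hr 2]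
  have g33 : G 3 3 = -G 0 3 - G 1 3 - G 2 3 := by linarith [hr 3]
  intro b c d
  fin_cases b <;> fin_cases c <;> fin_cases d <;> intro h1 h2 h3 <;>
    first
      | exact absurd rfl h1
      | exact absurd rfl h2
      | exact absurd rfl h3
      | (simp only [det3, Fin.zero_eta, Fin.mk_one, Fin.reduceFinMk, s10, s20, s30, s21, s31, s32,
          g00, g11, g22, g33] <;> ring)

lemma gram_alg2 {m11 m12 m13 m22 m23 m33 q11 q12 q13 q22 q23 q33 : ℝ}
    (h11 : m11 * q11 + m12 * q12 + m13 * q13 = 1) (h12 : m11 * q12 + m12 * q22 + m13 * q23 = 0)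
    (h13 : m11 * q13 + m12 * q23 + m13 * q33 = 0) (h21 : m12 * q11 + m22 * q12 + m23 * q13 = 0)
    (h22 : m12 * q12 + m22 * q22 + m23 * q23 = 1) (h23 : m12 * q13 + m22 * q23 + m23 * q33 = 0)
    (h31 : m13 * q11 + m23 * q12 + m33 * q13 = 0) (h32 : m13 * q12 + m23 * q22 + m33 * q23 = 0)
    (h33 : m13 * q13 + m23 * q23 + m33 * q33 = 1) :
    let Δ := m11 * (m22 * m33 - m23 ^ 2) - m12 * (m12 * m33 - m23 * m13)
      + m13 * (m12 * m23 - m22 * m13)
    Δ ≠ 0 ∧ Δ * q11 = m22 * m33 - m23 ^ 2 ∧ Δ * (q11 * q23 - q12 * q13) = -m23 ∧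
      Δ * (q11 * q22 - q12 ^ 2) = m33 ∧ Δ * (q11 * q33 - q13 ^ 2) = m22 := by
  intro Δ
  obtain ⟨a11, a12, a13, a22, a23, a33, hne⟩ := gram_alg h11 h12 h13 h21 h22 h23 h31 h32 h33
  refine ⟨hne, a11, ?_, ?_, ?_⟩
  · apply mul_left_cancel₀ hne
    have : Δ * (Δ * (q11 * q23 - q12 * q13)) = (Δ * q11) * (Δ * q23) - (Δ * q12) * (Δ * q13) := by
      ring
    rw [this, a11, a12, a13, a23]
    try simp only [Δ]
    ring
  · apply mul_left_cancel₀ hne
    have : Δ * (Δ * (q11 * q22 - q12 ^ 2)) = (Δ * q11) * (Δ * q22) - (Δ * q12) ^ 2 := by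
      ring
    rw [this, a11, a12, a22]
    try simp only [Δ]
    ring
  · apply mul_left_cancel₀ hne
    have : Δ * (Δ * (q11 * q33 - q13 ^ 2)) = (Δ * q11) * (Δ * q33) - (Δ * q13) ^ 2 := by
      ring
    rw [this, a11, a13, a33]
    try simp only [Δ]
    ring

section angle

variable {F : Type*} [NormedAddCommGroup F] [InnerProductSpace ℝ F]

lemma angle_of_scaled {r r' x y : F} {k : ℝ} (hk : 0 < k) (h1 : ⟪r, r'⟫ = -(k * ⟪x, y⟫))
    (h2 : ‖r‖ ^ 2 = k * ‖y‖ ^ 2) (h3 : ‖r'‖ ^ 2 = k * ‖x‖ ^ 2) :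
    InnerProductGeometry.angle r r' = π - InnerProductGeometry.angle x y := by
  have hs : 0 < √k := Real.sqrt_pos.mpr hk
  have hss : √k * √k = k := Real.mul_self_sqrt hk.le
  have n1 : ‖r‖ = √k * ‖y‖ := by
    refine (pow_left_inj₀ (norm_nonneg _) (by positivity) (by norm_num : (2 : ℕ) ≠ 0)).mp ?_
    rw [h2, mul_pow, Real.sq_sqrt hk.le]
  have n2 : ‖r'‖ = √k * ‖x‖ := by
    refine (pow_left_inj₀ (norm_nonneg _) (by positivity) (by norm_num : (2 : ℕ) ≠ 0)).mp ?_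
    rw [h3, mul_pow, Real.sq_sqrt hk.le]
  unfold InnerProductGeometry.angle
  rw [h1, n1, n2]
  have : -(k * ⟪x, y⟫) / (√k * ‖y‖ * (√k * ‖x‖)) = -(⟪x, y⟫ / (‖x‖ * ‖y‖)) := by
    have e : √k * ‖y‖ * (√k * ‖x‖) = k * (‖x‖ * ‖y‖) := by
      calc √k * ‖y‖ * (√k * ‖x‖) = (√k * √k) * (‖x‖ * ‖y‖) := by ring
        _ = k * (‖x‖ * ‖y‖) := by rw [hss]
    rw [e, ← mul_neg, mul_div_mul_left _ _ hk.ne', neg_div]
  rw [this, Real.arccos_neg]

end angle

variable {E : Type*} [NormedAddCommGroup E] [InnerProductSpace ℝ E]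

/-- The Gram relations at one vertex. -/
lemma edge_gram {U D : Fin 4 → E} (h : DualFam U D) (hS0 : ∑ i, U i = 0)
    {a b c d : Fin 4} (huniv : (Finset.univ : Finset (Fin 4)) = {a, b, c, d})
    (hab : a ≠ b) (hac : a ≠ c) (had : a ≠ d) (hbc : b ≠ c) (hbd : b ≠ d) (hcd : c ≠ d) :
    let G : Fin 4 → Fin 4 → ℝ := fun i j => ⟪D i, D j⟫
    let qb := U a - U b
    let qc := U a - U c
    let qd := U a - U d
    det3 G b c d ≠ 0 ∧ det3 G b c d * ⟪qb, qb⟫ = G c c * G d d - G c d ^ 2 ∧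
      det3 G b c d * (⟪qb, qb⟫ * ⟪qc, qd⟫ - ⟪qb, qc⟫ * ⟪qb, qd⟫) = -G c d ∧
      det3 G b c d * (⟪qb, qb⟫ * ⟪qc, qc⟫ - ⟪qb, qc⟫ ^ 2) = G d d ∧
      det3 G b c d * (⟪qb, qb⟫ * ⟪qd, qd⟫ - ⟪qb, qd⟫ ^ 2) = G c c := by
  intro G qb qc qd
  have key : ∀ i k, i ≠ a → ⟪D i, D b⟫ * ⟪qb, U a - U k⟫ + ⟪D i, D c⟫ * ⟪qc, U a - U k⟫
      + ⟪D i, D d⟫ * ⟪qd, U a - U k⟫ = if i = k then 1 else 0 := by
    intro i k hi
    have h1 := h.edge_expand hS0 huniv hab hac had hbc hbd hcd i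
    have h2 : ⟪⟪D i, D b⟫ • (U a - U b) + ⟪D i, D c⟫ • (U a - U c) + ⟪D i, D d⟫ • (U a - U d),
        U a - U k⟫ = ⟪-D i, U a - U k⟫ := by rw [h1]
    rw [inner_add_left, inner_add_left, real_inner_smul_left, real_inner_smul_left,
      real_inner_smul_left] at h2
    rw [h2, inner_neg_left, inner_sub_right, h.dual, h.dual, if_neg hi]
    ring
  have e : ∀ i j, ⟪D i, D j⟫ = G i j := fun i j => rfl
  have hsG : ∀ i j, G i j = G j i := fun i j => real_inner_comm _ _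
  simp only [e] at key
  have k11 := key b b hab.symm
  have k12 := key b c hab.symm
  have k13 := key b d hab.symm
  have k21 := key c b hac.symm
  have k22 := key c c hac.symm
  have k23 := key c d hac.symm
  have k31 := key d b had.symm
  have k32 := key d c had.symm
  have k33 := key d d had.symm
  rw [if_pos rfl] at k11 k22 k33
  rw [if_neg hbc] at k12
  rw [if_neg hbd] at k13
  rw [if_neg hbc.symm] at k21
  rw [if_neg hcd] at k23
  rw [if_neg hbd.symm] at k31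
  rw [if_neg hcd.symm] at k32
  have cbc : ⟪qc, qb⟫ = ⟪qb, qc⟫ := real_inner_comm _ _
  have cbd : ⟪qd, qb⟫ = ⟪qb, qd⟫ := real_inner_comm _ _
  have ccd : ⟪qd, qc⟫ = ⟪qc, qd⟫ := real_inner_comm _ _
  change G b b * ⟪qb, qb⟫ + G b c * ⟪qc, qb⟫ + G b d * ⟪qd, qb⟫ = 1 at k11
  change G b b * ⟪qb, qc⟫ + G b c * ⟪qc, qc⟫ + G b d * ⟪qd, qc⟫ = 0 at k12
  change G b b * ⟪qb, qd⟫ + G b c * ⟪qc, qd⟫ + G b d * ⟪qd, qd⟫ = 0 at k13
  change G c b * ⟪qb, qb⟫ + G c c * ⟪qc, qb⟫ + G c d * ⟪qd, qb⟫ = 0 at k21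
  change G c b * ⟪qb, qc⟫ + G c c * ⟪qc, qc⟫ + G c d * ⟪qd, qc⟫ = 1 at k22
  change G c b * ⟪qb, qd⟫ + G c c * ⟪qc, qd⟫ + G c d * ⟪qd, qd⟫ = 0 at k23
  change G d b * ⟪qb, qb⟫ + G d c * ⟪qc, qb⟫ + G d d * ⟪qd, qb⟫ = 0 at k31
  change G d b * ⟪qb, qc⟫ + G d c * ⟪qc, qc⟫ + G d d * ⟪qd, qc⟫ = 0 at k32
  change G d b * ⟪qb, qd⟫ + G d c * ⟪qc, qd⟫ + G d d * ⟪qd, qd⟫ = 1 at k33
  rw [cbc, cbd] at k11 k21 k31
  rw [ccd] at k12 k22 k32
  rw [hsG c b] at k21 k22 k23
  rw [hsG d b, hsG d c] at k31 k32 k33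
  have := gram_alg2 k11 k12 k13 k21 k22 k23 k31 k32 k33
  simpa only [det3, G] using this

section measure

variable [FiniteDimensional ℝ E] [MeasurableSpace E] [BorelSpace E]

/-- The edge length and the angle of the opposite dual vectors. -/
lemma edge_angle {U D : Fin 4 → E} (h : DualFam U D) (hS0 : ∑ i, U i = 0)
    {a b c d : Fin 4} (huniv : (Finset.univ : Finset (Fin 4)) = {a, b, c, d})
    (hab : a ≠ b) (hac : a ≠ c) (had : a ≠ d) (hbc : b ≠ c) (hbd : b ≠ d) (hcd : c ≠ d)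
    (hm : ∫ x in {x : E | 0 < ⟪U a - U b, x⟫ ∧ 0 < ⟪U a - U c, x⟫ ∧ 0 < ⟪U a - U d, x⟫},
      ⟪-D b, x⟫ ∂(stdGaussian E) = 1 / 4) :
    ‖U a - U b‖ = (2 * cG / π) * InnerProductGeometry.angle (D c) (D d) := by
  have hg := edge_gram h hS0 huniv hab hac had hbc hbd hcd
  simp only [] at hg
  obtain ⟨Δ, hΔ⟩ : ∃ Δ, Δ = det3 (fun i j => ⟪D i, D j⟫) b c d := ⟨_, rfl⟩
  rw [← hΔ] at hg
  obtain ⟨hne, hQ, hcd', hcc, hdd⟩ := hg
  have i1 : ⟪-D b, U a - U b⟫ = 1 := by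
    rw [inner_neg_left, inner_sub_right, h.dual, h.dual, if_neg hab.symm, if_pos rfl]
    norm_num
  have i2 : ⟪-D b, U a - U c⟫ = 0 := by
    rw [inner_neg_left, inner_sub_right, h.dual, h.dual, if_neg hab.symm, if_neg hbc]
    norm_num
  have i3 : ⟪-D b, U a - U d⟫ = 0 := by
    rw [inner_neg_left, inner_sub_right, h.dual, h.dual, if_neg hab.symm, if_neg hbd]
    norm_num
  have hv : -D b ≠ 0 := by
    intro h0
    rw [h0, inner_zero_left] at i1
    norm_num at i1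
  have hq : U a - U b ≠ 0 := by
    intro h0
    rw [h0, inner_zero_right] at i1
    norm_num at i1
  have hq0 : 0 < ‖U a - U b‖ := norm_pos_iff.mpr hq
  have f := facet_integral (-D b) (U a - U b) (U a - U c) (U a - U d) hv i1 i2 i3
  rw [hm] at f
  have t1 := inner_tilt (-D b) (U a - U b) (U a - U c) (U a - U d) hv i1 i2 i3
  have t2 := inner_tilt (-D b) (U a - U b) (U a - U c) (U a - U c) hv i1 i2 i2
  have t3 := inner_tilt (-D b) (U a - U b) (U a - U d) (U a - U d) hv i1 i3 i3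
  obtain ⟨w, hw⟩ : ∃ w, w = ‖-D b‖ • (U a - U b) - (1 / ‖-D b‖) • (-D b) := ⟨_, rfl⟩
  rw [← hw] at f t1 t2 t3
  obtain ⟨rc, hrc⟩ : ∃ r, r = tiltVec w (U a - U c) := ⟨_, rfl⟩
  obtain ⟨rd, hrd⟩ : ∃ r, r = tiltVec w (U a - U d) := ⟨_, rfl⟩
  rw [← hrc, ← hrd] at f t1
  rw [← hrc] at t2
  rw [← hrd] at t3
  rw [real_inner_self_eq_norm_sq] at t2 t3
  rw [real_inner_self_eq_norm_sq (U a - U b)] at hQ hcd' hcc hdd
  obtain ⟨Q, hQd⟩ : ∃ Q, Q = ‖U a - U b‖ ^ 2 := ⟨_, rfl⟩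
  have hQ0 : 0 < Q := by rw [hQd]; positivity
  rw [← hQd] at hQ hcd' hcc hdd t1 t2 t3
  obtain ⟨m22, hm22⟩ : ∃ m, m = ⟪D c, D c⟫ := ⟨_, rfl⟩
  obtain ⟨m33, hm33⟩ : ∃ m, m = ⟪D d, D d⟫ := ⟨_, rfl⟩
  obtain ⟨m23, hm23⟩ : ∃ m, m = ⟪D c, D d⟫ := ⟨_, rfl⟩
  rw [← hm22, ← hm33, ← hm23] at hQ
  rw [← hm23] at hcd'
  rw [← hm33] at hcc
  rw [← hm22] at hdd
  have hcs : m23 ^ 2 ≤ m22 * m33 := by
    rw [hm22, hm33, hm23, sq]
    exact real_inner_mul_inner_self_le _ _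
  have hΔ0 : 0 < Δ := by
    rcases lt_or_gt_of_ne hne with hlt | hgt
    · exfalso
      have : Δ * Q < 0 := mul_neg_of_neg_of_pos hlt hQ0
      linarith
    · exact hgt
  have hstrict : m23 ^ 2 < m22 * m33 := by
    have : 0 < Δ * Q := mul_pos hΔ0 hQ0
    linarith
  obtain ⟨k, hk⟩ : ∃ k, k = 1 / (Δ * Q) := ⟨_, rfl⟩
  have hk0 : 0 < k := by rw [hk]; positivity
  have g1 : ⟪rc, rd⟫ = -(k * m23) := by
    rw [t1, hk]
    have e : m23 = -(Δ * (Q * ⟪U a - U c, U a - U d⟫ -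
        ⟪U a - U b, U a - U c⟫ * ⟪U a - U b, U a - U d⟫)) := by linarith
    rw [e]
    field_simp
  have g2 : ‖rc‖ ^ 2 = k * m33 := by
    rw [t2, hk, ← hcc]
    field_simp
  have g3 : ‖rd‖ ^ 2 = k * m22 := by
    rw [t3, hk, ← hdd]
    field_simp
  have hang : InnerProductGeometry.angle rc rd =
      π - InnerProductGeometry.angle (D c) (D d) := by
    apply angle_of_scaled hk0
    · rw [← hm23]; exact g1
    · rw [g2, hm33, real_inner_self_eq_norm_sq]
    · rw [g3, hm22, real_inner_self_eq_norm_sq]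
  have hind : ⟪rc, rd⟫ ^ 2 < ‖rc‖ ^ 2 * ‖rd‖ ^ 2 := by
    rw [g1, g2, g3]
    have : 0 < k ^ 2 := by positivity
    nlinarith
  have hsec := sector_real rc rd hind
  rw [hang] at hsec
  rw [hsec] at f
  have hpi := Real.pi_pos
  have hcG := cG_pos
  have e1 : π - (π - InnerProductGeometry.angle (D c) (D d)) =
      InnerProductGeometry.angle (D c) (D d) := by ring
  rw [e1] at f
  field_simp at f ⊢
  linarith

/-- The consequence of the dual description: no such configuration has large energy. -/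
theorem dual_false {U D : Fin 4 → E} (h : DualFam U D) (hS0 : ∑ i, U i = 0)
    (hm : ∀ a b c d : Fin 4, (Finset.univ : Finset (Fin 4)) = {a, b, c, d} → a ≠ b → a ≠ c →
      a ≠ d → b ≠ c → b ≠ d → c ≠ d →
      ∫ x in {x : E | 0 < ⟪U a - U b, x⟫ ∧ 0 < ⟪U a - U c, x⟫ ∧ 0 < ⟪U a - U d, x⟫},
        ⟪-D b, x⟫ ∂(stdGaussian E) = 1 / 4)
    (hbig : t0 < ∑ i, ‖U i‖ ^ 2) : False := by
  classical
  obtain ⟨G, hG⟩ : ∃ G : Fin 4 → Fin 4 → ℝ, G = fun i j => ⟪D i, D j⟫ := ⟨_, rfl⟩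
  have hGe : ∀ i j, G i j = ⟪D i, D j⟫ := fun i j => by rw [hG]
  have hsG : ∀ i j, G i j = G j i := fun i j => by rw [hGe, hGe]; exact real_inner_comm _ _
  have hrow : ∀ i, G i 0 + G i 1 + G i 2 + G i 3 = 0 := by
    intro i
    have h1 := h.sumD
    rw [Fin.sum_univ_four] at h1
    have h2 : ⟪D i, D 0 + D 1 + D 2 + D 3⟫ = 0 := by rw [h1, inner_zero_right]
    rw [inner_add_right, inner_add_right, inner_add_right] at h2
    simp only [hGe]
    exact h2
  have hdet := det3_eq G hsG hrow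
  obtain ⟨Δ, hΔ⟩ : ∃ Δ, Δ = det3 G 0 1 2 := ⟨_, rfl⟩
  rw [← hΔ] at hdet
  have hne : ∀ i, D i ≠ 0 := by
    intro i h0
    have h1 := h.dual i i
    rw [h0, inner_zero_left, if_pos rfl] at h1
    norm_num at h1
  have hpi := Real.pi_pos
  have hcG := cG_pos
  obtain ⟨w1, hw1⟩ : ∃ w, w = 2 * cG / π := ⟨_, rfl⟩
  have hw : 0 < w1 := by rw [hw1]; positivity
  -- the data of a vertex and an edge
  have hdata : ∀ a b c d : Fin 4, (Finset.univ : Finset (Fin 4)) = {a, b, c, d} → a ≠ b → a ≠ c →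
      a ≠ d → b ≠ c → b ≠ d → c ≠ d →
      0 < ‖U a - U b‖ ∧ ‖U a - U b‖ = w1 * InnerProductGeometry.angle (D c) (D d) ∧
        Δ ≠ 0 ∧ Δ * ‖U a - U b‖ ^ 2 = G c c * G d d - G c d ^ 2 := by
    intro a b c d huniv hab hac had hbc hbd hcd
    have h1 := edge_angle h hS0 huniv hab hac had hbc hbd hcd (hm a b c d huniv hab hac had hbc hbd hcd)
    have hg := edge_gram h hS0 huniv hab hac had hbc hbd hcd
    simp only [] at hg
    rw [← hG, hdet b c d hbc hbd hcd, real_inner_self_eq_norm_sq (U a - U b)] at hg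
    obtain ⟨hne', hQ, -, -, -⟩ := hg
    have i1 : ⟪-D b, U a - U b⟫ = 1 := by
      rw [inner_neg_left, inner_sub_right, h.dual, h.dual, if_neg hab.symm, if_pos rfl]
      norm_num
    have hq : U a - U b ≠ 0 := by
      intro h0
      rw [h0, inner_zero_right] at i1
      norm_num at i1
    refine ⟨norm_pos_iff.mpr hq, ?_, hne', ?_⟩
    · rw [hw1]; exact h1
    · rw [hQ]
      simp only [hGe]
  have hpair : ∀ i j : Fin 4, i ≠ j → ∃ a b : Fin 4,
      (Finset.univ : Finset (Fin 4)) = {a, b, i, j} ∧ a ≠ b ∧ a ≠ i ∧ a ≠ j ∧ b ≠ i ∧ b ≠ j := by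
    decide
  -- positivity of the determinant
  have hΔ0 : 0 < Δ := by
    obtain ⟨h1, -, h3, h4⟩ := hdata 3 0 1 2 (by decide) (by decide) (by decide) (by decide)
      (by decide) (by decide) (by decide)
    have hcs : G 1 2 ^ 2 ≤ G 1 1 * G 2 2 := by
      rw [hGe, hGe, hGe, sq]
      exact real_inner_mul_inner_self_le _ _
    have hq : 0 < ‖U 3 - U 0‖ ^ 2 := by positivity
    rcases lt_or_gt_of_ne h3 with hlt | hgt
    · exfalso
      have : Δ * ‖U 3 - U 0‖ ^ 2 < 0 := mul_neg_of_neg_of_pos hlt hq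
      linarith
    · exact hgt
  have hsΔ : 0 < √Δ := Real.sqrt_pos.mpr hΔ0
  obtain ⟨A, hA⟩ : ∃ A, A = 1 / (√Δ * w1) := ⟨_, rfl⟩
  have hA0 : 0 < A := by rw [hA]; positivity
  have hsA : 0 < √A := Real.sqrt_pos.mpr hA0
  -- the angle equations
  have hang : ∀ i j : Fin 4, i ≠ j →
      0 < InnerProductGeometry.angle (D i) (D j) ∧ InnerProductGeometry.angle (D i) (D j) < π ∧
      InnerProductGeometry.angle (D i) (D j) =
        A * (‖D i‖ * ‖D j‖) * sin (InnerProductGeometry.angle (D i) (D j)) := by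
    intro i j hij
    obtain ⟨a, b, huniv, hab, hai, haj, hbi, hbj⟩ := hpair i j hij
    obtain ⟨h1, h2, -, h4⟩ := hdata a b i j huniv hab hai haj hbi hbj hij
    obtain ⟨θ, hθ⟩ : ∃ θ, θ = InnerProductGeometry.angle (D i) (D j) := ⟨_, rfl⟩
    rw [← hθ] at h2 ⊢
    have hs := InnerProductGeometry.sin_angle_mul_norm_mul_norm (D i) (D j)
    rw [← hθ] at hs
    have e : ⟪D i, D i⟫ * ⟪D j, D j⟫ - ⟪D i, D j⟫ * ⟪D i, D j⟫ = (√Δ * ‖U a - U b‖) ^ 2 := by
      rw [mul_pow, Real.sq_sqrt hΔ0.le, h4, hGe, hGe, hGe]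
      ring
    rw [e, Real.sqrt_sq (by positivity), h2] at hs
    have hθ0 : 0 < θ := by
      by_contra hc
      push Not at hc
      have : w1 * θ ≤ 0 := mul_nonpos_of_nonneg_of_nonpos hw.le hc
      linarith
    have hθπ : θ < π := by
      have hle : θ ≤ π := by rw [hθ]; exact InnerProductGeometry.angle_le_pi _ _
      rcases lt_or_eq_of_le hle with hlt | heq
      · exact hlt
      · exfalso
        rw [heq, Real.sin_pi, zero_mul] at hs
        have : 0 < √Δ * (w1 * π) := by positivity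
        linarith
    refine ⟨hθ0, hθπ, ?_⟩
    rw [hA]
    have e2 : sin θ * (‖D i‖ * ‖D j‖) = √Δ * (w1 * θ) := hs
    have : 1 / (√Δ * w1) * (‖D i‖ * ‖D j‖) * sin θ = 1 / (√Δ * w1) * (sin θ * (‖D i‖ * ‖D j‖)) := by
      ring
    rw [this, e2]
    field_simp
  -- the parameters
  obtain ⟨t, ht⟩ : ∃ t : Fin 4 → ℝ, t = fun i => √A * ‖D i‖ := ⟨_, rfl⟩
  have hte : ∀ i, t i = √A * ‖D i‖ := fun i => by rw [ht]
  have htpos : ∀ i, 0 < t i := by
    intro i
    rw [hte]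
    have := norm_pos_iff.mpr (hne i)
    positivity
  have htt : ∀ i j, t i * t j = A * (‖D i‖ * ‖D j‖) := by
    intro i j
    rw [hte, hte]
    have hss : √A * √A = A := Real.mul_self_sqrt hA0.le
    calc √A * ‖D i‖ * (√A * ‖D j‖) = (√A * √A) * (‖D i‖ * ‖D j‖) := by ring
      _ = A * (‖D i‖ * ‖D j‖) := by rw [hss]
  have hp : ∀ i, ∑ j, t j * cos (InnerProductGeometry.angle (D i) (D j)) = 0 := by
    intro i
    have hni : 0 < ‖D i‖ := norm_pos_iff.mpr (hne i)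
    have h1 : ‖D i‖ * ∑ j, ‖D j‖ * cos (InnerProductGeometry.angle (D i) (D j)) = 0 := by
      rw [Finset.mul_sum]
      have h2 : ∀ j, ‖D i‖ * (‖D j‖ * cos (InnerProductGeometry.angle (D i) (D j))) = G i j := by
        intro j
        rw [hGe, ← InnerProductGeometry.cos_angle_mul_norm_mul_norm]
        ring
      simp only [h2]
      rw [Fin.sum_univ_four]
      exact hrow i
    have h3 : ∑ j, ‖D j‖ * cos (InnerProductGeometry.angle (D i) (D j)) = 0 := by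
      rcases mul_eq_zero.mp h1 with h4 | h4
      · exact absurd h4 hni.ne'
      · exact h4
    have h5 : ∑ j, t j * cos (InnerProductGeometry.angle (D i) (D j)) =
        √A * ∑ j, ‖D j‖ * cos (InnerProductGeometry.angle (D i) (D j)) := by
      rw [Finset.mul_sum]
      apply Finset.sum_congr rfl
      intro j _
      rw [hte]
      ring
    rw [h5, h3, mul_zero]
  -- the energy
  have hbig' : 9 * π ^ 2 / 2 < ∑ i, ∑ j, (InnerProductGeometry.angle (D i) (D j)) ^ 2 := by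
    have e01 := (hdata 2 3 0 1 (by decide) (by decide) (by decide) (by decide) (by decide)
      (by decide) (by decide)).2.1
    have e02 := (hdata 1 3 0 2 (by decide) (by decide) (by decide) (by decide) (by decide)
      (by decide) (by decide)).2.1
    have e03 := (hdata 1 2 0 3 (by decide) (by decide) (by decide) (by decide) (by decide)
      (by decide) (by decide)).2.1
    have e12 := (hdata 0 3 1 2 (by decide) (by decide) (by decide) (by decide) (by decide)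
      (by decide) (by decide)).2.1
    have e13 := (hdata 0 2 1 3 (by decide) (by decide) (by decide) (by decide) (by decide)
      (by decide) (by decide)).2.1
    have e23 := (hdata 0 1 2 3 (by decide) (by decide) (by decide) (by decide) (by decide)
      (by decide) (by decide)).2.1
    have hsum : ‖U 0 - U 1‖ ^ 2 + ‖U 0 - U 2‖ ^ 2 + ‖U 0 - U 3‖ ^ 2 + ‖U 1 - U 2‖ ^ 2
        + ‖U 1 - U 3‖ ^ 2 + ‖U 2 - U 3‖ ^ 2 = 4 * ∑ i, ‖U i‖ ^ 2 := by
      rw [Fin.sum_univ_four] at hS0 ⊢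
      have h0 : ⟪U 0 + U 1 + U 2 + U 3, U 0 + U 1 + U 2 + U 3⟫ = 0 := by
        rw [hS0, inner_zero_left]
      simp only [inner_add_left, inner_add_right, real_inner_self_eq_norm_sq] at h0
      rw [real_inner_comm (U 0) (U 1), real_inner_comm (U 0) (U 2), real_inner_comm (U 0) (U 3),
        real_inner_comm (U 1) (U 2), real_inner_comm (U 1) (U 3), real_inner_comm (U 2) (U 3)] at h0
      simp only [norm_sub_sq_real]
      linarith
    have hang0 : ∀ i, InnerProductGeometry.angle (D i) (D i) = 0 :=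
      fun i => InnerProductGeometry.angle_self (hne i)
    simp only [Fin.sum_univ_four, hang0]
    rw [InnerProductGeometry.angle_comm (D 1) (D 0), InnerProductGeometry.angle_comm (D 2) (D 0),
      InnerProductGeometry.angle_comm (D 3) (D 0), InnerProductGeometry.angle_comm (D 2) (D 1),
      InnerProductGeometry.angle_comm (D 3) (D 1), InnerProductGeometry.angle_comm (D 3) (D 2)]
    obtain ⟨a01, h01⟩ : ∃ x, x = InnerProductGeometry.angle (D 0) (D 1) := ⟨_, rfl⟩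
    obtain ⟨a02, h02⟩ : ∃ x, x = InnerProductGeometry.angle (D 0) (D 2) := ⟨_, rfl⟩
    obtain ⟨a03, h03⟩ : ∃ x, x = InnerProductGeometry.angle (D 0) (D 3) := ⟨_, rfl⟩
    obtain ⟨a12, h12⟩ : ∃ x, x = InnerProductGeometry.angle (D 1) (D 2) := ⟨_, rfl⟩
    obtain ⟨a13, h13⟩ : ∃ x, x = InnerProductGeometry.angle (D 1) (D 3) := ⟨_, rfl⟩
    obtain ⟨a23, h23⟩ : ∃ x, x = InnerProductGeometry.angle (D 2) (D 3) := ⟨_, rfl⟩
    rw [← h01] at e01 ⊢
    rw [← h02] at e02 ⊢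
    rw [← h03] at e03 ⊢
    rw [← h12] at e12 ⊢
    rw [← h13] at e13 ⊢
    rw [← h23] at e23 ⊢
    rw [e23, e13, e12, e03, e02, e01] at hsum
    have hw2 : w1 ^ 2 = 2 / π ^ 3 := by
      rw [hw1, div_pow, mul_pow, cG_sq]
      field_simp
      try ring
    have hX : w1 ^ 2 * (a01 ^ 2 + a02 ^ 2 + a03 ^ 2 + a12 ^ 2 + a13 ^ 2 + a23 ^ 2) =
        4 * ∑ i, ‖U i‖ ^ 2 := by
      rw [← hsum]
      ring
    have ht0 : 4 * t0 = 9 / (2 * π) := by
      unfold t0
      field_simp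
      try ring
    by_contra hc
    push Not at hc
    have hle : a01 ^ 2 + a02 ^ 2 + a03 ^ 2 + a12 ^ 2 + a13 ^ 2 + a23 ^ 2 ≤ 9 * π ^ 2 / 4 := by
      linarith
    have h5 : w1 ^ 2 * (a01 ^ 2 + a02 ^ 2 + a03 ^ 2 + a12 ^ 2 + a13 ^ 2 + a23 ^ 2) ≤
        w1 ^ 2 * (9 * π ^ 2 / 4) := mul_le_mul_of_nonneg_left hle (by positivity)
    have h6 : w1 ^ 2 * (9 * π ^ 2 / 4) = 9 / (2 * π) := by
      rw [hw2]
      field_simp
      try ring
    linarith
  refine no_sys_fin t (fun i j => InnerProductGeometry.angle (D i) (D j)) htpos ?_ ?_ ?_ ?_ hp hbig'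
  · intro i j hij
    exact ⟨(hang i j hij).1, (hang i j hij).2.1⟩
  · intro i j
    exact InnerProductGeometry.angle_comm _ _
  · intro i
    exact InnerProductGeometry.angle_self (hne i)
  · intro i j hij
    show InnerProductGeometry.angle (D i) (D j) = _
    rw [htt]
    exact (hang i j hij).2.2

omit [NormedAddCommGroup E] [InnerProductSpace ℝ E] [FiniteDimensional ℝ E] [MeasurableSpace E]
  [BorelSpace E] in
lemma sum_over [AddCommMonoid E] {S : Finset ℕ} (hc : S.card = 4) (g : ℕ → E) :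
    ∑ l ∈ S, g l = ∑ i, g (S.orderEmbOfFin hc i) := by
  conv_lhs => rw [← Finset.map_orderEmbOfFin_univ S hc, Finset.sum_map]
  rfl

/-- There is no critical configuration with four cells. -/
theorem crit_four_false {S : Finset ℕ} (hc : S.card = 4) {u : ℕ → E} (h : Crit S u) : False := by
  classical
  have hSne : S.Nonempty := by
    rw [← Finset.card_pos, hc]
    norm_num
  have hmem : ∀ i, S.orderEmbOfFin hc i ∈ S := fun i => Finset.orderEmbOfFin_mem S hc i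
  have hsur : ∀ n ∈ S, ∃ i, S.orderEmbOfFin hc i = n := by
    intro n hn
    have h1 : n ∈ Set.range (S.orderEmbOfFin hc) := by
      rw [Finset.range_orderEmbOfFin]
      exact hn
    exact h1
  have hinj : Function.Injective (S.orderEmbOfFin hc) := (S.orderEmbOfFin hc).injective
  obtain ⟨U, hU⟩ : ∃ U : Fin 4 → E, U = fun i => u (S.orderEmbOfFin hc i) := ⟨_, rfl⟩
  have hUe : ∀ i, u (S.orderEmbOfFin hc i) = U i := fun i => by rw [hU]
  have hS0 : ∑ i, U i = 0 := by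
    have h1 := h.sum_eq_zero hSne
    rw [sum_over hc] at h1
    simpa only [hUe] using h1
  have hneg : ∀ i j, i ≠ j → ⟪U i, U j⟫ < 0 := by
    intro i j hij
    rw [← hUe, ← hUe]
    exact h.neg _ (hmem i) _ (hmem j) (fun e => hij (hinj e))
  have hbig : t0 < ∑ i, ‖U i‖ ^ 2 := by
    have h1 := h.big
    rw [sum_over hc] at h1
    simpa only [hUe] using h1
  obtain ⟨D, hD⟩ := exists_dualFam U hS0 hneg
  refine dual_false hD hS0 ?_ hbig
  intro a b c d huniv hab hac had hbc hbd hcd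
  have hall : ∀ k, k = a ∨ k = b ∨ k = c ∨ k = d := by
    intro k
    have h1 := Finset.mem_univ k
    rw [huniv] at h1
    simpa using h1
  have hq : ∀ k, k ≠ a → U a - U k ≠ 0 := by
    intro k hk h0
    have h1 := hneg a k hk.symm
    rw [sub_eq_zero.mp h0, real_inner_self_eq_norm_sq] at h1
    have h2 : 0 ≤ ‖U k‖ ^ 2 := by positivity
    linarith
  have hae : vor S u (S.orderEmbOfFin hc a) =ᵐ[stdGaussian E]
      {x | 0 < ⟪U a - U b, x⟫ ∧ 0 < ⟪U a - U c, x⟫ ∧ 0 < ⟪U a - U d, x⟫} := by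
    rw [Filter.eventuallyEq_set]
    filter_upwards [ae_inner_ne_zero _ (hq b hab.symm), ae_inner_ne_zero _ (hq c hac.symm),
      ae_inner_ne_zero _ (hq d had.symm)] with x hb hc' hd
    constructor
    · intro hx
      have hx' : (∀ n ∈ S, ⟪u n, x⟫ ≤ ⟪u (S.orderEmbOfFin hc a), x⟫) ∧
        ∀ n ∈ S, n < S.orderEmbOfFin hc a → ⟪u n, x⟫ < ⟪u (S.orderEmbOfFin hc a), x⟫ := hx
      have key : ∀ k, ⟪U a - U k, x⟫ ≠ 0 → 0 < ⟪U a - U k, x⟫ := by
        intro k hne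
        have h1 := hx'.1 _ (hmem k)
        rw [hUe, hUe] at h1
        have h2 : 0 ≤ ⟪U a - U k, x⟫ := by
          rw [inner_sub_left]
          linarith
        exact lt_of_le_of_ne h2 hne.symm
      exact ⟨key b hb, key c hc', key d hd⟩
    · rintro ⟨h1, h2, h3⟩
      rw [inner_sub_left] at h1 h2 h3
      have key : ∀ k, k ≠ a → ⟪U k, x⟫ < ⟪U a, x⟫ := by
        intro k hk
        rcases hall k with rfl | rfl | rfl | rfl
        · exact absurd rfl hk
        · linarith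
        · linarith
        · linarith
      show (∀ n ∈ S, ⟪u n, x⟫ ≤ ⟪u (S.orderEmbOfFin hc a), x⟫) ∧
        ∀ n ∈ S, n < S.orderEmbOfFin hc a → ⟪u n, x⟫ < ⟪u (S.orderEmbOfFin hc a), x⟫
      refine ⟨?_, ?_⟩
      · intro n hn
        obtain ⟨k, rfl⟩ := hsur n hn
        by_cases hk : k = a
        · rw [hk]
        · rw [hUe, hUe]
          exact (key k hk).le
      · intro n hn hlt
        obtain ⟨k, rfl⟩ := hsur n hn
        rw [hUe, hUe]
        apply key k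
        rintro rfl
        exact lt_irrefl _ hlt
  rw [← setIntegral_congr_set hae, setIntegral_inner, h.fixed _ (hmem a), hUe, inner_neg_left,
    hD.dual, if_neg hab.symm]
  norm_num

end measure

end Vale.Agent.Lib.P226.Y
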