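import Vale.Agent.Lib.P226.Y.FacetB

/-!
Dual vectors of a simplex and their Gram matrix.
-/

open MeasureTheory ProbabilityTheory Real Set Filter
open scoped RealInnerProductSpace ENNReal

namespace Vale.Agent.Lib.P226.Y

variable {E : Type*} [NormedAddCommGroup E] [InnerProductSpace ℝ E]

/-- The dual family of four vectors with sum zero. -/
structure DualFam (U D : Fin 4 → E) : Prop where
  dual : ∀ i a, ⟪D i, U a⟫ = (if i = a then 1 else 0) - 1 / 4
  sumD : ∑ i, D i = 0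
  span : ∀ i, D i ∈ Submodule.span ℝ (Set.range U)

/-- Existence of the dual family. -/
lemma exists_dualFam (U : Fin 4 → E) (hS0 : ∑ i, U i = 0)
    (hneg : ∀ i j, i ≠ j → ⟪U i, U j⟫ < 0) : ∃ D : Fin 4 → E, DualFam U D := by
  have hU3 : U 3 = -(U 0 + U 1 + U 2) := by
    rw [Fin.sum_univ_four] at hS0
    exact eq_neg_of_add_eq_zero_right hS0
  set c01 := -⟪U 0, U 1⟫ with hc01
  set c02 := -⟪U 0, U 2⟫ with hc02
  set c03 := -⟪U 0, U 3⟫ with hc03
  set c12 := -⟪U 1, U 2⟫ with hc12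
  set c13 := -⟪U 1, U 3⟫ with hc13
  set c23 := -⟪U 2, U 3⟫ with hc23
  have p01 : 0 < c01 := by have := hneg 0 1 (by decide); linarith
  have p02 : 0 < c02 := by have := hneg 0 2 (by decide); linarith
  have p03 : 0 < c03 := by have := hneg 0 3 (by decide); linarith
  have p12 : 0 < c12 := by have := hneg 1 2 (by decide); linarith
  have p13 : 0 < c13 := by have := hneg 1 3 (by decide); linarith
  have p23 : 0 < c23 := by have := hneg 2 3 (by decide); linarith
  have i03 : ⟪U 0, U 3⟫ = -c03 := by rw [hc03]; ring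
  -- Gram entries
  have g00 : ⟪U 0, U 0⟫ = c01 + c02 + c03 := by
    have : ⟪U 0, U 3⟫ = -(⟪U 0, U 0⟫ + ⟪U 0, U 1⟫ + ⟪U 0, U 2⟫) := by
      rw [hU3, inner_neg_right, inner_add_right, inner_add_right]
    rw [hc01, hc02, hc03, this]; ring
  have g11 : ⟪U 1, U 1⟫ = c01 + c12 + c13 := by
    have : ⟪U 1, U 3⟫ = -(⟪U 1, U 0⟫ + ⟪U 1, U 1⟫ + ⟪U 1, U 2⟫) := by
      rw [hU3, inner_neg_right, inner_add_right, inner_add_right]
    rw [hc01, hc12, hc13, this, real_inner_comm (U 1) (U 0)]; ring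
  have g22 : ⟪U 2, U 2⟫ = c02 + c12 + c23 := by
    have : ⟪U 2, U 3⟫ = -(⟪U 2, U 0⟫ + ⟪U 2, U 1⟫ + ⟪U 2, U 2⟫) := by
      rw [hU3, inner_neg_right, inner_add_right, inner_add_right]
    rw [hc02, hc12, hc23, this, real_inner_comm (U 2) (U 0), real_inner_comm (U 2) (U 1)]; ring
  set T := treesK4 c01 c02 c03 c12 c13 c23 with hT
  have hTpos : 0 < T := by
    rw [hT, treesK4]
    positivity
  -- the inverse of the reduced Gram matrix
  set A00 := ((c01 + c12 + c13) * (c02 + c12 + c23) - c12 ^ 2) / T with hA00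
  set A01 := (c01 * (c02 + c12 + c23) + c12 * c02) / T with hA01
  set A02 := (c02 * (c01 + c12 + c13) + c01 * c12) / T with hA02
  set A11 := ((c01 + c02 + c03) * (c02 + c12 + c23) - c02 ^ 2) / T with hA11
  set A12 := (c12 * (c01 + c02 + c03) + c01 * c02) / T with hA12
  set A22 := ((c01 + c02 + c03) * (c01 + c12 + c13) - c01 ^ 2) / T with hA22
  -- inner products of combinations
  have hcomb : ∀ (a b d : ℝ) (k : Fin 4), ⟪a • U 0 + b • U 1 + d • U 2, U k⟫ =
      a * ⟪U 0, U k⟫ + b * ⟪U 1, U k⟫ + d * ⟪U 2, U k⟫ := by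
    intro a b d k
    rw [inner_add_left, inner_add_left, real_inner_smul_left, real_inner_smul_left,
      real_inner_smul_left]
  have i10 : ⟪U 1, U 0⟫ = -c01 := by rw [real_inner_comm, hc01]; ring
  have i20 : ⟪U 2, U 0⟫ = -c02 := by rw [real_inner_comm, hc02]; ring
  have i21 : ⟪U 2, U 1⟫ = -c12 := by rw [real_inner_comm, hc12]; ring
  have i01 : ⟪U 0, U 1⟫ = -c01 := by rw [hc01]; ring
  have i02 : ⟪U 0, U 2⟫ = -c02 := by rw [hc02]; ring
  have i12 : ⟪U 1, U 2⟫ = -c12 := by rw [hc12]; ring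
  obtain ⟨d0, hd0⟩ : ∃ d : E, d = A00 • U 0 + A01 • U 1 + A02 • U 2 := ⟨_, rfl⟩
  obtain ⟨d1, hd1⟩ : ∃ d : E, d = A01 • U 0 + A11 • U 1 + A12 • U 2 := ⟨_, rfl⟩
  obtain ⟨d2, hd2⟩ : ∃ d : E, d = A02 • U 0 + A12 • U 1 + A22 • U 2 := ⟨_, rfl⟩
  have hTne : T ≠ 0 := hTpos.ne'
  have hTexp : T = treesK4 c01 c02 c03 c12 c13 c23 := hT
  have e00 : ⟪d0, U 0⟫ = 1 := by
    rw [hd0, hcomb, g00, i10, i20, hA00, hA01, hA02]
    field_simp
    rw [hTexp, treesK4]; ring
  have e01 : ⟪d0, U 1⟫ = 0 := by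
    rw [hd0, hcomb, g11, i01, i21, hA00, hA01, hA02]
    field_simp
    ring
  have e02 : ⟪d0, U 2⟫ = 0 := by
    rw [hd0, hcomb, g22, i02, i12, hA00, hA01, hA02]
    field_simp
    ring
  have e10 : ⟪d1, U 0⟫ = 0 := by
    rw [hd1, hcomb, g00, i10, i20, hA01, hA11, hA12]
    field_simp
    ring
  have e11 : ⟪d1, U 1⟫ = 1 := by
    rw [hd1, hcomb, g11, i01, i21, hA01, hA11, hA12]
    field_simp
    rw [hTexp, treesK4]; ring
  have e12 : ⟪d1, U 2⟫ = 0 := by
    rw [hd1, hcomb, g22, i02, i12, hA01, hA11, hA12]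
    field_simp
    ring
  have e20 : ⟪d2, U 0⟫ = 0 := by
    rw [hd2, hcomb, g00, i10, i20, hA02, hA12, hA22]
    field_simp
    ring
  have e21 : ⟪d2, U 1⟫ = 0 := by
    rw [hd2, hcomb, g11, i01, i21, hA02, hA12, hA22]
    field_simp
    ring
  have e22 : ⟪d2, U 2⟫ = 1 := by
    rw [hd2, hcomb, g22, i02, i12, hA02, hA12, hA22]
    field_simp
    rw [hTexp, treesK4]; ring
  have e3 : ∀ z : E, ⟪z, U 3⟫ = -(⟪z, U 0⟫ + ⟪z, U 1⟫ + ⟪z, U 2⟫) := by
    intro z
    rw [hU3, inner_neg_right, inner_add_right, inner_add_right]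
  have m0 : U 0 ∈ Submodule.span ℝ (Set.range U) := Submodule.subset_span ⟨0, rfl⟩
  have m1 : U 1 ∈ Submodule.span ℝ (Set.range U) := Submodule.subset_span ⟨1, rfl⟩
  have m2 : U 2 ∈ Submodule.span ℝ (Set.range U) := Submodule.subset_span ⟨2, rfl⟩
  have md0 : d0 ∈ Submodule.span ℝ (Set.range U) := by
    rw [hd0]
    exact Submodule.add_mem _ (Submodule.add_mem _ (Submodule.smul_mem _ _ m0)
      (Submodule.smul_mem _ _ m1)) (Submodule.smul_mem _ _ m2)
  have md1 : d1 ∈ Submodule.span ℝ (Set.range U) := by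
    rw [hd1]
    exact Submodule.add_mem _ (Submodule.add_mem _ (Submodule.smul_mem _ _ m0)
      (Submodule.smul_mem _ _ m1)) (Submodule.smul_mem _ _ m2)
  have md2 : d2 ∈ Submodule.span ℝ (Set.range U) := by
    rw [hd2]
    exact Submodule.add_mem _ (Submodule.add_mem _ (Submodule.smul_mem _ _ m0)
      (Submodule.smul_mem _ _ m1)) (Submodule.smul_mem _ _ m2)
  set av : E := (1 / 4 : ℝ) • (d0 + d1 + d2) with hav
  have mav : av ∈ Submodule.span ℝ (Set.range U) :=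
    Submodule.smul_mem _ _ (Submodule.add_mem _ (Submodule.add_mem _ md0 md1) md2)
  have iav : ∀ k : Fin 4, ⟪av, U k⟫ = (1 / 4) * (⟪d0, U k⟫ + ⟪d1, U k⟫ + ⟪d2, U k⟫) := by
    intro k
    rw [hav, real_inner_smul_left, inner_add_left, inner_add_left]
  refine ⟨![d0 - av, d1 - av, d2 - av, -av], ?_, ?_, ?_⟩
  · intro i a
    fin_cases i <;> fin_cases a <;>
      simp only [Fin.zero_eta, Fin.mk_one, Fin.reduceFinMk, Matrix.cons_val, Matrix.cons_val_zero,
        Matrix.cons_val_one, Matrix.head_cons, inner_sub_left, inner_neg_left, iav, e00, e01, e02,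
        e10, e11, e12, e20, e21, e22, e3 d0, e3 d1, e3 d2] <;>
      first
        | (norm_num; done)
        | (rw [if_neg (by decide)]; norm_num)
  · rw [Fin.sum_univ_four]
    simp only [Fin.isValue, Matrix.cons_val, Matrix.cons_val_zero, Matrix.cons_val_one,
      Matrix.head_cons]
    have : d0 - av + (d1 - av) + (d2 - av) + -av = (d0 + d1 + d2) - (4 : ℝ) • av := by
      rw [show (4 : ℝ) = 1 + 1 + 1 + 1 by norm_num, add_smul, add_smul, add_smul, one_smul]
      abel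
    rw [this, hav, smul_smul]
    norm_num
  · intro i
    fin_cases i
    · exact Submodule.sub_mem _ md0 mav
    · exact Submodule.sub_mem _ md1 mav
    · exact Submodule.sub_mem _ md2 mav
    · exact Submodule.neg_mem _ mav

/-- The dual vectors expand along the `U` with their Gram matrix. -/
lemma DualFam.expand {U D : Fin 4 → E} (h : DualFam U D) (hS0 : ∑ i, U i = 0) (i : Fin 4) :
    D i = ∑ l, ⟪D i, D l⟫ • U l := by
  obtain ⟨α, hα⟩ := (Submodule.mem_span_range_iff_exists_fun ℝ).mp (h.span i)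
  have hM : ∀ l, ⟪D i, D l⟫ = α l - (1 / 4) * ∑ j, α j := by
    intro l
    rw [← hα, sum_inner]
    have h1 : ∀ j, ⟪α j • U j, D l⟫ = α j * ((if l = j then 1 else 0) - 1 / 4) := by
      intro j
      rw [real_inner_smul_left, real_inner_comm, h.dual]
    simp_rw [h1]
    rw [Fin.sum_univ_four, Fin.sum_univ_four]
    fin_cases l <;> simp <;> ring
  have h2 : ∑ l, ⟪D i, D l⟫ • U l = ∑ l, α l • U l - ((1 / 4) * ∑ j, α j) • ∑ l, U l := by
    rw [Finset.smul_sum, ← Finset.sum_sub_distrib]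
    apply Finset.sum_congr rfl
    intro l _
    rw [hM l, sub_smul]
  rw [h2, hS0, smul_zero, sub_zero, hα]

/-- Matrix relation between the Gram matrix of `D` and the edges at a vertex. -/
lemma DualFam.edge_expand {U D : Fin 4 → E} (h : DualFam U D) (hS0 : ∑ i, U i = 0)
    {a b c d : Fin 4} (huniv : (Finset.univ : Finset (Fin 4)) = {a, b, c, d})
    (hab : a ≠ b) (hac : a ≠ c) (had : a ≠ d) (hbc : b ≠ c) (hbd : b ≠ d) (hcd : c ≠ d) (i : Fin 4) :
    ⟪D i, D b⟫ • (U a - U b) + ⟪D i, D c⟫ • (U a - U c) + ⟪D i, D d⟫ • (U a - U d) = -D i := by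
  have hs : ∀ {F : Type _} [AddCommMonoid F] (g : Fin 4 → F), ∑ l, g l = g a + g b + g c + g d := by
    intro F _ g
    rw [huniv, Finset.sum_insert (by simp [hab, hac, had]), Finset.sum_insert (by simp [hbc, hbd]),
      Finset.sum_insert (by simp [hcd]), Finset.sum_singleton]
    abel
  have h1 := h.expand hS0 i
  rw [hs] at h1
  have h2 : ⟪D i, D a⟫ + ⟪D i, D b⟫ + ⟪D i, D c⟫ + ⟪D i, D d⟫ = 0 := by
    have h3 := h.sumD
    rw [hs] at h3
    have h4 : ⟪D i, D a + D b + D c + D d⟫ = 0 := by rw [h3, inner_zero_right]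
    rw [inner_add_right, inner_add_right, inner_add_right] at h4
    exact h4
  have h5 : ⟪D i, D a⟫ = -(⟪D i, D b⟫ + ⟪D i, D c⟫ + ⟪D i, D d⟫) := by linarith
  rw [h5] at h1
  generalize ⟪D i, D b⟫ = x at h1 ⊢
  generalize ⟪D i, D c⟫ = y at h1 ⊢
  generalize ⟪D i, D d⟫ = z at h1 ⊢
  rw [eq_neg_iff_add_eq_zero, h1]
  simp only [smul_sub, neg_smul, add_smul]
  abel

/-- The algebra of a matrix and its inverse, three by three. -/
lemma gram_alg {m11 m12 m13 m22 m23 m33 q11 q12 q13 q22 q23 q33 : ℝ}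
    (h11 : m11 * q11 + m12 * q12 + m13 * q13 = 1) (h12 : m11 * q12 + m12 * q22 + m13 * q23 = 0)
    (h13 : m11 * q13 + m12 * q23 + m13 * q33 = 0) (h21 : m12 * q11 + m22 * q12 + m23 * q13 = 0)
    (h22 : m12 * q12 + m22 * q22 + m23 * q23 = 1) (h23 : m12 * q13 + m22 * q23 + m23 * q33 = 0)
    (h31 : m13 * q11 + m23 * q12 + m33 * q13 = 0) (h32 : m13 * q12 + m23 * q22 + m33 * q23 = 0)
    (h33 : m13 * q13 + m23 * q23 + m33 * q33 = 1) :
    let Δ := m11 * (m22 * m33 - m23 ^ 2) - m12 * (m12 * m33 - m23 * m13)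
      + m13 * (m12 * m23 - m22 * m13)
    Δ * q11 = m22 * m33 - m23 ^ 2 ∧ Δ * q12 = -(m12 * m33 - m23 * m13) ∧
    Δ * q13 = m12 * m23 - m22 * m13 ∧ Δ * q22 = m11 * m33 - m13 ^ 2 ∧
    Δ * q23 = -(m11 * m23 - m12 * m13) ∧ Δ * q33 = m11 * m22 - m12 ^ 2 ∧ Δ ≠ 0 := by
  intro Δ
  have a11 : Δ * q11 = m22 * m33 - m23 ^ 2 := by
    linear_combination (m22 * m33 - m23 ^ 2) * h11 - (m12 * m33 - m23 * m13) * h21
      + (m12 * m23 - m22 * m13) * h31
  have a12 : Δ * q12 = -(m12 * m33 - m23 * m13) := by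
    linear_combination (m22 * m33 - m23 ^ 2) * h12 - (m12 * m33 - m23 * m13) * h22
      + (m12 * m23 - m22 * m13) * h32
  have a13 : Δ * q13 = m12 * m23 - m22 * m13 := by
    linear_combination (m22 * m33 - m23 ^ 2) * h13 - (m12 * m33 - m23 * m13) * h23
      + (m12 * m23 - m22 * m13) * h33
  have a22 : Δ * q22 = m11 * m33 - m13 ^ 2 := by
    linear_combination -(m12 * m33 - m13 * m23) * h12 + (m11 * m33 - m13 ^ 2) * h22
      - (m11 * m23 - m12 * m13) * h32
  have a23 : Δ * q23 = -(m11 * m23 - m12 * m13) := by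
    linear_combination -(m12 * m33 - m13 * m23) * h13 + (m11 * m33 - m13 ^ 2) * h23
      - (m11 * m23 - m12 * m13) * h33
  have a33 : Δ * q33 = m11 * m22 - m12 ^ 2 := by
    linear_combination (m12 * m23 - m13 * m22) * h13 - (m11 * m23 - m12 * m13) * h23
      + (m11 * m22 - m12 ^ 2) * h33
  refine ⟨a11, a12, a13, a22, a23, a33, ?_⟩
  intro hΔ
  rw [hΔ, zero_mul] at a12 a13 a33
  have key : (m11 * q11 + m12 * q12 + m13 * q13) * (m12 * q12 + m22 * q22 + m23 * q23)
      - (m11 * q12 + m12 * q22 + m13 * q23) * (m12 * q11 + m22 * q12 + m23 * q13)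
      = (m11 * m22 - m12 ^ 2) * (q11 * q22 - q12 ^ 2)
        + (m11 * m23 - m12 * m13) * (q11 * q23 - q12 * q13)
        + (m12 * m23 - m22 * m13) * (q12 * q23 - q13 * q22) := by ring
  have a12' : m11 * m23 - m12 * m13 = 0 := by
    have := hΔ
    -- from the third column relations
    have h4 : m11 * m22 - m12 ^ 2 = 0 := a33.symm
    have h5 : m12 * m23 - m22 * m13 = 0 := a13.symm
    by_contra hne
    have h6 : Δ * q23 = -(m11 * m23 - m12 * m13) := a23
    rw [hΔ, zero_mul] at h6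
    exact hne (by linarith)
  rw [h11, h22, h12, h21, ← a33, a12', ← a13] at key
  norm_num at key

end Vale.Agent.Lib.P226.Y
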