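import Vale.Agent.Lib.P226.Y.Orthant

/-!
The moment of a polyhedral cone tested on a direction parallel to two of its faces.
-/

open MeasureTheory ProbabilityTheory Real Set Filter Topology
open scoped RealInnerProductSpace ENNReal NNReal

namespace Vale.Agent.Lib.P226

variable {E : Type*} [NormedAddCommGroup E] [InnerProductSpace ℝ E] [FiniteDimensional ℝ E]
  [MeasurableSpace E] [BorelSpace E]

omit [FiniteDimensional ℝ E] [MeasurableSpace E] [BorelSpace E] in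
lemma phi_zero_eq : phi 0 = cG := by
  simp [phi]

lemma ae_inner_ne_const (p : E) (hp : p ≠ 0) (r : ℝ) :
    ∀ᵐ y ∂(stdGaussian E), ⟪p, y⟫ ≠ r := by
  have hn : 0 < ‖p‖ := norm_pos_iff.2 hp
  have hu : ‖‖p‖⁻¹ • p‖ = 1 := by
    rw [norm_smul, norm_inv, norm_norm]
    field_simp
  have h0 := ae_ne_gauss (r / ‖p‖)
  rw [← map_inner_unit _ hu] at h0
  have h1 := ae_of_ae_map (by fun_prop) h0
  filter_upwards [h1] with y hy e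
  apply hy
  simp only [innerSL_apply_apply, inner_smul_left, conj_trivial]
  rw [e]
  field_simp

/-- The wedge function. -/
noncomputable def wedgeW (p q : E) (c₁ c₂ t : ℝ) : ℝ :=
  (stdGaussian E).real {y | 0 ≤ ⟪p, y⟫ + t * c₁ ∧ 0 ≤ ⟪q, y⟫ + t * c₂}

lemma measurableSet_wedge (p q : E) (c₁ c₂ t : ℝ) :
    MeasurableSet {y : E | 0 ≤ ⟪p, y⟫ + t * c₁ ∧ 0 ≤ ⟪q, y⟫ + t * c₂} := by
  have h1 : Measurable fun y : E => ⟪p, y⟫ + t * c₁ := by fun_prop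
  have h2 : Measurable fun y : E => ⟪q, y⟫ + t * c₂ := by fun_prop
  exact (measurableSet_le measurable_const h1).inter (measurableSet_le measurable_const h2)

lemma wedgeW_nonneg (p q : E) (c₁ c₂ t : ℝ) : 0 ≤ wedgeW p q c₁ c₂ t := measureReal_nonneg

lemma wedgeW_le_one (p q : E) (c₁ c₂ t : ℝ) : wedgeW p q c₁ c₂ t ≤ 1 := measureReal_le_one

lemma continuous_wedgeW (p q : E) (hp : p ≠ 0) (hq : q ≠ 0) (c₁ c₂ : ℝ) :
    Continuous (wedgeW p q c₁ c₂) := by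
  rw [continuous_iff_continuousAt]
  intro t₀
  have hF : ∀ t, wedgeW p q c₁ c₂ t =
      ∫ y, {y : E | 0 ≤ ⟪p, y⟫ + t * c₁ ∧ 0 ≤ ⟪q, y⟫ + t * c₂}.indicator (fun _ => (1 : ℝ)) y
        ∂(stdGaussian E) := fun t => (integral_indicator_one (measurableSet_wedge p q c₁ c₂ t)).symm
  have hfun : wedgeW p q c₁ c₂ = fun t => ∫ y,
      {y : E | 0 ≤ ⟪p, y⟫ + t * c₁ ∧ 0 ≤ ⟪q, y⟫ + t * c₂}.indicator (fun _ => (1 : ℝ)) y
        ∂(stdGaussian E) := funext hF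
  rw [hfun]
  apply continuousAt_of_dominated (bound := fun _ => (1 : ℝ))
  · refine Eventually.of_forall fun t => ?_
    exact (measurable_const.indicator (measurableSet_wedge p q c₁ c₂ t)).aestronglyMeasurable
  · refine Eventually.of_forall fun t => ae_of_all _ fun y => ?_
    by_cases h : y ∈ {y : E | 0 ≤ ⟪p, y⟫ + t * c₁ ∧ 0 ≤ ⟪q, y⟫ + t * c₂}
    · rw [indicator_of_mem h]; simp
    · rw [indicator_of_notMem h]; simp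
  · exact integrable_const _
  · filter_upwards [ae_inner_ne_const p hp (-(t₀ * c₁)), ae_inner_ne_const q hq (-(t₀ * c₂))]
      with y hy1 hy2
    have hc1 : Continuous fun t : ℝ => ⟪p, y⟫ + t * c₁ := by fun_prop
    have hc2 : Continuous fun t : ℝ => ⟪q, y⟫ + t * c₂ := by fun_prop
    have hne1 : ⟪p, y⟫ + t₀ * c₁ ≠ 0 := fun e => hy1 (by linarith)
    have hne2 : ⟪q, y⟫ + t₀ * c₂ ≠ 0 := fun e => hy2 (by linarith)
    rcases lt_or_gt_of_ne hne1 with h1 | h1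
    · have hev : ∀ᶠ t in 𝓝 t₀, ⟪p, y⟫ + t * c₁ < 0 :=
        hc1.continuousAt.eventually (Iio_mem_nhds h1)
      have : (fun t => {y : E | 0 ≤ ⟪p, y⟫ + t * c₁ ∧ 0 ≤ ⟪q, y⟫ + t * c₂}.indicator
          (fun _ => (1 : ℝ)) y) =ᶠ[𝓝 t₀] fun _ => 0 := by
        filter_upwards [hev] with t ht
        exact indicator_of_notMem (fun hh => absurd hh.1 (not_le.2 ht)) _
      exact continuousAt_const.congr this.symm
    rcases lt_or_gt_of_ne hne2 with h2 | h2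
    · have hev : ∀ᶠ t in 𝓝 t₀, ⟪q, y⟫ + t * c₂ < 0 :=
        hc2.continuousAt.eventually (Iio_mem_nhds h2)
      have : (fun t => {y : E | 0 ≤ ⟪p, y⟫ + t * c₁ ∧ 0 ≤ ⟪q, y⟫ + t * c₂}.indicator
          (fun _ => (1 : ℝ)) y) =ᶠ[𝓝 t₀] fun _ => 0 := by
        filter_upwards [hev] with t ht
        exact indicator_of_notMem (fun hh => absurd hh.2 (not_le.2 ht)) _
      exact continuousAt_const.congr this.symm
    · have hev1 : ∀ᶠ t in 𝓝 t₀, 0 < ⟪p, y⟫ + t * c₁ :=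
        hc1.continuousAt.eventually (Ioi_mem_nhds h1)
      have hev2 : ∀ᶠ t in 𝓝 t₀, 0 < ⟪q, y⟫ + t * c₂ :=
        hc2.continuousAt.eventually (Ioi_mem_nhds h2)
      have : (fun t => {y : E | 0 ≤ ⟪p, y⟫ + t * c₁ ∧ 0 ≤ ⟪q, y⟫ + t * c₂}.indicator
          (fun _ => (1 : ℝ)) y) =ᶠ[𝓝 t₀] fun _ => 1 := by
        filter_upwards [hev1, hev2] with t ht1 ht2
        exact indicator_of_mem (show y ∈ {y : E | 0 ≤ ⟪p, y⟫ + t * c₁ ∧ 0 ≤ ⟪q, y⟫ + t * c₂} from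
          ⟨ht1.le, ht2.le⟩) _
      exact continuousAt_const.congr this.symm

/-- The shifted half-space probability. -/
noncomputable def halfG (e₃ m₁ m₂ : E) (τ : ℝ) : ℝ :=
  (stdGaussian E).real {x | -τ ≤ ⟪e₃, x⟫ ∧ 0 ≤ ⟪m₁, x⟫ ∧ 0 ≤ ⟪m₂, x⟫}

lemma halfG_eq (e₃ m₁ m₂ : E) (he₃ : ‖e₃‖ = 1) (τ : ℝ) :
    halfG e₃ m₁ m₂ τ = ∫ t in Ioi (-τ),
      wedgeW (m₁ - ⟪e₃, m₁⟫ • e₃) (m₂ - ⟪e₃, m₂⟫ • e₃) ⟪e₃, m₁⟫ ⟪e₃, m₂⟫ t * phi t := by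
  set A : Set E := {x | -τ ≤ ⟪e₃, x⟫ ∧ 0 ≤ ⟪m₁, x⟫ ∧ 0 ≤ ⟪m₂, x⟫} with hA
  have hm0 : Measurable fun x : E => ⟪e₃, x⟫ := by fun_prop
  have hm1 : Measurable fun x : E => ⟪m₁, x⟫ := by fun_prop
  have hm2 : Measurable fun x : E => ⟪m₂, x⟫ := by fun_prop
  have hAm : MeasurableSet A :=
    (measurableSet_le measurable_const hm0).inter
      ((measurableSet_le measurable_const hm1).inter (measurableSet_le measurable_const hm2))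
  have hint : Integrable (A.indicator (fun _ => (1 : ℝ))) (stdGaussian E) :=
    (integrable_const _).indicator hAm
  have h1 : halfG e₃ m₁ m₂ τ = ∫ x, A.indicator (fun _ => (1 : ℝ)) x ∂(stdGaussian E) :=
    (integral_indicator_one hAm).symm
  rw [h1, integral_split' e₃ he₃ _ hint]
  set W := wedgeW (m₁ - ⟪e₃, m₁⟫ • e₃) (m₂ - ⟪e₃, m₂⟫ • e₃) ⟪e₃, m₁⟫ ⟪e₃, m₂⟫ with hW
  have hin : ∀ᵐ t ∂(gaussianReal 0 1),
      ∫ y, A.indicator (fun _ => (1 : ℝ)) (splitMap e₃ (t, y)) ∂(stdGaussian E) =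
      (Ioi (-τ)).indicator W t := by
    filter_upwards [ae_ne_gauss (-τ)] with t htne
    have hmem : ∀ y : E, splitMap e₃ (t, y) ∈ A ↔ -τ ≤ t ∧
        y ∈ {y : E | 0 ≤ ⟪m₁ - ⟪e₃, m₁⟫ • e₃, y⟫ + t * ⟪e₃, m₁⟫ ∧
          0 ≤ ⟪m₂ - ⟪e₃, m₂⟫ • e₃, y⟫ + t * ⟪e₃, m₂⟫} := by
      intro y
      have e0 : ⟪e₃, splitMap e₃ (t, y)⟫ = t := inner_e_splitMap e₃ he₃ t y
      have e1 : ∀ m : E, ⟪m, splitMap e₃ (t, y)⟫ = ⟪m - ⟪e₃, m⟫ • e₃, y⟫ + t * ⟪e₃, m⟫ := by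
        intro m
        rw [inner_splitMap, inner_sub_left, inner_smul_left, real_inner_comm e₃ m]
        simp only [conj_trivial]
        ring
      show -τ ≤ ⟪e₃, splitMap e₃ (t, y)⟫ ∧ 0 ≤ ⟪m₁, splitMap e₃ (t, y)⟫ ∧
        0 ≤ ⟪m₂, splitMap e₃ (t, y)⟫ ↔ _
      rw [e0, e1 m₁, e1 m₂]
      rfl
    by_cases ht : -τ < t
    · rw [indicator_of_mem (show t ∈ Ioi (-τ) from ht), hW, wedgeW,
        ← integral_indicator_one (measurableSet_wedge _ _ _ _ t)]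
      apply integral_congr_ae
      refine ae_of_all _ fun y => ?_
      show A.indicator (fun _ => (1 : ℝ)) (splitMap e₃ (t, y)) = _
      by_cases hy : y ∈ {y : E | 0 ≤ ⟪m₁ - ⟪e₃, m₁⟫ • e₃, y⟫ + t * ⟪e₃, m₁⟫ ∧
          0 ≤ ⟪m₂ - ⟪e₃, m₂⟫ • e₃, y⟫ + t * ⟪e₃, m₂⟫}
      · rw [indicator_of_mem ((hmem y).2 ⟨ht.le, hy⟩), indicator_of_mem hy]
        rfl
      · rw [indicator_of_notMem (fun h => hy ((hmem y).1 h).2), indicator_of_notMem hy]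
    · rw [indicator_of_notMem (show t ∉ Ioi (-τ) from ht)]
      have ht' : ¬ -τ ≤ t := fun h => ht (lt_of_le_of_ne h htne.symm)
      have : ∀ y : E, A.indicator (fun _ => (1 : ℝ)) (splitMap e₃ (t, y)) = 0 := fun y =>
        indicator_of_notMem (fun h => ht' ((hmem y).1 h).1) _
      simp [this]
  rw [integral_congr_ae hin, gauss_indicator]

/-- The derivative of the shifted half-space probability. -/
lemma hasDerivAt_halfG (e₃ m₁ m₂ : E) (he₃ : ‖e₃‖ = 1) (hp : m₁ - ⟪e₃, m₁⟫ • e₃ ≠ 0)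
    (hq : m₂ - ⟪e₃, m₂⟫ • e₃ ≠ 0) :
    HasDerivAt (halfG e₃ m₁ m₂)
      (cG * (stdGaussian E).real {y | 0 ≤ ⟪m₁ - ⟪e₃, m₁⟫ • e₃, y⟫ ∧ 0 ≤ ⟪m₂ - ⟪e₃, m₂⟫ • e₃, y⟫}) 0 := by
  set W := wedgeW (m₁ - ⟪e₃, m₁⟫ • e₃) (m₂ - ⟪e₃, m₂⟫ • e₃) ⟪e₃, m₁⟫ ⟪e₃, m₂⟫ with hW
  have hWc : Continuous W := continuous_wedgeW _ _ hp hq _ _
  set Ψ : ℝ → ℝ := fun t => W t * phi t with hΨ
  have hΨc : Continuous Ψ := hWc.mul continuous_phi
  have hΨi : Integrable Ψ := by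
    have := integrable_phi.bdd_mul (c := 1) hWc.aestronglyMeasurable (ae_of_all _ fun t => by
      rw [Real.norm_of_nonneg (wedgeW_nonneg _ _ _ _ _)]
      exact wedgeW_le_one _ _ _ _ _)
    exact this
  have hG : halfG e₃ m₁ m₂ = fun τ => (∫ t in Ioi (0 : ℝ), Ψ t) - ∫ t in (0 : ℝ)..(-τ), Ψ t := by
    funext τ
    rw [halfG_eq e₃ m₁ m₂ he₃ τ]
    have h1 := intervalIntegral.integral_Ioi_sub_Ioi' (f := Ψ) (a := 0) (b := -τ) (μ := volume)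
      hΨi.integrableOn hΨi.integrableOn
    linarith
  rw [hG]
  have hd1 : HasDerivAt (fun v : ℝ => ∫ t in (0 : ℝ)..v, Ψ t) (Ψ 0) 0 :=
    (hΨc.integral_hasStrictDerivAt 0 0).hasDerivAt
  have hd2 : HasDerivAt (fun τ : ℝ => -τ) (-1) 0 := by
    simpa using (hasDerivAt_id' (0 : ℝ)).fun_neg
  have hd1' : HasDerivAt (fun v : ℝ => ∫ t in (0 : ℝ)..v, Ψ t) (Ψ 0) (-(0 : ℝ)) := by
    simpa using hd1
  have hd3 := hd1'.comp (0 : ℝ) hd2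
  have hd4 := hd3.const_sub (∫ t in Ioi (0 : ℝ), Ψ t)
  refine hd4.congr_deriv ?_
  have e0 : Ψ 0 = (stdGaussian E).real {y | 0 ≤ ⟪m₁ - ⟪e₃, m₁⟫ • e₃, y⟫ ∧
      0 ≤ ⟪m₂ - ⟪e₃, m₂⟫ • e₃, y⟫} * cG := by
    simp only [hΨ, hW, wedgeW, zero_mul, add_zero, phi_zero_eq]
  rw [e0]
  ring

/-- The moment of a cone in a direction parallel to two of its faces. -/
theorem facet_formula (e₃ m₁ m₂ e : E) (he₃ : ‖e₃‖ = 1) (he : ‖e‖ = 1) (h1 : ⟪m₁, e⟫ = 0)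
    (h2 : ⟪m₂, e⟫ = 0) (hp : m₁ - ⟪e₃, m₁⟫ • e₃ ≠ 0) (hq : m₂ - ⟪e₃, m₂⟫ • e₃ ≠ 0) :
    ∫ x in {x | 0 ≤ ⟪e₃, x⟫ ∧ 0 ≤ ⟪m₁, x⟫ ∧ 0 ≤ ⟪m₂, x⟫}, ⟪e, x⟫ ∂(stdGaussian E) =
      ⟪e₃, e⟫ * cG *
        (stdGaussian E).real {y | 0 ≤ ⟪m₁ - ⟪e₃, m₁⟫ • e₃, y⟫ ∧ 0 ≤ ⟪m₂ - ⟪e₃, m₂⟫ • e₃, y⟫} := by
  set A : Set E := {x | 0 ≤ ⟪e₃, x⟫ ∧ 0 ≤ ⟪m₁, x⟫ ∧ 0 ≤ ⟪m₂, x⟫} with hA
  have hm0 : Measurable fun x : E => ⟪e₃, x⟫ := by fun_prop
  have hm1 : Measurable fun x : E => ⟪m₁, x⟫ := by fun_prop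
  have hm2 : Measurable fun x : E => ⟪m₂, x⟫ := by fun_prop
  have hAm : MeasurableSet A :=
    (measurableSet_le measurable_const hm0).inter
      ((measurableSet_le measurable_const hm1).inter (measurableSet_le measurable_const hm2))
  set H : E → ℝ := A.indicator (fun _ => (1 : ℝ)) with hH
  have hHm : Measurable H := measurable_const.indicator hAm
  have hHC : ∀ x, |H x| ≤ 1 := by
    intro x
    by_cases hx : x ∈ A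
    · simp [hH, indicator_of_mem hx]
    · simp [hH, indicator_of_notMem hx]
  have hd1 := hasDerivAt_cm_right e he H hHm hHC
  have heq : (fun ε : ℝ => ∫ x, H x * rexp (ε * ⟪e, x⟫ - ε ^ 2 / 2) ∂(stdGaussian E)) =
      fun ε : ℝ => halfG e₃ m₁ m₂ (ε * ⟪e₃, e⟫) := by
    funext ε
    rw [← cameron_martin e he H hHm hHC ε]
    have hset : MeasurableSet {x : E | -(ε * ⟪e₃, e⟫) ≤ ⟪e₃, x⟫ ∧ 0 ≤ ⟪m₁, x⟫ ∧ 0 ≤ ⟪m₂, x⟫} :=
      (measurableSet_le measurable_const hm0).inter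
        ((measurableSet_le measurable_const hm1).inter (measurableSet_le measurable_const hm2))
    unfold halfG
    rw [← integral_indicator_one hset]
    apply integral_congr_ae
    refine ae_of_all _ fun x => ?_
    have hmem : x + ε • e ∈ A ↔
        x ∈ {x : E | -(ε * ⟪e₃, e⟫) ≤ ⟪e₃, x⟫ ∧ 0 ≤ ⟪m₁, x⟫ ∧ 0 ≤ ⟪m₂, x⟫} := by
      show 0 ≤ ⟪e₃, x + ε • e⟫ ∧ 0 ≤ ⟪m₁, x + ε • e⟫ ∧ 0 ≤ ⟪m₂, x + ε • e⟫ ↔
        -(ε * ⟪e₃, e⟫) ≤ ⟪e₃, x⟫ ∧ 0 ≤ ⟪m₁, x⟫ ∧ 0 ≤ ⟪m₂, x⟫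
      simp only [inner_add_right, inner_smul_right, h1, h2, mul_zero, add_zero]
      constructor
      · rintro ⟨a, b, c⟩
        exact ⟨by linarith, b, c⟩
      · rintro ⟨a, b, c⟩
        exact ⟨by linarith, b, c⟩
    show H (x + ε • e) = _
    by_cases hx : x ∈ {x : E | -(ε * ⟪e₃, e⟫) ≤ ⟪e₃, x⟫ ∧ 0 ≤ ⟪m₁, x⟫ ∧ 0 ≤ ⟪m₂, x⟫}
    · rw [hH, indicator_of_mem (hmem.2 hx), indicator_of_mem hx]
      rfl
    · rw [hH, indicator_of_notMem (fun h => hx (hmem.1 h)), indicator_of_notMem hx]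
  rw [heq] at hd1
  have hd2 := hasDerivAt_halfG e₃ m₁ m₂ he₃ hp hq
  have hd3 : HasDerivAt (fun ε : ℝ => ε * ⟪e₃, e⟫) ⟪e₃, e⟫ 0 := by
    simpa using (hasDerivAt_id' (0 : ℝ)).mul_const ⟪e₃, e⟫
  have hd2' : HasDerivAt (halfG e₃ m₁ m₂)
      (cG * (stdGaussian E).real {y | 0 ≤ ⟪m₁ - ⟪e₃, m₁⟫ • e₃, y⟫ ∧ 0 ≤ ⟪m₂ - ⟪e₃, m₂⟫ • e₃, y⟫})
      ((0 : ℝ) * ⟪e₃, e⟫) := by
    rw [zero_mul]
    exact hd2
  have hd4 := hd2'.comp (0 : ℝ) hd3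
  have huniq := hd1.unique hd4
  have hint : ∫ x in A, ⟪e, x⟫ ∂(stdGaussian E) = ∫ x, ⟪e, x⟫ * H x ∂(stdGaussian E) := by
    rw [← integral_indicator hAm]
    apply integral_congr_ae
    refine ae_of_all _ fun x => ?_
    by_cases hx : x ∈ A
    · simp [hH, indicator_of_mem hx]
    · simp [hH, indicator_of_notMem hx]
  rw [hint, huniq]
  ring

/-- Version of the facet formula for a direction which need not be a unit vector. -/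
theorem facet_formula' (e₃ m₁ m₂ δ : E) (he₃ : ‖e₃‖ = 1) (hδ : δ ≠ 0) (h1 : ⟪m₁, δ⟫ = 0)
    (h2 : ⟪m₂, δ⟫ = 0) (hp : m₁ - ⟪e₃, m₁⟫ • e₃ ≠ 0) (hq : m₂ - ⟪e₃, m₂⟫ • e₃ ≠ 0) :
    ∫ x in {x | 0 ≤ ⟪e₃, x⟫ ∧ 0 ≤ ⟪m₁, x⟫ ∧ 0 ≤ ⟪m₂, x⟫}, ⟪δ, x⟫ ∂(stdGaussian E) =
      ⟪e₃, δ⟫ * cG *
        (stdGaussian E).real {y | 0 ≤ ⟪m₁ - ⟪e₃, m₁⟫ • e₃, y⟫ ∧ 0 ≤ ⟪m₂ - ⟪e₃, m₂⟫ • e₃, y⟫} := by
  have hn : 0 < ‖δ‖ := norm_pos_iff.2 hδ
  set e : E := ‖δ‖⁻¹ • δ with he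
  have hu : ‖e‖ = 1 := by
    rw [he, norm_smul, norm_inv, norm_norm]
    field_simp
  have hδe : δ = ‖δ‖ • e := by
    rw [he, smul_smul, mul_inv_cancel₀ hn.ne', one_smul]
  have h1' : ⟪m₁, e⟫ = 0 := by rw [he, inner_smul_right, h1, mul_zero]
  have h2' : ⟪m₂, e⟫ = 0 := by rw [he, inner_smul_right, h2, mul_zero]
  have key := facet_formula e₃ m₁ m₂ e he₃ hu h1' h2' hp hq
  have e1 : ∀ x : E, ⟪δ, x⟫ = ‖δ‖ * ⟪e, x⟫ := by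
    intro x
    conv_lhs => rw [hδe, inner_smul_left]
    simp
  have e2 : ⟪e₃, δ⟫ = ‖δ‖ * ⟪e₃, e⟫ := by
    conv_lhs => rw [hδe, inner_smul_right]
  simp_rw [e1]
  rw [integral_const_mul, key, e2]
  ring

section Edge

variable {S : Finset ℕ} {u : ℕ → E} {a b c d : ℕ}

/-- The Voronoi cell agrees almost everywhere with the closed cone. -/
lemma vor_ae_cone (hS : S = {a, b, c, d}) (e₃ : E) {ℓ : ℝ} (hℓ : 0 < ℓ)
    (he₃ : u a - u b = ℓ • e₃) (hab : u a - u b ≠ 0) (hac : u a - u c ≠ 0) (had : u a - u d ≠ 0) :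
    vor S u a =ᵐ[stdGaussian E] {x | 0 ≤ ⟪e₃, x⟫ ∧ 0 ≤ ⟪u a - u c, x⟫ ∧ 0 ≤ ⟪u a - u d, x⟫} := by
  filter_upwards [ae_inner_ne_zero (u a - u b) hab, ae_inner_ne_zero (u a - u c) hac,
    ae_inner_ne_zero (u a - u d) had] with x hx1 hx2 hx3
  apply propext
  have e0 : ⟪u a - u b, x⟫ = ℓ * ⟪e₃, x⟫ := by
    rw [he₃, inner_smul_left]
    simp
  have hb : 0 ≤ ⟪e₃, x⟫ ↔ ⟪u b, x⟫ ≤ ⟪u a, x⟫ := by
    rw [show ⟪u b, x⟫ ≤ ⟪u a, x⟫ ↔ 0 ≤ ⟪u a, x⟫ - ⟪u b, x⟫ from sub_nonneg.symm, ← inner_sub_left, e0,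
      mul_nonneg_iff_of_pos_left hℓ]
  have hxb : ⟪u b, x⟫ ≠ ⟪u a, x⟫ := by
    intro e
    apply hx1
    rw [inner_sub_left, e, sub_self]
  have hxc : ⟪u c, x⟫ ≠ ⟪u a, x⟫ := by
    intro e
    apply hx2
    rw [inner_sub_left, e, sub_self]
  have hxd : ⟪u d, x⟫ ≠ ⟪u a, x⟫ := by
    intro e
    apply hx3
    rw [inner_sub_left, e, sub_self]
  show x ∈ vor S u a ↔ 0 ≤ ⟪e₃, x⟫ ∧ 0 ≤ ⟪u a - u c, x⟫ ∧ 0 ≤ ⟪u a - u d, x⟫
  rw [hb, inner_sub_left, inner_sub_left, sub_nonneg, sub_nonneg]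
  constructor
  · rintro ⟨h1, _⟩
    refine ⟨h1 b (by simp [hS]), h1 c (by simp [hS]), h1 d (by simp [hS])⟩
  · rintro ⟨h1, h2, h3⟩
    constructor
    · intro n hn
      simp only [hS, Finset.mem_insert, Finset.mem_singleton] at hn
      rcases hn with rfl | rfl | rfl | rfl
      · exact le_rfl
      · exact h1
      · exact h2
      · exact h3
    · intro n hn _
      simp only [hS, Finset.mem_insert, Finset.mem_singleton] at hn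
      rcases hn with rfl | rfl | rfl | rfl
      · omega
      · exact lt_of_le_of_ne h1 hxb
      · exact lt_of_le_of_ne h2 hxc
      · exact lt_of_le_of_ne h3 hxd

omit [FiniteDimensional ℝ E] [MeasurableSpace E] [BorelSpace E] in
lemma span_le_frame {ua ub uc ud e₃ x₁ x₂ : E} {ℓ s₁ s₂ : ℝ} (h_w : ua - ub = ℓ • e₃)
    (h_1 : ua - uc = x₁ + s₁ • e₃) (h_2 : ua - ud = x₂ + s₂ • e₃) (hsum : ua + ub + uc + ud = 0) :
    Submodule.span ℝ {ua, ub, uc, ud} ≤ Submodule.span ℝ {e₃, x₁, x₂} := by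
  have he : e₃ ∈ Submodule.span ℝ {e₃, x₁, x₂} := Submodule.subset_span (by simp)
  have hx1 : x₁ ∈ Submodule.span ℝ {e₃, x₁, x₂} := Submodule.subset_span (by simp)
  have hx2 : x₂ ∈ Submodule.span ℝ {e₃, x₁, x₂} := Submodule.subset_span (by simp)
  have hw : ua - ub ∈ Submodule.span ℝ {e₃, x₁, x₂} := by
    rw [h_w]
    exact Submodule.smul_mem _ _ he
  have hm1 : ua - uc ∈ Submodule.span ℝ {e₃, x₁, x₂} := by
    rw [h_1]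
    exact Submodule.add_mem _ hx1 (Submodule.smul_mem _ _ he)
  have hm2 : ua - ud ∈ Submodule.span ℝ {e₃, x₁, x₂} := by
    rw [h_2]
    exact Submodule.add_mem _ hx2 (Submodule.smul_mem _ _ he)
  have hua : ua = (1 / 4 : ℝ) • ((ua - ub) + (ua - uc) + (ua - ud)) := by
    have e : (ua - ub) + (ua - uc) + (ua - ud) = (4 : ℝ) • ua - (ua + ub + uc + ud) := by
      module
    rw [e, hsum]
    simp only [sub_zero, smul_smul]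
    norm_num
  have huamem : ua ∈ Submodule.span ℝ {e₃, x₁, x₂} := by
    rw [hua]
    exact Submodule.smul_mem _ _ (Submodule.add_mem _ (Submodule.add_mem _ hw hm1) hm2)
  rw [Submodule.span_le]
  intro v hv
  simp only [mem_insert_iff, mem_singleton_iff] at hv
  rcases hv with hv | hv | hv | hv
  · rw [hv]
    exact huamem
  · have : v = ua - (ua - ub) := by rw [hv]; abel
    rw [this]
    exact Submodule.sub_mem _ huamem hw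
  · have : v = ua - (ua - uc) := by rw [hv]; abel
    rw [this]
    exact Submodule.sub_mem _ huamem hm1
  · have : v = ua - (ua - ud) := by rw [hv]; abel
    rw [this]
    exact Submodule.sub_mem _ huamem hm2

omit [FiniteDimensional ℝ E] [MeasurableSpace E] [BorelSpace E] in
lemma mem_plane {e₃ x₁ x₂ v : E} (hee : ⟪e₃, e₃⟫ = 1) (h1 : ⟪e₃, x₁⟫ = 0) (h2 : ⟪e₃, x₂⟫ = 0)
    (hv : ⟪v, e₃⟫ = 0) (hmem : v ∈ Submodule.span ℝ {e₃, x₁, x₂}) :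
    ∃ α β : ℝ, α • x₁ + β • x₂ = v := by
  obtain ⟨A, α, β, hd⟩ := Submodule.mem_span_triple.1 hmem
  have hA : A = 0 := by
    have := congrArg (fun v => ⟪v, e₃⟫) hd
    simp only [inner_add_left, inner_smul_left, conj_trivial, hee, hv,
      real_inner_comm e₃ x₁, real_inner_comm e₃ x₂, h1, h2] at this
    linarith
  subst hA
  exact ⟨α, β, by simpa using hd⟩

omit [FiniteDimensional ℝ E] [MeasurableSpace E] [BorelSpace E] in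
/-- Duality in the plane of `x₁, x₂`. -/
lemma plane_duality {x₁ x₂ dc dd : E} {α β γ ε : ℝ} (hdc : α • x₁ + β • x₂ = dc)
    (hdd : γ • x₁ + ε • x₂ = dd) (h1 : ⟪dc, x₁⟫ = -4) (h2 : ⟪dc, x₂⟫ = 0) (h3 : ⟪dd, x₁⟫ = 0)
    (h4 : ⟪dd, x₂⟫ = -4) :
    ⟪x₁, x₂⟫ ^ 2 < ‖x₁‖ ^ 2 * ‖x₂‖ ^ 2 ∧
      ⟪dc, dd⟫ / (‖dc‖ * ‖dd‖) = -(⟪x₁, x₂⟫ / (‖x₁‖ * ‖x₂‖)) := by
  have hXi : ⟪x₁, x₁⟫ = ‖x₁‖ ^ 2 := real_inner_self_eq_norm_sq _
  have hZi : ⟪x₂, x₂⟫ = ‖x₂‖ ^ 2 := real_inner_self_eq_norm_sq _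
  have hYc : ⟪x₂, x₁⟫ = ⟪x₁, x₂⟫ := real_inner_comm _ _
  have hx₁0 : x₁ ≠ 0 := by
    intro e
    rw [e, inner_zero_right] at h1
    norm_num at h1
  have hx₂0 : x₂ ≠ 0 := by
    intro e
    rw [e, inner_zero_right] at h4
    norm_num at h4
  have hdc0 : dc ≠ 0 := by
    intro e
    rw [e, inner_zero_left] at h1
    norm_num at h1
  have hdd0 : dd ≠ 0 := by
    intro e
    rw [e, inner_zero_left] at h4
    norm_num at h4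
  have hx₁p : 0 < ‖x₁‖ := norm_pos_iff.2 hx₁0
  have hx₂p : 0 < ‖x₂‖ := norm_pos_iff.2 hx₂0
  have hncp : 0 < ‖dc‖ := norm_pos_iff.2 hdc0
  have hndp : 0 < ‖dd‖ := norm_pos_iff.2 hdd0
  have eq1 : α * ‖x₁‖ ^ 2 + β * ⟪x₁, x₂⟫ = -4 := by
    have := h1
    rw [← hdc, inner_add_left, inner_smul_left, inner_smul_left, hXi, hYc] at this
    simpa using this
  have eq2 : α * ⟪x₁, x₂⟫ + β * ‖x₂‖ ^ 2 = 0 := by
    have := h2
    rw [← hdc, inner_add_left, inner_smul_left, inner_smul_left, hZi] at this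
    simpa using this
  have eq3 : γ * ‖x₁‖ ^ 2 + ε * ⟪x₁, x₂⟫ = 0 := by
    have := h3
    rw [← hdd, inner_add_left, inner_smul_left, inner_smul_left, hXi, hYc] at this
    simpa using this
  have eq4 : γ * ⟪x₁, x₂⟫ + ε * ‖x₂‖ ^ 2 = -4 := by
    have := h4
    rw [← hdd, inner_add_left, inner_smul_left, inner_smul_left, hZi] at this
    simpa using this
  have hCS : ⟪x₁, x₂⟫ ^ 2 ≤ ‖x₁‖ ^ 2 * ‖x₂‖ ^ 2 := by
    have h1 := abs_real_inner_le_norm x₁ x₂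
    have h2 := pow_le_pow_left₀ (abs_nonneg _) h1 2
    rwa [sq_abs, mul_pow] at h2
  have hΔ : ⟪x₁, x₂⟫ ^ 2 < ‖x₁‖ ^ 2 * ‖x₂‖ ^ 2 := by
    refine lt_of_le_of_ne hCS fun he => ?_
    -- from equality in Cauchy-Schwarz and `eq1`, `eq2`
    have h5 : (-4) * ‖x₂‖ ^ 2 = 0 := by
      have e1 : (α * ‖x₁‖ ^ 2 + β * ⟪x₁, x₂⟫) * ‖x₂‖ ^ 2 =
          α * (‖x₁‖ ^ 2 * ‖x₂‖ ^ 2) + β * ⟪x₁, x₂⟫ * ‖x₂‖ ^ 2 := by ring
      rw [eq1, ← he] at e1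
      have e2 : ⟪x₁, x₂⟫ * (α * ⟪x₁, x₂⟫ + β * ‖x₂‖ ^ 2) = 0 := by rw [eq2, mul_zero]
      linear_combination e1 + e2
    have h6 : 0 < ‖x₂‖ ^ 2 := by positivity
    linarith
  refine ⟨hΔ, ?_⟩
  set Δ : ℝ := ‖x₁‖ ^ 2 * ‖x₂‖ ^ 2 - ⟪x₁, x₂⟫ ^ 2 with hΔdef
  have hΔpos : 0 < Δ := by rw [hΔdef]; linarith
  have hα : α * Δ = -4 * ‖x₂‖ ^ 2 := by
    rw [hΔdef]
    linear_combination ‖x₂‖ ^ 2 * eq1 - ⟪x₁, x₂⟫ * eq2
  have hγ : γ * Δ = 4 * ⟪x₁, x₂⟫ := by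
    rw [hΔdef]
    linear_combination ‖x₂‖ ^ 2 * eq3 - ⟪x₁, x₂⟫ * eq4
  have hε : ε * Δ = -4 * ‖x₁‖ ^ 2 := by
    rw [hΔdef]
    linear_combination ‖x₁‖ ^ 2 * eq4 - ⟪x₁, x₂⟫ * eq3
  have hGcc : ⟪dc, dc⟫ = -4 * α := by
    conv_lhs => rw [← hdc]
    rw [inner_add_left, inner_smul_left, inner_smul_left, hdc, real_inner_comm dc x₁,
      real_inner_comm dc x₂, h1, h2]
    simp only [conj_trivial]
    ring
  have hGcd : ⟪dc, dd⟫ = -4 * γ := by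
    rw [← hdd, inner_add_right, inner_smul_right, inner_smul_right, h1, h2]
    ring
  have hGdd : ⟪dd, dd⟫ = -4 * ε := by
    conv_lhs => rw [← hdd]
    rw [inner_add_left, inner_smul_left, inner_smul_left, hdd, real_inner_comm dd x₁,
      real_inner_comm dd x₂, h3, h4]
    simp only [conj_trivial]
    ring
  have hnc : ‖dc‖ ^ 2 = -4 * α := by rw [← real_inner_self_eq_norm_sq, hGcc]
  have hnd : ‖dd‖ ^ 2 = -4 * ε := by rw [← real_inner_self_eq_norm_sq, hGdd]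
  have hprod : ‖dc‖ * ‖dd‖ = 16 * (‖x₁‖ * ‖x₂‖) / Δ := by
    apply (pow_left_inj₀ (by positivity) (by positivity) two_ne_zero).1
    have h1 : (‖dc‖ * ‖dd‖) ^ 2 * Δ ^ 2 = (-4 * (α * Δ)) * (-4 * (ε * Δ)) := by
      rw [mul_pow, hnc, hnd]
      ring
    rw [hα, hε] at h1
    have h2 : (16 * (‖x₁‖ * ‖x₂‖) / Δ) ^ 2 * Δ ^ 2 = 256 * (‖x₁‖ ^ 2 * ‖x₂‖ ^ 2) := by
      field_simp
      ring
    have h3 : (‖dc‖ * ‖dd‖) ^ 2 * Δ ^ 2 = (16 * (‖x₁‖ * ‖x₂‖) / Δ) ^ 2 * Δ ^ 2 := by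
      rw [h1, h2]
      ring
    exact mul_right_cancel₀ (by positivity) h3
  clear_value Δ
  rw [hprod, hGcd]
  have hYγ : γ = 4 * ⟪x₁, x₂⟫ / Δ := by
    rw [eq_div_iff hΔpos.ne']
    exact hγ
  rw [hYγ]
  field_simp
  ring

/-- The key relation: the length of an edge is proportional to the angle of the opposite dual
vectors. -/
theorem edge_eq (h : Crit S u) (hS : S = {a, b, c, d}) {db dc dd : E}
    (hb1 : ⟪db, u a⟫ = -1) (hb2 : ⟪db, u b⟫ = 3) (hb3 : ⟪db, u c⟫ = -1) (hb4 : ⟪db, u d⟫ = -1)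
    (hc1 : ⟪dc, u a⟫ = -1) (hc2 : ⟪dc, u b⟫ = -1) (hc3 : ⟪dc, u c⟫ = 3) (hc4 : ⟪dc, u d⟫ = -1)
    (hd1 : ⟪dd, u a⟫ = -1) (hd2 : ⟪dd, u b⟫ = -1) (hd3 : ⟪dd, u c⟫ = -1) (hd4 : ⟪dd, u d⟫ = 3)
    (hVc : dc ∈ Submodule.span ℝ {u a, u b, u c, u d})
    (hVd : dd ∈ Submodule.span ℝ {u a, u b, u c, u d})
    (hsum : u a + u b + u c + u d = 0) :
    ‖u a - u b‖ = (2 * cG / π) * arccos (⟪dc, dd⟫ / (‖dc‖ * ‖dd‖)) := by
  have haS : a ∈ S := by simp [hS]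
  have hpi := Real.pi_pos
  have hdbw : ⟪db, u a - u b⟫ = -4 := by rw [inner_sub_right, hb1, hb2]; norm_num
  have hdcw : ⟪dc, u a - u b⟫ = 0 := by rw [inner_sub_right, hc1, hc2]; norm_num
  have hddw : ⟪dd, u a - u b⟫ = 0 := by rw [inner_sub_right, hd1, hd2]; norm_num
  have hw0 : u a - u b ≠ 0 := by
    intro e
    rw [e, inner_zero_right] at hdbw
    norm_num at hdbw
  have hℓ : 0 < ‖u a - u b‖ := norm_pos_iff.2 hw0
  obtain ⟨ℓ, hℓdef⟩ : ∃ ℓ : ℝ, ℓ = ‖u a - u b‖ := ⟨_, rfl⟩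
  rw [← hℓdef] at hℓ ⊢
  obtain ⟨e₃, he₃⟩ : ∃ e₃ : E, e₃ = ℓ⁻¹ • (u a - u b) := ⟨_, rfl⟩
  have he₃n : ‖e₃‖ = 1 := by
    rw [he₃, norm_smul, norm_inv, Real.norm_of_nonneg hℓ.le, ← hℓdef]
    field_simp
  have hwe : u a - u b = ℓ • e₃ := by
    rw [he₃, smul_smul, mul_inv_cancel₀ hℓ.ne', one_smul]
  have hdce : ⟪dc, e₃⟫ = 0 := by rw [he₃, inner_smul_right, hdcw, mul_zero]
  have hdde : ⟪dd, e₃⟫ = 0 := by rw [he₃, inner_smul_right, hddw, mul_zero]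
  obtain ⟨x₁, hx₁⟩ : ∃ x₁ : E, x₁ = (u a - u c) - ⟪e₃, u a - u c⟫ • e₃ := ⟨_, rfl⟩
  obtain ⟨x₂, hx₂⟩ : ∃ x₂ : E, x₂ = (u a - u d) - ⟪e₃, u a - u d⟫ • e₃ := ⟨_, rfl⟩
  have hc_m1 : ⟪dc, x₁⟫ = -4 := by
    rw [hx₁, inner_sub_right, inner_smul_right, hdce, inner_sub_right, hc1, hc3]
    norm_num
  have hc_m2 : ⟪dc, x₂⟫ = 0 := by
    rw [hx₂, inner_sub_right, inner_smul_right, hdce, inner_sub_right, hc1, hc4]
    norm_num
  have hd_m1 : ⟪dd, x₁⟫ = 0 := by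
    rw [hx₁, inner_sub_right, inner_smul_right, hdde, inner_sub_right, hd1, hd3]
    norm_num
  have hd_m2 : ⟪dd, x₂⟫ = -4 := by
    rw [hx₂, inner_sub_right, inner_smul_right, hdde, inner_sub_right, hd1, hd4]
    norm_num
  have hx₁0 : x₁ ≠ 0 := by
    intro e
    rw [e, inner_zero_right] at hc_m1
    norm_num at hc_m1
  have hx₂0 : x₂ ≠ 0 := by
    intro e
    rw [e, inner_zero_right] at hd_m2
    norm_num at hd_m2
  have hee : ⟪e₃, e₃⟫ = 1 := by rw [real_inner_self_eq_norm_sq, he₃n]; norm_num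
  have hex₁ : ⟪e₃, x₁⟫ = 0 := by
    rw [hx₁, inner_sub_right, inner_smul_right, hee]
    ring
  have hex₂ : ⟪e₃, x₂⟫ = 0 := by
    rw [hx₂, inner_sub_right, inner_smul_right, hee]
    ring
  have hspan := span_le_frame (x₁ := x₁) (x₂ := x₂) (s₁ := ⟪e₃, u a - u c⟫)
    (s₂ := ⟪e₃, u a - u d⟫) hwe (by rw [hx₁]; abel) (by rw [hx₂]; abel) hsum
  obtain ⟨α, β, hdc⟩ := mem_plane hee hex₁ hex₂ hdce (hspan hVc)
  obtain ⟨γ, ε, hdd⟩ := mem_plane hee hex₁ hex₂ hdde (hspan hVd)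
  obtain ⟨hΔ, hratio⟩ := plane_duality hdc hdd hc_m1 hc_m2 hd_m1 hd_m2
  -- the facet formula
  have hdb0 : db ≠ 0 := by
    intro e
    rw [e, inner_zero_left] at hdbw
    norm_num at hdbw
  have hδ0 : -db ≠ 0 := neg_ne_zero.2 hdb0
  have h1δ : ⟪u a - u c, -db⟫ = 0 := by
    rw [inner_neg_right, real_inner_comm, inner_sub_right, hb1, hb3]
    norm_num
  have h2δ : ⟪u a - u d, -db⟫ = 0 := by
    rw [inner_neg_right, real_inner_comm, inner_sub_right, hb1, hb4]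
    norm_num
  have hx₁0' : (u a - u c) - ⟪e₃, u a - u c⟫ • e₃ ≠ 0 := by rw [← hx₁]; exact hx₁0
  have hx₂0' : (u a - u d) - ⟪e₃, u a - u d⟫ • e₃ ≠ 0 := by rw [← hx₂]; exact hx₂0
  have hfacet := facet_formula' e₃ (u a - u c) (u a - u d) (-db) he₃n hδ0 h1δ h2δ hx₁0' hx₂0'
  rw [← hx₁, ← hx₂] at hfacet
  have hm1ne : u a - u c ≠ 0 := by
    intro e
    apply hx₁0
    rw [hx₁, e]
    simp
  have hm2ne : u a - u d ≠ 0 := by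
    intro e
    apply hx₂0
    rw [hx₂, e]
    simp
  have hae := vor_ae_cone hS e₃ hℓ hwe hw0 hm1ne hm2ne
  have hleft : ∫ x in vor S u a, ⟪-db, x⟫ ∂(stdGaussian E) = 1 := by
    rw [setIntegral_inner, h.fixed a haS, inner_neg_left, hb1]
    norm_num
  rw [setIntegral_congr_set hae, hfacet, orthant_prob x₁ x₂ hx₁0 hx₂0 hΔ] at hleft
  have hev : ⟪e₃, -db⟫ = 4 / ℓ := by
    rw [he₃, inner_smul_left, inner_neg_right, real_inner_comm, hdbw]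
    simp only [conj_trivial]
    field_simp
  rw [hev] at hleft
  -- conclusion
  rw [hratio, Real.arccos, Real.arcsin_neg]
  have e : (4 / ℓ) * cG * (1 / 4 + arcsin (⟪x₁, x₂⟫ / (‖x₁‖ * ‖x₂‖)) / (2 * π)) =
      (2 * cG / π / ℓ) * (π / 2 - -arcsin (⟪x₁, x₂⟫ / (‖x₁‖ * ‖x₂‖))) := by
    field_simp
    ring
  rw [e] at hleft
  field_simp at hleft ⊢
  linarith

end Edge

end Vale.Agent.Lib.P226
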