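import Vale.Agent.Lib.P226.Y.Sector

/-!
The first moment of a cone along a dual vector: an exact formula.
-/

open MeasureTheory ProbabilityTheory Real Set Filter
open scoped RealInnerProductSpace ENNReal

namespace Vale.Agent.Lib.P226.Y

variable {E : Type*} [NormedAddCommGroup E] [InnerProductSpace ℝ E] [FiniteDimensional ℝ E]
  [MeasurableSpace E] [BorelSpace E]

/-- The first moment of a half-line. -/
lemma integral_indicator_Ioi_id (h : ℝ) :
    ∫ t, (Ioi h).indicator (fun t => t) t ∂(gaussianReal 0 1) = phi h := by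
  rw [integral_gaussianReal_eq_integral_smul (by norm_num)]
  have h1 : ∀ t : ℝ, gaussianPDFReal 0 1 t • (Ioi h).indicator (fun t => t) t =
      (Ioi h).indicator (fun t => cG * (t * rexp (-(t ^ 2 / 2)))) t := by
    intro t
    by_cases ht : t ∈ Ioi h
    · rw [indicator_of_mem ht, indicator_of_mem ht, gaussianPDFReal_01, smul_eq_mul]
      ring
    · rw [indicator_of_notMem ht, indicator_of_notMem ht, smul_zero]
  simp_rw [h1]
  rw [integral_indicator measurableSet_Ioi, integral_const_mul, integral_Ioi_mul_gauss]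
  rfl

/-- The constant of the tilt. -/
noncomputable def kap (w : E) : ℝ := √(1 + ‖w‖ ^ 2)

lemma kap_pos (w : E) : 0 < kap w := Real.sqrt_pos.mpr (by positivity)

lemma kap_sq (w : E) : kap w ^ 2 = 1 + ‖w‖ ^ 2 := Real.sq_sqrt (by positivity)

/-- The tilted vector. -/
noncomputable def tiltVec (w q : E) : E := q - ((1 / (kap w * (kap w + 1))) * ⟪w, q⟫) • w

/-- Exact Gaussian integral of the density of a linear form against a set defined by two forms. -/
lemma tilt_integral (w qc qd : E) :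
    ∫ y, {y : E | 0 < ⟪qc, y⟫ ∧ 0 < ⟪qd, y⟫}.indicator (fun y => phi ⟪w, y⟫) y ∂(stdGaussian E) =
      (cG / kap w) * (stdGaussian E).real {x | 0 < ⟪tiltVec w qc, x⟫ ∧ 0 < ⟪tiltVec w qd, x⟫} := by
  have hmeasA : ∀ p q : E, MeasurableSet {y : E | 0 < ⟪p, y⟫ ∧ 0 < ⟪q, y⟫} := by
    intro p q
    have h1 : MeasurableSet {y : E | 0 < ⟪p, y⟫} := measurableSet_lt measurable_const (by fun_prop)
    have h2 : MeasurableSet {y : E | 0 < ⟪q, y⟫} := measurableSet_lt measurable_const (by fun_prop)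
    exact h1.inter h2
  by_cases hw : w = 0
  · subst hw
    have hk : kap (0 : E) = 1 := by simp [kap]
    have ht : ∀ q : E, tiltVec (0 : E) q = q := by intro q; simp [tiltVec]
    rw [hk, ht, ht]
    have h1 : ∀ y : E, phi ⟪(0 : E), y⟫ = cG := by intro y; simp [phi]
    simp_rw [h1]
    rw [integral_indicator (hmeasA qc qd), setIntegral_const, smul_eq_mul]
    ring
  have hs : 0 < ‖w‖ := norm_pos_iff.mpr hw
  set s := ‖w‖ with hs_def
  obtain ⟨e, he_def⟩ : ∃ e : E, e = (1 / s) • w := ⟨_, rfl⟩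
  have he : ‖e‖ = 1 := by
    rw [he_def, norm_smul, Real.norm_of_nonneg (by positivity), ← hs_def]
    field_simp
  have hwe : w = s • e := by
    rw [he_def, smul_smul]
    have : s * (1 / s) = 1 := by field_simp
    rw [this, one_smul]
  have hκ := kap_pos w
  have hκ2 := kap_sq w
  rw [← hs_def] at hκ2
  set κ := kap w with hκ_def
  -- inner product with the split point
  have hsplit : ∀ (h : ℝ) (y : E), ⟪w, splitMap e (h, y)⟫ = s * h := by
    intro h y
    rw [hwe, real_inner_smul_left, inner_e_splitMap e he]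
  -- the key identity
  have hkey : ∀ (q : E) (h : ℝ) (y : E),
      ⟪q, splitMap e (h / κ, y)⟫ = ⟪tiltVec w q, splitMap e (h, y)⟫ := by
    intro q h y
    have h1 : ⟪w, q⟫ = s * ⟪q, e⟫ := by
      rw [hwe, real_inner_smul_left, real_inner_comm]
    have h3 : (1 / (κ * (κ + 1))) * (s * ⟪q, e⟫) * (s * h) = ⟪q, e⟫ * h * (1 - 1 / κ) := by
      have h4 : s ^ 2 = (κ - 1) * (κ + 1) := by nlinarith
      have h5 : κ + 1 ≠ 0 := by positivity
      field_simp
      rw [h4]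
      ring
    rw [tiltVec, inner_sub_left, real_inner_smul_left, hsplit, inner_splitMap, inner_splitMap, h1, h3]
    field_simp
    ring
  -- inner integral
  have hinner : ∀ y : E,
      ∫ h, {y : E | 0 < ⟪qc, y⟫ ∧ 0 < ⟪qd, y⟫}.indicator (fun y => phi ⟪w, y⟫) (splitMap e (h, y))
        ∂(gaussianReal 0 1) =
      (cG / κ) * ∫ h, {x : E | 0 < ⟪tiltVec w qc, x⟫ ∧ 0 < ⟪tiltVec w qd, x⟫}.indicator
        (fun _ => (1 : ℝ)) (splitMap e (h, y)) ∂(gaussianReal 0 1) := by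
    intro y
    -- the function of the rescaled variable
    set b : ℝ → ℝ := fun h' => phi h' * {x : E | 0 < ⟪tiltVec w qc, x⟫ ∧ 0 < ⟪tiltVec w qd, x⟫}.indicator
        (fun _ => (1 : ℝ)) (splitMap e (h', y)) with hb
    have h1 : ∀ h : ℝ, gaussianPDFReal 0 1 h •
        {y : E | 0 < ⟪qc, y⟫ ∧ 0 < ⟪qd, y⟫}.indicator (fun y => phi ⟪w, y⟫) (splitMap e (h, y)) =
        cG * b (κ * h) := by
      intro h
      have hkc : h = (κ * h) / κ := by field_simp
      have hset : (splitMap e (h, y) ∈ {y : E | 0 < ⟪qc, y⟫ ∧ 0 < ⟪qd, y⟫}) ↔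
          (splitMap e (κ * h, y) ∈ {x : E | 0 < ⟪tiltVec w qc, x⟫ ∧ 0 < ⟪tiltVec w qd, x⟫}) := by
        simp only [mem_ofPred_eq]
        rw [← hkey qc, ← hkey qd, ← hkc]
      have hexp : cG * rexp (-(h ^ 2 / 2)) * (cG * rexp (-((s * h) ^ 2 / 2))) =
          cG * (cG * rexp (-((κ * h) ^ 2 / 2))) := by
        have h5 : rexp (-(h ^ 2 / 2)) * rexp (-((s * h) ^ 2 / 2)) = rexp (-((κ * h) ^ 2 / 2)) := by
          rw [← Real.exp_add]
          congr 1
          have : (κ * h) ^ 2 = (1 + s ^ 2) * h ^ 2 := by rw [mul_pow, hκ2]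
          rw [this]
          ring
        calc cG * rexp (-(h ^ 2 / 2)) * (cG * rexp (-((s * h) ^ 2 / 2)))
            = cG * (cG * (rexp (-(h ^ 2 / 2)) * rexp (-((s * h) ^ 2 / 2)))) := by ring
          _ = _ := by rw [h5]
      simp only [hb]
      by_cases hm : splitMap e (h, y) ∈ {y : E | 0 < ⟪qc, y⟫ ∧ 0 < ⟪qd, y⟫}
      · rw [indicator_of_mem hm, indicator_of_mem (hset.mp hm), gaussianPDFReal_01, smul_eq_mul,
          hsplit, mul_one]
        simp only [phi]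
        exact hexp
      · rw [indicator_of_notMem hm, indicator_of_notMem (fun hc => hm (hset.mpr hc)), smul_zero]
        ring
    rw [integral_gaussianReal_eq_integral_smul (by norm_num)]
    simp_rw [h1]
    rw [integral_const_mul, Measure.integral_comp_mul_left b κ, abs_of_pos (inv_pos.mpr hκ),
      integral_gaussianReal_eq_integral_smul (by norm_num)]
    have h2 : ∀ h : ℝ, gaussianPDFReal 0 1 h • {x : E | 0 < ⟪tiltVec w qc, x⟫ ∧
        0 < ⟪tiltVec w qd, x⟫}.indicator (fun _ => (1 : ℝ)) (splitMap e (h, y)) = b h := by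
      intro h
      simp only [hb, smul_eq_mul, phi_eq_pdf]
    simp_rw [h2]
    simp only [smul_eq_mul]
    field_simp
  -- integrability
  have hint1 : Integrable ({y : E | 0 < ⟪qc, y⟫ ∧ 0 < ⟪qd, y⟫}.indicator (fun y => phi ⟪w, y⟫))
      (stdGaussian E) := by
    apply Integrable.indicator _ (hmeasA qc qd)
    apply Integrable.mono' (integrable_const cG)
    · exact (continuous_phi.comp (by fun_prop)).aestronglyMeasurable
    · refine Eventually.of_forall fun y => ?_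
      rw [Real.norm_of_nonneg (phi_nonneg _)]
      exact phi_le _
  have hint2 : Integrable ({x : E | 0 < ⟪tiltVec w qc, x⟫ ∧ 0 < ⟪tiltVec w qd, x⟫}.indicator
      (fun _ => (1 : ℝ))) (stdGaussian E) :=
    (integrable_const (1 : ℝ)).indicator (hmeasA _ _)
  rw [integral_split e he _ hint1]
  simp_rw [hinner]
  rw [integral_const_mul, ← integral_split e he _ hint2, integral_indicator (hmeasA _ _),
    setIntegral_const, smul_eq_mul, mul_one]

/-- Norm computation for the vector `w`. -/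
lemma facet_w_norm (v qb : E) (hv : v ≠ 0) (h1 : ⟪v, qb⟫ = 1) :
    kap (‖v‖ • qb - (1 / ‖v‖) • v) = ‖v‖ * ‖qb‖ := by
  have hs : 0 < ‖v‖ := norm_pos_iff.mpr hv
  have hq : qb ≠ 0 := by
    rintro rfl
    simp at h1
  have hq0 : 0 < ‖qb‖ := norm_pos_iff.mpr hq
  unfold kap
  have h2 : 1 + ‖‖v‖ • qb - (1 / ‖v‖) • v‖ ^ 2 = (‖v‖ * ‖qb‖) ^ 2 := by
    rw [@norm_sub_sq_real, norm_smul, norm_smul, real_inner_smul_left, real_inner_smul_right,
      real_inner_comm, h1, Real.norm_of_nonneg hs.le, Real.norm_of_nonneg (by positivity)]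
    field_simp
    ring
  rw [h2, Real.sqrt_sq (by positivity)]

/-- **The facet formula.** Here `v` is dual to `qb` and orthogonal to `qc, qd`. -/
theorem facet_integral (v qb qc qd : E) (hv : v ≠ 0) (h1 : ⟪v, qb⟫ = 1) (h2 : ⟪v, qc⟫ = 0)
    (h3 : ⟪v, qd⟫ = 0) :
    ∫ x in {x : E | 0 < ⟪qb, x⟫ ∧ 0 < ⟪qc, x⟫ ∧ 0 < ⟪qd, x⟫}, ⟪v, x⟫ ∂(stdGaussian E) =
      (cG / ‖qb‖) * (stdGaussian E).real
        {x | 0 < ⟪tiltVec (‖v‖ • qb - (1 / ‖v‖) • v) qc, x⟫ ∧
          0 < ⟪tiltVec (‖v‖ • qb - (1 / ‖v‖) • v) qd, x⟫} := by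
  have hs : 0 < ‖v‖ := norm_pos_iff.mpr hv
  have hq : qb ≠ 0 := by
    rintro rfl
    simp at h1
  have hq0 : 0 < ‖qb‖ := norm_pos_iff.mpr hq
  set w : E := ‖v‖ • qb - (1 / ‖v‖) • v with hw
  obtain ⟨e, he_def⟩ : ∃ e : E, e = (1 / ‖v‖) • v := ⟨_, rfl⟩
  have he : ‖e‖ = 1 := by
    rw [he_def, norm_smul, Real.norm_of_nonneg (by positivity)]
    field_simp
  have hve : v = ‖v‖ • e := by
    rw [he_def, smul_smul]
    have : ‖v‖ * (1 / ‖v‖) = 1 := by field_simp
    rw [this, one_smul]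
  have hqe : ∀ q : E, ⟪q, e⟫ = (1 / ‖v‖) * ⟪v, q⟫ := by
    intro q
    rw [he_def, real_inner_smul_right, real_inner_comm]
  have hqce : ⟪qc, e⟫ = 0 := by rw [hqe, h2, mul_zero]
  have hqde : ⟪qd, e⟫ = 0 := by rw [hqe, h3, mul_zero]
  have hqbe : ⟪qb, e⟫ = 1 / ‖v‖ := by rw [hqe, h1, mul_one]
  have hC : MeasurableSet {x : E | 0 < ⟪qb, x⟫ ∧ 0 < ⟪qc, x⟫ ∧ 0 < ⟪qd, x⟫} := by
    have h4 : MeasurableSet {y : E | 0 < ⟪qb, y⟫} := measurableSet_lt measurable_const (by fun_prop)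
    have h5 : MeasurableSet {y : E | 0 < ⟪qc, y⟫} := measurableSet_lt measurable_const (by fun_prop)
    have h6 : MeasurableSet {y : E | 0 < ⟪qd, y⟫} := measurableSet_lt measurable_const (by fun_prop)
    exact h4.inter (h5.inter h6)
  have hA : MeasurableSet {y : E | 0 < ⟪qc, y⟫ ∧ 0 < ⟪qd, y⟫} := by
    have h5 : MeasurableSet {y : E | 0 < ⟪qc, y⟫} := measurableSet_lt measurable_const (by fun_prop)
    have h6 : MeasurableSet {y : E | 0 < ⟪qd, y⟫} := measurableSet_lt measurable_const (by fun_prop)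
    exact h5.inter h6
  have hint : Integrable ({x : E | 0 < ⟪qb, x⟫ ∧ 0 < ⟪qc, x⟫ ∧ 0 < ⟪qd, x⟫}.indicator
      (fun x => ⟪v, x⟫)) (stdGaussian E) := (integrable_inner v).indicator hC
  rw [← integral_indicator hC, integral_split e he _ hint]
  have hcond : ∀ (t : ℝ) (y : E), 0 < ⟪qb, splitMap e (t, y)⟫ ↔ -⟪w, y⟫ < t := by
    intro t y
    rw [inner_splitMap, hqbe]
    have h7 : ⟪w, y⟫ = ‖v‖ * ⟪qb, y⟫ - ⟪e, y⟫ := by
      rw [hw, ← he_def, inner_sub_left, real_inner_smul_left]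
    have h8 : ⟪qb, y⟫ - ⟪e, y⟫ * (1 / ‖v‖) + t * (1 / ‖v‖) = (1 / ‖v‖) * (t - -⟪w, y⟫) := by
      rw [h7]
      field_simp
      ring
    rw [h8, mul_pos_iff_of_pos_left (by positivity), sub_pos]
  have hcond2 : ∀ (t : ℝ) (y : E) (q : E), ⟪q, e⟫ = 0 → ⟪q, splitMap e (t, y)⟫ = ⟪q, y⟫ := by
    intro t y q hq
    rw [inner_splitMap, hq]
    ring
  have hinner : ∀ y : E, ∫ t, {x : E | 0 < ⟪qb, x⟫ ∧ 0 < ⟪qc, x⟫ ∧ 0 < ⟪qd, x⟫}.indicator
      (fun x => ⟪v, x⟫) (splitMap e (t, y)) ∂(gaussianReal 0 1) =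
      ‖v‖ * {y : E | 0 < ⟪qc, y⟫ ∧ 0 < ⟪qd, y⟫}.indicator (fun y => phi ⟪w, y⟫) y := by
    intro y
    by_cases hy : y ∈ {y : E | 0 < ⟪qc, y⟫ ∧ 0 < ⟪qd, y⟫}
    · rw [indicator_of_mem hy]
      have h9 : ∀ t : ℝ, {x : E | 0 < ⟪qb, x⟫ ∧ 0 < ⟪qc, x⟫ ∧ 0 < ⟪qd, x⟫}.indicator
          (fun x => ⟪v, x⟫) (splitMap e (t, y)) = ‖v‖ * (Ioi (-⟪w, y⟫)).indicator (fun t => t) t := by
        intro t
        by_cases ht : t ∈ Ioi (-⟪w, y⟫)
        · have hm : splitMap e (t, y) ∈ {x : E | 0 < ⟪qb, x⟫ ∧ 0 < ⟪qc, x⟫ ∧ 0 < ⟪qd, x⟫} := by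
            simp only [mem_ofPred_eq]
            rw [hcond, hcond2 t y qc hqce, hcond2 t y qd hqde]
            exact ⟨ht, hy.1, hy.2⟩
          rw [indicator_of_mem hm, indicator_of_mem ht]
          conv_lhs => rw [hve]
          rw [real_inner_smul_left, inner_e_splitMap e he]
        · have hm : splitMap e (t, y) ∉ {x : E | 0 < ⟪qb, x⟫ ∧ 0 < ⟪qc, x⟫ ∧ 0 < ⟪qd, x⟫} := by
            intro hc
            exact ht ((hcond t y).mp hc.1)
          rw [indicator_of_notMem hm, indicator_of_notMem ht, mul_zero]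
      simp_rw [h9]
      rw [integral_const_mul, integral_indicator_Ioi_id]
      have h10 : phi (-⟪w, y⟫) = phi ⟪w, y⟫ := by simp [phi]
      rw [h10]
    · rw [indicator_of_notMem hy, mul_zero]
      have h9 : ∀ t : ℝ, {x : E | 0 < ⟪qb, x⟫ ∧ 0 < ⟪qc, x⟫ ∧ 0 < ⟪qd, x⟫}.indicator
          (fun x => ⟪v, x⟫) (splitMap e (t, y)) = 0 := by
        intro t
        apply indicator_of_notMem
        intro hc
        have h11 := hc.2
        rw [hcond2 t y qc hqce, hcond2 t y qd hqde] at h11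
        exact hy h11
      simp_rw [h9]
      simp
  simp_rw [hinner]
  rw [integral_const_mul, tilt_integral, facet_w_norm v qb hv h1]
  field_simp

/-- The Gram matrix of the tilted vectors. -/
lemma inner_tilt (v qb qc qd : E) (hv : v ≠ 0) (h1 : ⟪v, qb⟫ = 1) (h2 : ⟪v, qc⟫ = 0)
    (h3 : ⟪v, qd⟫ = 0) :
    ⟪tiltVec (‖v‖ • qb - (1 / ‖v‖) • v) qc, tiltVec (‖v‖ • qb - (1 / ‖v‖) • v) qd⟫ =
      ⟪qc, qd⟫ - ⟪qb, qc⟫ * ⟪qb, qd⟫ / ‖qb‖ ^ 2 := by
  have hs : 0 < ‖v‖ := norm_pos_iff.mpr hv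
  have hq : qb ≠ 0 := by
    rintro rfl
    simp at h1
  have hq0 : 0 < ‖qb‖ := norm_pos_iff.mpr hq
  have hk := facet_w_norm v qb hv h1
  set w : E := ‖v‖ • qb - (1 / ‖v‖) • v with hw
  have hkap2 := kap_sq w
  have hwc : ⟪w, qc⟫ = ‖v‖ * ⟪qb, qc⟫ := by
    rw [hw, inner_sub_left, real_inner_smul_left, real_inner_smul_left, h2]
    ring
  have hwd : ⟪w, qd⟫ = ‖v‖ * ⟪qb, qd⟫ := by
    rw [hw, inner_sub_left, real_inner_smul_left, real_inner_smul_left, h3]
    ring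
  simp only [tiltVec]
  rw [inner_sub_left, inner_sub_right, inner_sub_right, real_inner_smul_left, real_inner_smul_right,
    real_inner_smul_left, real_inner_smul_right, real_inner_self_eq_norm_sq, real_inner_comm w qc]
  rw [hwc, hwd, hk]
  rw [hk] at hkap2
  have hw2 : ‖w‖ ^ 2 = (‖v‖ * ‖qb‖) ^ 2 - 1 := by linarith
  rw [hw2]
  have hκ : 0 < ‖v‖ * ‖qb‖ := by positivity
  set κ := ‖v‖ * ‖qb‖ with hκdef
  have hqb : ‖qb‖ = κ / ‖v‖ := by rw [hκdef]; field_simp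
  rw [hqb]
  have h5 : κ + 1 ≠ 0 := by positivity
  field_simp
  ring

end Vale.Agent.Lib.P226.Y
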