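import Vale.Agent.Lib.P226.Y.FourTable
import Vale.Agent.Lib.P226.Y.PB3

/-!
The closed system of four cells has no solution with sum of squared angles larger than `9 π² / 4`.
Hence the propeller bound for partitions into at most four cells, unconditionally.
-/

open Real

namespace Vale.Agent.Lib.P226

namespace Four

theorem chain_fourT : fchainOK 0 0 0 fourT.toList = true := by decide +kernel

theorem ent_fourT : fourT.toList.all entOK = true := by decide +kernel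

theorem fourT_good : fourT.All GoodEnt := by
  refine Tr.all_of_toList fourT fun e he => ?_
  have h0 : Encl 0 0 0 := by
    simp [Encl]
  exact good_of_check (fchain_sound _ _ _ _ h0 chain_fourT e he)
    (List.all_eq_true.mp ent_fourT e he)

set_option maxRecDepth 100000 in
theorem chk_fourT : chk fourT 64 0 65536 0 65536 0 65536 0 65536 = true := by decide +kernel

/-- The bound for sorted variables with largest variable at most `64`. -/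
theorem sorted_small {t₁ t₂ t₃ t₄ D₁₂ D₁₃ D₁₄ D₂₃ D₂₄ D₃₄ : ℝ}
    (h : FourSys t₁ t₂ t₃ t₄ D₁₂ D₁₃ D₁₄ D₂₃ D₂₄ D₃₄) (h12 : t₂ ≤ t₁) (h23 : t₃ ≤ t₂) (h34 : t₄ ≤ t₃)
    (hle : t₁ ≤ 64) :
    D₁₂ ^ 2 + D₁₃ ^ 2 + D₁₄ ^ 2 + D₂₃ ^ 2 + D₂₄ ^ 2 + D₃₄ ^ 2 ≤ 22205 / 1000 := by
  have hW : (W : ℝ) = 1024 := by norm_num [W]
  have key : ∀ t : ℝ, 0 < t → t ≤ 64 → ((0 : ℕ) : ℝ) ≤ (W : ℝ) * t ∧
      (W : ℝ) * t ≤ ((65536 : ℕ) : ℝ) := by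
    intro t h0 h1
    rw [hW]
    constructor
    · push_cast; positivity
    · push_cast; linarith
  obtain ⟨l1, u1⟩ := key t₁ h.t₁_pos hle
  obtain ⟨l2, u2⟩ := key t₂ h.t₂_pos (h12.trans hle)
  obtain ⟨l3, u3⟩ := key t₃ h.t₃_pos (h23.trans (h12.trans hle))
  obtain ⟨l4, u4⟩ := key t₄ h.t₄_pos (h34.trans (h23.trans (h12.trans hle)))
  exact chk_sound fourT_good h h12 h23 h34 64 0 65536 0 65536 0 65536 0 65536 chk_fourT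
    l1 u1 l2 u2 l3 u3 l4 u4

/-- A large product forces an angle near `π`. -/
lemma cos_of_large {z D : ℝ} (hD0 : 0 < D) (hD1 : D < π) (hz : z * sin D = D) (hz2 : 2 ≤ z) :
    cos D < 0 ∧ (1 + cos D) * z ^ 2 ≤ 10 := by
  have hpi3 := pi_lt_d2
  have hpi0 := pi_pos
  have hs : 0 < sin D := sin_pos_of_pos_of_lt_pi hD0 hD1
  have hhalf : π / 2 < D := by
    by_contra hle
    push Not at hle
    have hj := mul_le_sin hD0.le hle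
    have h1 : z * (2 / π * D) ≤ z * sin D := mul_le_mul_of_nonneg_left hj (by linarith)
    rw [hz] at h1
    have h2 : 2 * (2 / π * D) ≤ z * (2 / π * D) :=
      mul_le_mul_of_nonneg_right hz2 (by positivity)
    have h3 : 4 / π * D ≤ D := by
      have : 2 * (2 / π * D) = 4 / π * D := by ring
      linarith
    have h4 : 1 < 4 / π := by
      rw [lt_div_iff₀ hpi0]; linarith
    nlinarith
  have hc : cos D < 0 := cos_neg_of_pi_div_two_lt_of_lt hhalf (by linarith)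
  refine ⟨hc, ?_⟩
  have hsq := sin_sq_add_cos_sq D
  have h1 : 1 + cos D ≤ sin D ^ 2 := by
    have hcn : 0 ≤ 1 + cos D := by linarith [neg_one_le_cos D]
    nlinarith
  have h2 : (sin D * z) ^ 2 = D ^ 2 := by
    rw [mul_comm, hz]
  have h3 : D ^ 2 ≤ 10 := by nlinarith
  have hz0 : 0 ≤ z ^ 2 := by positivity
  have h4 : (1 + cos D) * z ^ 2 ≤ sin D ^ 2 * z ^ 2 := mul_le_mul_of_nonneg_right h1 hz0
  have h5 : sin D ^ 2 * z ^ 2 = (sin D * z) ^ 2 := by ring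
  linarith

/-- The largest variable of a sorted solution is at most `64`. -/
theorem sorted_le {t₁ t₂ t₃ t₄ D₁₂ D₁₃ D₁₄ D₂₃ D₂₄ D₃₄ : ℝ}
    (h : FourSys t₁ t₂ t₃ t₄ D₁₂ D₁₃ D₁₄ D₂₃ D₂₄ D₃₄) (h12 : t₂ ≤ t₁) (h23 : t₃ ≤ t₂) (h34 : t₄ ≤ t₃) :
    t₁ ≤ 64 := by
  by_contra hgt
  push Not at hgt
  have t1 := h.t₁_pos
  have t2 := h.t₂_pos
  have t3 := h.t₃_pos
  have t4 := h.t₄_pos
  -- `t₃ > 1`
  have hz34 := four_one_lt_mul h.D₃₄_pos h.D₃₄_lt h.s₃₄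
  have h3 : 1 < t₃ := by nlinarith
  -- `t₂ ≥ 21`
  have h2 : 21 ≤ t₂ := by
    have c2 := neg_one_le_cos D₁₂
    have c3 := neg_one_le_cos D₁₃
    have c4 := neg_one_le_cos D₁₄
    have e2 : t₂ * (-1) ≤ t₂ * cos D₁₂ := mul_le_mul_of_nonneg_left c2 t2.le
    have e3 : t₃ * (-1) ≤ t₃ * cos D₁₃ := mul_le_mul_of_nonneg_left c3 t3.le
    have e4 : t₄ * (-1) ≤ t₄ * cos D₁₄ := mul_le_mul_of_nonneg_left c4 t4.le
    have := h.r₁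
    linarith
  -- the pair `1, 2`
  have hz12 : 1344 ≤ t₁ * t₂ := by nlinarith
  obtain ⟨-, c12⟩ := cos_of_large h.D₁₂_pos h.D₁₂_lt h.s₁₂ (by linarith)
  have c12n : 0 ≤ 1 + cos D₁₂ := by linarith [neg_one_le_cos D₁₂]
  have e12 : (t₁ + t₂) * (1 + cos D₁₂) ≤ 1 / 1000 := by
    have h1 : (t₁ + t₂) ≤ 2 * t₁ := by linarith
    have h4 : (t₁ * t₂) * (t₁ * t₂) ≤ (1 + cos D₁₂)⁻¹ * 10 ∨ (1 + cos D₁₂) = 0 := by
      rcases c12n.lt_or_eq with hp | hp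
      · left
        rw [inv_mul_eq_div, le_div_iff₀ hp]
        nlinarith
      · right; linarith
    rcases h4 with h4 | h4
    · have hp : 0 < 1 + cos D₁₂ := by
        rcases c12n.lt_or_eq with hp | hp
        · exact hp
        · rw [← hp] at h4
          simp at h4
          nlinarith
      have h5 : (1 + cos D₁₂) * ((t₁ * t₂) * (t₁ * t₂)) ≤ 10 := by nlinarith
      have h6 : (1 + cos D₁₂) * 1344 * (t₁ * t₂) ≤ 10 := by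
        have : (1 + cos D₁₂) * 1344 * (t₁ * t₂) ≤ (1 + cos D₁₂) * (t₁ * t₂) * (t₁ * t₂) := by
          have h7 : 0 ≤ (1 + cos D₁₂) * (t₁ * t₂) := by positivity
          nlinarith
        nlinarith
      have h8 : (1 + cos D₁₂) * t₁ * (1344 * 21) ≤ 10 := by
        have h9 : (1 + cos D₁₂) * t₁ * 21 ≤ (1 + cos D₁₂) * (t₁ * t₂) := by
          have : 0 ≤ (1 + cos D₁₂) * t₁ := by positivity
          nlinarith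
        nlinarith
      nlinarith
    · rw [h4]; norm_num
  -- the pairs `1, 3` and `2, 3`
  have hz13 : 64 ≤ t₁ * t₃ := by nlinarith
  have hz23 : 21 ≤ t₂ * t₃ := by nlinarith
  obtain ⟨-, c13⟩ := cos_of_large h.D₁₃_pos h.D₁₃_lt h.s₁₃ (by linarith)
  obtain ⟨-, c23⟩ := cos_of_large h.D₂₃_pos h.D₂₃_lt h.s₂₃ (by linarith)
  have c13n : 0 ≤ 1 + cos D₁₃ := by linarith [neg_one_le_cos D₁₃]
  have c23n : 0 ≤ 1 + cos D₂₃ := by linarith [neg_one_le_cos D₂₃]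
  have b13 : 1 + cos D₁₃ ≤ 1 / 100 := by
    have h5 : (1 + cos D₁₃) * 64 ^ 2 ≤ (1 + cos D₁₃) * (t₁ * t₃) ^ 2 :=
      mul_le_mul_of_nonneg_left (pow_le_pow_left₀ (by norm_num) hz13 2) c13n
    nlinarith
  have b23 : 1 + cos D₂₃ ≤ 1 / 40 := by
    have h5 : (1 + cos D₂₃) * 21 ^ 2 ≤ (1 + cos D₂₃) * (t₂ * t₃) ^ 2 :=
      mul_le_mul_of_nonneg_left (pow_le_pow_left₀ (by norm_num) hz23 2) c23n
    nlinarith
  have e3 : t₃ * (cos D₁₃ + cos D₂₃) ≤ t₃ * (-(19 / 10)) :=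
    mul_le_mul_of_nonneg_left (by linarith) t3.le
  -- the sum of two equations
  have hsum : (t₁ + t₂) * (1 + cos D₁₂) + t₃ * (cos D₁₃ + cos D₂₃)
      + t₄ * (cos D₁₄ + cos D₂₄) = 0 := by
    have r1 := h.r₁
    have r2 := h.r₂
    linear_combination r1 + r2
  rcases le_total (1 / 2) t₄ with h4 | h4
  · have hz14 : 2 ≤ t₁ * t₄ := by nlinarith
    have hz24 : 2 ≤ t₂ * t₄ := by nlinarith
    have c14 := (cos_of_large h.D₁₄_pos h.D₁₄_lt h.s₁₄ hz14).1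
    have c24 := (cos_of_large h.D₂₄_pos h.D₂₄_lt h.s₂₄ hz24).1
    have e4 : t₄ * (cos D₁₄ + cos D₂₄) ≤ 0 :=
      mul_nonpos_of_nonneg_of_nonpos t4.le (by linarith)
    nlinarith
  · have h3' : 2 ≤ t₃ := by nlinarith
    have e4 : t₄ * (cos D₁₄ + cos D₂₄) ≤ t₄ * 2 :=
      mul_le_mul_of_nonneg_left (by linarith [cos_le_one D₁₄, cos_le_one D₂₄]) t4.le
    nlinarith

end Four

lemma FourSys.swap12 {t₁ t₂ t₃ t₄ D₁₂ D₁₃ D₁₄ D₂₃ D₂₄ D₃₄ : ℝ}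
    (h : FourSys t₁ t₂ t₃ t₄ D₁₂ D₁₃ D₁₄ D₂₃ D₂₄ D₃₄) :
    FourSys t₂ t₁ t₃ t₄ D₁₂ D₂₃ D₂₄ D₁₃ D₁₄ D₃₄ :=
  { t₁_pos := h.t₂_pos, t₂_pos := h.t₁_pos, t₃_pos := h.t₃_pos, t₄_pos := h.t₄_pos
    D₁₂_pos := h.D₁₂_pos, D₁₃_pos := h.D₂₃_pos, D₁₄_pos := h.D₂₄_pos, D₂₃_pos := h.D₁₃_pos
    D₂₄_pos := h.D₁₄_pos, D₃₄_pos := h.D₃₄_pos
    D₁₂_lt := h.D₁₂_lt, D₁₃_lt := h.D₂₃_lt, D₁₄_lt := h.D₂₄_lt, D₂₃_lt := h.D₁₃_lt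
    D₂₄_lt := h.D₁₄_lt, D₃₄_lt := h.D₃₄_lt
    s₁₂ := by linear_combination h.s₁₂
    s₁₃ := h.s₂₃, s₁₄ := h.s₂₄, s₂₃ := h.s₁₃, s₂₄ := h.s₁₄, s₃₄ := h.s₃₄
    r₁ := h.r₂, r₂ := h.r₁
    r₃ := by linear_combination h.r₃
    r₄ := by linear_combination h.r₄
    tri₁₂₃ := by linarith [h.tri₁₂₃, h.tri₁₂₄, h.tri₁₃₄, h.tri₂₃₄]
    tri₁₂₄ := by linarith [h.tri₁₂₃, h.tri₁₂₄, h.tri₁₃₄, h.tri₂₃₄]
    tri₁₃₄ := by linarith [h.tri₁₂₃, h.tri₁₂₄, h.tri₁₃₄, h.tri₂₃₄]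
    tri₂₃₄ := by linarith [h.tri₁₂₃, h.tri₁₂₄, h.tri₁₃₄, h.tri₂₃₄] }

lemma FourSys.swap23 {t₁ t₂ t₃ t₄ D₁₂ D₁₃ D₁₄ D₂₃ D₂₄ D₃₄ : ℝ}
    (h : FourSys t₁ t₂ t₃ t₄ D₁₂ D₁₃ D₁₄ D₂₃ D₂₄ D₃₄) :
    FourSys t₁ t₃ t₂ t₄ D₁₃ D₁₂ D₁₄ D₂₃ D₃₄ D₂₄ :=
  { t₁_pos := h.t₁_pos, t₂_pos := h.t₃_pos, t₃_pos := h.t₂_pos, t₄_pos := h.t₄_pos
    D₁₂_pos := h.D₁₃_pos, D₁₃_pos := h.D₁₂_pos, D₁₄_pos := h.D₁₄_pos, D₂₃_pos := h.D₂₃_pos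
    D₂₄_pos := h.D₃₄_pos, D₃₄_pos := h.D₂₄_pos
    D₁₂_lt := h.D₁₃_lt, D₁₃_lt := h.D₁₂_lt, D₁₄_lt := h.D₁₄_lt, D₂₃_lt := h.D₂₃_lt
    D₂₄_lt := h.D₃₄_lt, D₃₄_lt := h.D₂₄_lt
    s₁₂ := h.s₁₃, s₁₃ := h.s₁₂, s₁₄ := h.s₁₄
    s₂₃ := by linear_combination h.s₂₃
    s₂₄ := h.s₃₄, s₃₄ := h.s₂₄
    r₁ := by linear_combination h.r₁
    r₂ := h.r₃, r₃ := h.r₂
    r₄ := by linear_combination h.r₄
    tri₁₂₃ := by linarith [h.tri₁₂₃, h.tri₁₂₄, h.tri₁₃₄, h.tri₂₃₄]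
    tri₁₂₄ := by linarith [h.tri₁₂₃, h.tri₁₂₄, h.tri₁₃₄, h.tri₂₃₄]
    tri₁₃₄ := by linarith [h.tri₁₂₃, h.tri₁₂₄, h.tri₁₃₄, h.tri₂₃₄]
    tri₂₃₄ := by linarith [h.tri₁₂₃, h.tri₁₂₄, h.tri₁₃₄, h.tri₂₃₄] }

lemma FourSys.swap34 {t₁ t₂ t₃ t₄ D₁₂ D₁₃ D₁₄ D₂₃ D₂₄ D₃₄ : ℝ}
    (h : FourSys t₁ t₂ t₃ t₄ D₁₂ D₁₃ D₁₄ D₂₃ D₂₄ D₃₄) :
    FourSys t₁ t₂ t₄ t₃ D₁₂ D₁₄ D₁₃ D₂₄ D₂₃ D₃₄ :=
  { t₁_pos := h.t₁_pos, t₂_pos := h.t₂_pos, t₃_pos := h.t₄_pos, t₄_pos := h.t₃_pos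
    D₁₂_pos := h.D₁₂_pos, D₁₃_pos := h.D₁₄_pos, D₁₄_pos := h.D₁₃_pos, D₂₃_pos := h.D₂₄_pos
    D₂₄_pos := h.D₂₃_pos, D₃₄_pos := h.D₃₄_pos
    D₁₂_lt := h.D₁₂_lt, D₁₃_lt := h.D₁₄_lt, D₁₄_lt := h.D₁₃_lt, D₂₃_lt := h.D₂₄_lt
    D₂₄_lt := h.D₂₃_lt, D₃₄_lt := h.D₃₄_lt
    s₁₂ := h.s₁₂, s₁₃ := h.s₁₄, s₁₄ := h.s₁₃, s₂₃ := h.s₂₄, s₂₄ := h.s₂₃
    s₃₄ := by linear_combination h.s₃₄
    r₁ := by linear_combination h.r₁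
    r₂ := by linear_combination h.r₂
    r₃ := h.r₄, r₄ := h.r₃
    tri₁₂₃ := by linarith [h.tri₁₂₃, h.tri₁₂₄, h.tri₁₃₄, h.tri₂₃₄]
    tri₁₂₄ := by linarith [h.tri₁₂₃, h.tri₁₂₄, h.tri₁₃₄, h.tri₂₃₄]
    tri₁₃₄ := by linarith [h.tri₁₂₃, h.tri₁₂₄, h.tri₁₃₄, h.tri₂₃₄]
    tri₂₃₄ := by linarith [h.tri₁₂₃, h.tri₁₂₄, h.tri₁₃₄, h.tri₂₃₄] }

private lemma bound_sorted {t₁ t₂ t₃ t₄ D₁₂ D₁₃ D₁₄ D₂₃ D₂₄ D₃₄ : ℝ}
    (h : FourSys t₁ t₂ t₃ t₄ D₁₂ D₁₃ D₁₄ D₂₃ D₂₄ D₃₄) (h12 : t₂ ≤ t₁) (h23 : t₃ ≤ t₂)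
    (h34 : t₄ ≤ t₃) :
    D₁₂ ^ 2 + D₁₃ ^ 2 + D₁₄ ^ 2 + D₂₃ ^ 2 + D₂₄ ^ 2 + D₃₄ ^ 2 ≤ 22205 / 1000 :=
  Four.sorted_small h h12 h23 h34 (Four.sorted_le h h12 h23 h34)

private lemma bound_two {t₁ t₂ t₃ t₄ D₁₂ D₁₃ D₁₄ D₂₃ D₂₄ D₃₄ : ℝ}
    (h : FourSys t₁ t₂ t₃ t₄ D₁₂ D₁₃ D₁₄ D₂₃ D₂₄ D₃₄) (h12 : t₂ ≤ t₁) (h23 : t₃ ≤ t₂)
    (h24 : t₄ ≤ t₂) :
    D₁₂ ^ 2 + D₁₃ ^ 2 + D₁₄ ^ 2 + D₂₃ ^ 2 + D₂₄ ^ 2 + D₃₄ ^ 2 ≤ 22205 / 1000 := by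
  rcases le_total t₄ t₃ with h34 | h34
  · exact bound_sorted h h12 h23 h34
  · have := bound_sorted h.swap34 h12 h24 h34
    linarith

private lemma bound_one {t₁ t₂ t₃ t₄ D₁₂ D₁₃ D₁₄ D₂₃ D₂₄ D₃₄ : ℝ}
    (h : FourSys t₁ t₂ t₃ t₄ D₁₂ D₁₃ D₁₄ D₂₃ D₂₄ D₃₄) (h12 : t₂ ≤ t₁) (h13 : t₃ ≤ t₁)
    (h14 : t₄ ≤ t₁) :
    D₁₂ ^ 2 + D₁₃ ^ 2 + D₁₄ ^ 2 + D₂₃ ^ 2 + D₂₄ ^ 2 + D₃₄ ^ 2 ≤ 22205 / 1000 := by
  rcases le_total t₃ t₂ with h23 | h23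
  · rcases le_total t₄ t₂ with h24 | h24
    · exact bound_two h h12 h23 h24
    · have := bound_two h.swap34.swap23 h14 h24 (h23.trans h24)
      linarith
  · rcases le_total t₄ t₃ with h34 | h34
    · have := bound_two h.swap23 h13 h23 h34
      linarith
    · have := bound_two h.swap34.swap23 h14 (h23.trans h34) h34
      linarith

/-- The closed system of four cells has no solution with a large sum of squared angles. -/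
theorem fourSys_bound {t₁ t₂ t₃ t₄ D₁₂ D₁₃ D₁₄ D₂₃ D₂₄ D₃₄ : ℝ}
    (h : FourSys t₁ t₂ t₃ t₄ D₁₂ D₁₃ D₁₄ D₂₃ D₂₄ D₃₄) :
    D₁₂ ^ 2 + D₁₃ ^ 2 + D₁₄ ^ 2 + D₂₃ ^ 2 + D₂₄ ^ 2 + D₃₄ ^ 2 ≤ 9 * π ^ 2 / 4 := by
  have hmain : D₁₂ ^ 2 + D₁₃ ^ 2 + D₁₄ ^ 2 + D₂₃ ^ 2 + D₂₄ ^ 2 + D₃₄ ^ 2 ≤ 22205 / 1000 := by
    rcases le_total t₂ t₁ with h12 | h12
    · rcases le_total t₃ t₁ with h13 | h13
      · rcases le_total t₄ t₁ with h14 | h14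
        · exact bound_one h h12 h13 h14
        · have := bound_one h.swap34.swap23.swap12 h14 (h12.trans h14) (h13.trans h14)
          linarith
      · rcases le_total t₄ t₃ with h34 | h34
        · have := bound_one h.swap23.swap12 h13 (h12.trans h13) h34
          linarith
        · have := bound_one h.swap34.swap23.swap12 (h13.trans h34) (h12.trans (h13.trans h34)) h34
          linarith
    · rcases le_total t₃ t₂ with h23 | h23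
      · rcases le_total t₄ t₂ with h24 | h24
        · have := bound_one h.swap12 h12 h23 h24
          linarith
        · have := bound_one h.swap34.swap23.swap12 (h12.trans h24) h24 (h23.trans h24)
          linarith
      · rcases le_total t₄ t₃ with h34 | h34
        · have := bound_one h.swap23.swap12 (h12.trans h23) h23 h34
          linarith
        · have := bound_one h.swap34.swap23.swap12 (h12.trans (h23.trans h34)) (h23.trans h34) h34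
          linarith
  have hpi := pi_gt_d4
  have hpi2 : (22205 : ℝ) / 1000 ≤ 9 * π ^ 2 / 4 := by nlinarith
  linarith

variable {E : Type*} [NormedAddCommGroup E] [InnerProductSpace ℝ E] [FiniteDimensional ℝ E]
  [MeasurableSpace E] [BorelSpace E]

/-- **The propeller bound for at most four cells**, with a complete proof. -/
theorem PB_four : PB E 4 :=
  PB_four_of_noSol fun _ _ _ _ _ _ _ _ _ _ h => fourSys_bound h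

end Vale.Agent.Lib.P226
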