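import Vale.Agent.Lib.P226.Y.Facet

/-!
The closed system satisfied by a critical configuration with four cells.
-/

open MeasureTheory ProbabilityTheory Real Set Filter Topology
open scoped RealInnerProductSpace ENNReal NNReal

namespace Vale.Agent.Lib.P226

variable {E : Type*} [NormedAddCommGroup E] [InnerProductSpace ℝ E] [FiniteDimensional ℝ E]
  [MeasurableSpace E] [BorelSpace E]

/-- The Gram determinant of three vectors. -/
noncomputable def gram3 (x y z : E) : ℝ :=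
  ⟪x, x⟫ * (⟪y, y⟫ * ⟪z, z⟫ - ⟪y, z⟫ * ⟪y, z⟫) - ⟪x, y⟫ * (⟪x, y⟫ * ⟪z, z⟫ - ⟪y, z⟫ * ⟪x, z⟫)
    + ⟪x, z⟫ * (⟪x, y⟫ * ⟪y, z⟫ - ⟪y, y⟫ * ⟪x, z⟫)

omit [FiniteDimensional ℝ E] [MeasurableSpace E] [BorelSpace E] in
lemma gram3_swap12 (x y z : E) : gram3 y x z = gram3 x y z := by
  unfold gram3
  rw [real_inner_comm y x]
  ring

omit [FiniteDimensional ℝ E] [MeasurableSpace E] [BorelSpace E] in
lemma gram3_swap23 (x y z : E) : gram3 x z y = gram3 x y z := by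
  unfold gram3
  rw [real_inner_comm z y]
  ring

omit [FiniteDimensional ℝ E] [MeasurableSpace E] [BorelSpace E] in
lemma gram3_fourth {x y z w : E} (h : x + y + z + w = 0) : gram3 x y w = gram3 x y z := by
  have hw : w = -x - y - z := by
    have : w = x + y + z + w - (x + y + z) := by abel
    rw [this, h]
    abel
  subst hw
  unfold gram3
  simp only [inner_sub_right, inner_sub_left, inner_neg_left, inner_neg_right]
  rw [real_inner_comm x y, real_inner_comm x z, real_inner_comm y z]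
  ring

omit [FiniteDimensional ℝ E] [MeasurableSpace E] [BorelSpace E] in
/-- Cramer's rule in the Gram system. -/
lemma gram_cramer {v p q r : E} {α β γ : ℝ} (hv : v = α • p + β • q + γ • r) (h1 : ⟪v, p⟫ = 4)
    (h2 : ⟪v, q⟫ = 0) (h3 : ⟪v, r⟫ = 0) :
    ‖v‖ ^ 2 * gram3 p q r = 16 * (⟪q, q⟫ * ⟪r, r⟫ - ⟪q, r⟫ * ⟪q, r⟫) := by
  have hn : ‖v‖ ^ 2 = 4 * α := by
    rw [← real_inner_self_eq_norm_sq]
    conv_lhs => rw [hv]
    rw [inner_add_right, inner_add_right, inner_smul_right, inner_smul_right, inner_smul_right]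
    rw [← hv, h1, h2, h3]
    ring
  have e1 : α * ⟪p, p⟫ + β * ⟪p, q⟫ + γ * ⟪p, r⟫ = 4 := by
    rw [← h1, hv, inner_add_left, inner_add_left, inner_smul_left, inner_smul_left,
      inner_smul_left, real_inner_comm p q, real_inner_comm p r]
    simp
  have e2 : α * ⟪p, q⟫ + β * ⟪q, q⟫ + γ * ⟪q, r⟫ = 0 := by
    rw [← h2, hv, inner_add_left, inner_add_left, inner_smul_left, inner_smul_left,
      inner_smul_left, real_inner_comm q r]
    simp
  have e3 : α * ⟪p, r⟫ + β * ⟪q, r⟫ + γ * ⟪r, r⟫ = 0 := by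
    rw [← h3, hv, inner_add_left, inner_add_left, inner_smul_left, inner_smul_left,
      inner_smul_left]
    simp
  rw [hn]
  unfold gram3
  linear_combination
    (4 * (⟪q, q⟫ * ⟪r, r⟫ - ⟪q, r⟫ * ⟪q, r⟫)) * e1 +
    (4 * (⟪p, r⟫ * ⟪q, r⟫ - ⟪p, q⟫ * ⟪r, r⟫)) * e2 +
    (4 * (⟪p, q⟫ * ⟪q, r⟫ - ⟪p, r⟫ * ⟪q, q⟫)) * e3

omit [FiniteDimensional ℝ E] [MeasurableSpace E] [BorelSpace E] in
/-- Two vectors with a table of values on two test vectors are not parallel. -/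
lemma strict_cs_sys {p q y₁ y₂ : E} (h1 : ⟪p, y₁⟫ = 3) (h2 : ⟪q, y₁⟫ = -1) (h3 : ⟪p, y₂⟫ = -1)
    (h4 : ⟪q, y₂⟫ = 3) : 0 < ⟪p, p⟫ * ⟪q, q⟫ - ⟪p, q⟫ * ⟪p, q⟫ := by
  have hCS : ⟪p, q⟫ * ⟪p, q⟫ ≤ ⟪p, p⟫ * ⟪q, q⟫ := real_inner_mul_inner_self_le p q
  refine lt_of_le_of_ne (by linarith) fun he => ?_
  have hv : ⟪⟪q, q⟫ • p - ⟪p, q⟫ • q, ⟪q, q⟫ • p - ⟪p, q⟫ • q⟫ = 0 := by
    rw [inner_sub_left, inner_sub_right, inner_sub_right, inner_smul_left, inner_smul_left,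
      inner_smul_right, inner_smul_right, inner_smul_left, inner_smul_left, inner_smul_right,
      inner_smul_right, real_inner_comm p q]
    simp only [conj_trivial]
    linear_combination (-⟪q, q⟫) * he
  have hv0 := inner_self_eq_zero (𝕜 := ℝ).1 hv
  have e1 := congrArg (fun v => ⟪v, y₁⟫) hv0
  have e2 := congrArg (fun v => ⟪v, y₂⟫) hv0
  simp only [inner_sub_left, inner_smul_left, conj_trivial, h1, h2, h3, h4, inner_zero_left] at e1 e2
  have hB : ⟪p, q⟫ = 0 := by linarith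
  have hQ : ⟪q, q⟫ = 0 := by linarith
  have hq0 := inner_self_eq_zero (𝕜 := ℝ).1 hQ
  rw [hq0, inner_zero_left] at h2
  norm_num at h2

omit [FiniteDimensional ℝ E] [MeasurableSpace E] [BorelSpace E] in
/-- Parseval-type identity with mean zero. -/
lemma energy_pairs {a b c d : E} (h : a + b + c + d = 0) :
    ‖a‖ ^ 2 + ‖b‖ ^ 2 + ‖c‖ ^ 2 + ‖d‖ ^ 2 =
      (‖a - b‖ ^ 2 + ‖a - c‖ ^ 2 + ‖a - d‖ ^ 2 + ‖b - c‖ ^ 2 + ‖b - d‖ ^ 2 + ‖c - d‖ ^ 2) / 4 := by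
  have h0 : ⟪a + b + c + d, a + b + c + d⟫ = 0 := by rw [h, inner_zero_left]
  simp only [inner_add_left, inner_add_right] at h0
  rw [real_inner_comm a b, real_inner_comm a c, real_inner_comm a d, real_inner_comm b c,
    real_inner_comm b d, real_inner_comm c d] at h0
  simp only [real_inner_self_eq_norm_sq] at h0
  simp only [norm_sub_sq_real]
  linear_combination (1 / 4 : ℝ) * h0

section Dual

variable {S : Finset ℕ} {u : ℕ → E} {a b c d : ℕ}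

omit [MeasurableSpace E] [BorelSpace E] in
/-- Solving a nondegenerate Gram system. -/
lemma exists_dual3 (x y z : E)
    (hinj : ∀ p q r : ℝ, p • x + q • y + r • z = 0 → p = 0 ∧ q = 0 ∧ r = 0) (r₁ r₂ r₃ : ℝ) :
    ∃ p q r : ℝ, ⟪p • x + q • y + r • z, x⟫ = r₁ ∧ ⟪p • x + q • y + r • z, y⟫ = r₂ ∧
      ⟪p • x + q • y + r • z, z⟫ = r₃ := by
  let L : (Fin 3 → ℝ) →ₗ[ℝ] (Fin 3 → ℝ) :=
    { toFun := fun v => ![⟪v 0 • x + v 1 • y + v 2 • z, x⟫, ⟪v 0 • x + v 1 • y + v 2 • z, y⟫,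
        ⟪v 0 • x + v 1 • y + v 2 • z, z⟫]
      map_add' := by
        intro v w
        ext i
        fin_cases i <;> simp [inner_add_left, inner_smul_left, add_smul] <;> ring
      map_smul' := by
        intro k v
        ext i
        fin_cases i <;> simp [inner_add_left, inner_smul_left] <;> ring }
  have hL : Function.Injective L := by
    rw [injective_iff_map_eq_zero]
    intro v hv
    have h0 : ⟪v 0 • x + v 1 • y + v 2 • z, x⟫ = 0 := congrFun hv 0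
    have h1 : ⟪v 0 • x + v 1 • y + v 2 • z, y⟫ = 0 := congrFun hv 1
    have h2 : ⟪v 0 • x + v 1 • y + v 2 • z, z⟫ = 0 := congrFun hv 2
    have hz : v 0 • x + v 1 • y + v 2 • z = 0 := by
      apply inner_self_eq_zero (𝕜 := ℝ).1
      conv_lhs => rw [inner_add_right, inner_add_right, inner_smul_right, inner_smul_right,
        inner_smul_right]
      rw [h0, h1, h2]
      ring
    obtain ⟨e0, e1, e2⟩ := hinj _ _ _ hz
    ext i
    fin_cases i
    · exact e0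
    · exact e1
    · exact e2
  obtain ⟨v, hv⟩ := (LinearMap.injective_iff_surjective.1 hL) ![r₁, r₂, r₃]
  exact ⟨v 0, v 1, v 2, congrFun hv 0, congrFun hv 1, congrFun hv 2⟩

/-- Existence of vectors in the span of the `u l` with prescribed values, for a critical
configuration with four cells. -/
lemma Crit.exists_dual (h : Crit S u) (hS : S = {a, b, c, d}) (hab : a ≠ b) (hac : a ≠ c)
    (had : a ≠ d) (hbc : b ≠ c) (hbd : b ≠ d) (hcd : c ≠ d)
    (hsum : u a + u b + u c + u d = 0) {r₁ r₂ r₃ r₄ : ℝ} (hr : r₁ + r₂ + r₃ + r₄ = 0) :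
    ∃ w ∈ Submodule.span ℝ {u a, u b, u c, u d},
      ⟪w, u a⟫ = r₁ ∧ ⟪w, u b⟫ = r₂ ∧ ⟪w, u c⟫ = r₃ ∧ ⟪w, u d⟫ = r₄ := by
  have hinj : ∀ p q r : ℝ, p • u a + q • u b + r • u c = 0 → p = 0 ∧ q = 0 ∧ r = 0 := by
    intro p q r hz
    have hrel : ∑ l ∈ S, (fun l => if l = a then p else if l = b then q else if l = c then r else 0)
        l • u l = 0 := by
      rw [hS, Finset.sum_insert (by simp [hab, hac, had]),
        Finset.sum_insert (by simp [hbc, hbd]), Finset.sum_insert (by simp [hcd]),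
        Finset.sum_singleton]
      simp only [if_true, hab.symm, hac.symm, had.symm, hbc.symm, hbd.symm, hcd.symm, if_false,
        zero_smul, add_zero]
      rw [← hz]
      abel
    have hda : d ∈ S := by simp [hS]
    have e1 := h.coeff_const _ hrel (a := a) (b := d) (by simp [hS]) hda
    have e2 := h.coeff_const _ hrel (a := b) (b := d) (by simp [hS]) hda
    have e3 := h.coeff_const _ hrel (a := c) (b := d) (by simp [hS]) hda
    simp only [if_true, hab.symm, hac.symm, had.symm, hbc.symm, hbd.symm, hcd.symm, if_false] at e1 e2 e3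
    exact ⟨e1, e2, e3⟩
  obtain ⟨p, q, r, h1, h2, h3⟩ := exists_dual3 _ _ _ hinj r₁ r₂ r₃
  refine ⟨p • u a + q • u b + r • u c, ?_, h1, h2, h3, ?_⟩
  · have hua : u a ∈ Submodule.span ℝ {u a, u b, u c, u d} := Submodule.subset_span (by simp)
    have hub : u b ∈ Submodule.span ℝ {u a, u b, u c, u d} := Submodule.subset_span (by simp)
    have huc : u c ∈ Submodule.span ℝ {u a, u b, u c, u d} := Submodule.subset_span (by simp)
    exact Submodule.add_mem _ (Submodule.add_mem _ (Submodule.smul_mem _ _ hua)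
      (Submodule.smul_mem _ _ hub)) (Submodule.smul_mem _ _ huc)
  · have hz : ⟪p • u a + q • u b + r • u c, u a + u b + u c + u d⟫ = 0 := by
      rw [hsum, inner_zero_right]
    rw [inner_add_right, inner_add_right, inner_add_right, h1, h2, h3] at hz
    linarith

omit [FiniteDimensional ℝ E] [MeasurableSpace E] [BorelSpace E] in
/-- A vector of the span orthogonal to the spanning vectors vanishes. -/
lemma span_ortho_zero {x y z t v : E} (hv : v ∈ Submodule.span ℝ {x, y, z, t})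
    (h1 : ⟪v, x⟫ = 0) (h2 : ⟪v, y⟫ = 0) (h3 : ⟪v, z⟫ = 0) (h4 : ⟪v, t⟫ = 0) : v = 0 := by
  obtain ⟨p, w, hw, hvw⟩ := Submodule.mem_span_insert.1 hv
  obtain ⟨q, r, s, hvw'⟩ := Submodule.mem_span_triple.1 hw
  have e : v = p • x + (q • y + r • z + s • t) := by rw [hvw, hvw']
  have key : ∀ w' : E, w' = p • x + (q • y + r • z + s • t) → ⟪v, w'⟫ = 0 := by
    rintro _ rfl
    rw [inner_add_right, inner_add_right, inner_add_right, inner_smul_right, inner_smul_right,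
      inner_smul_right, inner_smul_right, h1, h2, h3, h4]
    ring
  exact inner_self_eq_zero (𝕜 := ℝ).1 (key v e)

/-- The table of values of the dual vectors. -/
structure Tbl (ua ub uc ud da db dc dd : E) : Prop where
  eaa : ⟪da, ua⟫ = 3
  eab : ⟪da, ub⟫ = -1
  eac : ⟪da, uc⟫ = -1
  ead : ⟪da, ud⟫ = -1
  eba : ⟪db, ua⟫ = -1
  ebb : ⟪db, ub⟫ = 3
  ebc : ⟪db, uc⟫ = -1
  ebd : ⟪db, ud⟫ = -1
  eca : ⟪dc, ua⟫ = -1
  ecb : ⟪dc, ub⟫ = -1
  ecc : ⟪dc, uc⟫ = 3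
  ecd : ⟪dc, ud⟫ = -1
  eda : ⟪dd, ua⟫ = -1
  edb : ⟪dd, ub⟫ = -1
  edc : ⟪dd, uc⟫ = -1
  edd : ⟪dd, ud⟫ = 3
  Va : da ∈ Submodule.span ℝ {ua, ub, uc, ud}
  Vb : db ∈ Submodule.span ℝ {ua, ub, uc, ud}
  Vc : dc ∈ Submodule.span ℝ {ua, ub, uc, ud}
  Vd : dd ∈ Submodule.span ℝ {ua, ub, uc, ud}
  usum : ua + ub + uc + ud = 0
  dsum : da + db + dc + dd = 0

omit [FiniteDimensional ℝ E] [MeasurableSpace E] [BorelSpace E] in
lemma Tbl.swap12 {ua ub uc ud da db dc dd : E} (T : Tbl ua ub uc ud da db dc dd) :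
    Tbl ub ua uc ud db da dc dd := by
  have hP : ({ub, ua, uc, ud} : Set E) = {ua, ub, uc, ud} := by
    rw [Set.insert_comm]
  exact ⟨T.ebb, T.eba, T.ebc, T.ebd, T.eab, T.eaa, T.eac, T.ead, T.ecb, T.eca, T.ecc, T.ecd, T.edb, T.eda, T.edc,
    T.edd, by rw [hP]; exact T.Vb, by rw [hP]; exact T.Va, by rw [hP]; exact T.Vc,
    by rw [hP]; exact T.Vd, by rw [← T.usum]; abel, by rw [← T.dsum]; abel⟩

omit [FiniteDimensional ℝ E] [MeasurableSpace E] [BorelSpace E] in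
lemma Tbl.swap23 {ua ub uc ud da db dc dd : E} (T : Tbl ua ub uc ud da db dc dd) :
    Tbl ua uc ub ud da dc db dd := by
  have hP : ({ua, uc, ub, ud} : Set E) = {ua, ub, uc, ud} := by
    rw [Set.insert_comm uc ub]
  exact ⟨T.eaa, T.eac, T.eab, T.ead, T.eca, T.ecc, T.ecb, T.ecd, T.eba, T.ebc, T.ebb, T.ebd, T.eda, T.edc, T.edb,
    T.edd, by rw [hP]; exact T.Va, by rw [hP]; exact T.Vc, by rw [hP]; exact T.Vb,
    by rw [hP]; exact T.Vd, by rw [← T.usum]; abel, by rw [← T.dsum]; abel⟩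

omit [FiniteDimensional ℝ E] [MeasurableSpace E] [BorelSpace E] in
lemma Tbl.swap34 {ua ub uc ud da db dc dd : E} (T : Tbl ua ub uc ud da db dc dd) :
    Tbl ua ub ud uc da db dd dc := by
  have hP : ({ua, ub, ud, uc} : Set E) = {ua, ub, uc, ud} := by
    rw [Set.pair_comm ud uc]
  exact ⟨T.eaa, T.eab, T.ead, T.eac, T.eba, T.ebb, T.ebd, T.ebc, T.eda, T.edb, T.edd, T.edc, T.eca, T.ecb, T.ecd,
    T.ecc, by rw [hP]; exact T.Va, by rw [hP]; exact T.Vb, by rw [hP]; exact T.Vd,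
    by rw [hP]; exact T.Vc, by rw [← T.usum]; abel, by rw [← T.dsum]; abel⟩

lemma S_swap12 (a b c d : ℕ) : ({b, a, c, d} : Finset ℕ) = {a, b, c, d} := by
  rw [Finset.insert_comm]

lemma S_swap23 (a b c d : ℕ) : ({a, c, b, d} : Finset ℕ) = {a, b, c, d} := by
  rw [Finset.insert_comm c b]

lemma S_swap34 (a b c d : ℕ) : ({a, b, d, c} : Finset ℕ) = {a, b, c, d} := by
  rw [Finset.pair_comm d c]

/-- The two relations attached to the edge joining `a` and `b`. -/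
lemma edge_full (h : Crit S u) (hS : S = {a, b, c, d}) {da db dc dd : E}
    (T : Tbl (u a) (u b) (u c) (u d) da db dc dd) :
    ‖u a - u b‖ = (2 * cG / π) * InnerProductGeometry.angle dc dd ∧
      ‖u a - u b‖ ^ 2 * gram3 da dc dd = 16 * (⟪dc, dc⟫ * ⟪dd, dd⟫ - ⟪dc, dd⟫ * ⟪dc, dd⟫) := by
  refine ⟨edge_eq h hS T.eba T.ebb T.ebc T.ebd T.eca T.ecb T.ecc T.ecd T.eda T.edb T.edc T.edd T.Vc T.Vd
    T.usum, ?_⟩
  obtain ⟨v, hv⟩ : ∃ v : E, v = u a - u b := ⟨_, rfl⟩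
  rw [← hv]
  have h1 : ⟪v, da⟫ = 4 := by
    rw [hv, real_inner_comm, inner_sub_right, T.eaa, T.eab]
    norm_num
  have h2 : ⟪v, dc⟫ = 0 := by
    rw [hv, real_inner_comm, inner_sub_right, T.eca, T.ecb]
    norm_num
  have h3 : ⟪v, dd⟫ = 0 := by
    rw [hv, real_inner_comm, inner_sub_right, T.eda, T.edb]
    norm_num
  have hVv : v ∈ Submodule.span ℝ {u a, u b, u c, u d} := by
    rw [hv]
    exact Submodule.sub_mem _ (Submodule.subset_span (by simp)) (Submodule.subset_span (by simp))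
  obtain ⟨A, hA⟩ : ∃ A : ℝ, A = ⟪v, u a⟫ := ⟨_, rfl⟩
  obtain ⟨B, hB⟩ : ∃ B : ℝ, B = ⟪v, u b⟫ := ⟨_, rfl⟩
  obtain ⟨C, hC⟩ : ∃ C : ℝ, C = ⟪v, u c⟫ := ⟨_, rfl⟩
  obtain ⟨D, hD⟩ : ∃ D : ℝ, D = ⟪v, u d⟫ := ⟨_, rfl⟩
  have hABCD : A + B + C + D = 0 := by
    have : ⟪v, u a + u b + u c + u d⟫ = 0 := by rw [T.usum, inner_zero_right]
    rw [inner_add_right, inner_add_right, inner_add_right] at this
    rw [hA, hB, hC, hD]
    exact this
  have hexp : v = ((A - B) / 4) • da + ((C - B) / 4) • dc + ((D - B) / 4) • dd := by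
    rw [← sub_eq_zero]
    refine span_ortho_zero (x := u a) (y := u b) (z := u c) (t := u d) ?_ ?_ ?_ ?_ ?_
    · exact Submodule.sub_mem _ hVv (Submodule.add_mem _ (Submodule.add_mem _
        (Submodule.smul_mem _ _ T.Va) (Submodule.smul_mem _ _ T.Vc)) (Submodule.smul_mem _ _ T.Vd))
    · rw [inner_sub_left, inner_add_left, inner_add_left, inner_smul_left, inner_smul_left,
        inner_smul_left, ← hA, T.eaa, T.eca, T.eda]
      simp only [conj_trivial]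
      linear_combination (1 / 4 : ℝ) * hABCD
    · rw [inner_sub_left, inner_add_left, inner_add_left, inner_smul_left, inner_smul_left,
        inner_smul_left, ← hB, T.eab, T.ecb, T.edb]
      simp only [conj_trivial]
      linear_combination (1 / 4 : ℝ) * hABCD
    · rw [inner_sub_left, inner_add_left, inner_add_left, inner_smul_left, inner_smul_left,
        inner_smul_left, ← hC, T.eac, T.ecc, T.edc]
      simp only [conj_trivial]
      linear_combination (1 / 4 : ℝ) * hABCD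
    · rw [inner_sub_left, inner_add_left, inner_add_left, inner_smul_left, inner_smul_left,
        inner_smul_left, ← hD, T.ead, T.ecd, T.edd]
      simp only [conj_trivial]
      linear_combination (1 / 4 : ℝ) * hABCD
  exact gram_cramer hexp h1 h2 h3

omit [FiniteDimensional ℝ E] [MeasurableSpace E] [BorelSpace E] in
/-- From the edge relations to the sine equation. -/
lemma angle_system {p q : E} {ℓ Det Sq κ τ : ℝ}
    (hpos : 0 < ⟪p, p⟫ * ⟪q, q⟫ - ⟪p, q⟫ * ⟪p, q⟫) (hκ : 0 < κ)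
    (hℓ : ℓ = κ * InnerProductGeometry.angle p q)
    (hgram : ℓ ^ 2 * Det = 16 * (⟪p, p⟫ * ⟪q, q⟫ - ⟪p, q⟫ * ⟪p, q⟫))
    (hSq : Sq ^ 2 = Det) (hSqpos : 0 < Sq) (hτ : τ ^ 2 * κ * Sq = 4) :
    (τ * ‖p‖) * (τ * ‖q‖) * Real.sin (InnerProductGeometry.angle p q) =
        InnerProductGeometry.angle p q ∧
      0 < InnerProductGeometry.angle p q ∧ InnerProductGeometry.angle p q < π := by
  have hs := InnerProductGeometry.sin_angle_mul_norm_mul_norm p q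
  obtain ⟨A, hA⟩ : ∃ A : ℝ, A = InnerProductGeometry.angle p q := ⟨_, rfl⟩
  rw [← hA] at hs hℓ ⊢
  have hA0 : 0 ≤ A := by rw [hA]; exact InnerProductGeometry.angle_nonneg p q
  have hAπ : A ≤ π := by rw [hA]; exact InnerProductGeometry.angle_le_pi p q
  have hℓ0 : 0 ≤ ℓ := by rw [hℓ]; positivity
  have hrad : ⟪p, p⟫ * ⟪q, q⟫ - ⟪p, q⟫ * ⟪p, q⟫ = (ℓ * Sq / 4) ^ 2 := by
    have e : (ℓ * Sq / 4) ^ 2 = ℓ ^ 2 * Sq ^ 2 / 16 := by ring
    rw [e, hSq]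
    linarith
  rw [hrad, Real.sqrt_sq (by positivity)] at hs
  have hs' : Real.sin A * (‖p‖ * ‖q‖) = κ * A * Sq / 4 := by rw [hs, hℓ]
  have hsr : 0 < Real.sqrt (⟪p, p⟫ * ⟪q, q⟫ - ⟪p, q⟫ * ⟪p, q⟫) := Real.sqrt_pos.2 hpos
  have hAne : Real.sin A ≠ 0 := by
    intro e
    rw [hrad, Real.sqrt_sq (by positivity), ← hs, e, zero_mul] at hsr
    exact lt_irrefl _ hsr
  refine ⟨?_, ?_, ?_⟩
  · calc (τ * ‖p‖) * (τ * ‖q‖) * Real.sin A = τ ^ 2 * (Real.sin A * (‖p‖ * ‖q‖)) := by ring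
      _ = (τ ^ 2 * κ * Sq) * A / 4 := by rw [hs']; ring
      _ = A := by rw [hτ]; ring
  · refine lt_of_le_of_ne hA0 fun e => hAne ?_
    rw [← e, Real.sin_zero]
  · refine lt_of_le_of_ne hAπ fun e => hAne ?_
    rw [e, Real.sin_pi]

omit [FiniteDimensional ℝ E] [MeasurableSpace E] [BorelSpace E] in
/-- The row equation. -/
lemma row_eq {p q r s : E} (hp : p ≠ 0) (hsum : p + q + r + s = 0) (τ : ℝ) :
    τ * ‖p‖ + τ * ‖q‖ * Real.cos (InnerProductGeometry.angle p q)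
      + τ * ‖r‖ * Real.cos (InnerProductGeometry.angle p r)
      + τ * ‖s‖ * Real.cos (InnerProductGeometry.angle p s) = 0 := by
  have h0 : ⟪p, p + q + r + s⟫ = 0 := by rw [hsum, inner_zero_right]
  rw [inner_add_right, inner_add_right, inner_add_right, real_inner_self_eq_norm_sq,
    ← InnerProductGeometry.cos_angle_mul_norm_mul_norm p q,
    ← InnerProductGeometry.cos_angle_mul_norm_mul_norm p r,
    ← InnerProductGeometry.cos_angle_mul_norm_mul_norm p s] at h0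
  have hn : 0 < ‖p‖ := norm_pos_iff.2 hp
  have h1 : ‖p‖ * (‖p‖ + ‖q‖ * Real.cos (InnerProductGeometry.angle p q)
      + ‖r‖ * Real.cos (InnerProductGeometry.angle p r)
      + ‖s‖ * Real.cos (InnerProductGeometry.angle p s)) = 0 := by
    linear_combination h0
  have h2 := (mul_eq_zero.1 h1).resolve_left hn.ne'
  linear_combination τ * h2

end Dual

omit [FiniteDimensional ℝ E] [MeasurableSpace E] [BorelSpace E] in
/-- The sum of the three angles between three vectors is at most `2 π`. -/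
lemma angle_triple (x y z : E) :
    InnerProductGeometry.angle x y + InnerProductGeometry.angle x z +
      InnerProductGeometry.angle y z ≤ 2 * π := by
  have h := InnerProductGeometry.angle_le_angle_add_angle y (-x) z
  rw [InnerProductGeometry.angle_neg_right, InnerProductGeometry.angle_neg_left,
    InnerProductGeometry.angle_comm y x] at h
  linarith

/-- The closed system satisfied by the four cell configurations. -/
structure FourSys (t₁ t₂ t₃ t₄ D₁₂ D₁₃ D₁₄ D₂₃ D₂₄ D₃₄ : ℝ) : Prop where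
  t₁_pos : 0 < t₁
  t₂_pos : 0 < t₂
  t₃_pos : 0 < t₃
  t₄_pos : 0 < t₄
  D₁₂_pos : 0 < D₁₂
  D₁₃_pos : 0 < D₁₃
  D₁₄_pos : 0 < D₁₄
  D₂₃_pos : 0 < D₂₃
  D₂₄_pos : 0 < D₂₄
  D₃₄_pos : 0 < D₃₄
  D₁₂_lt : D₁₂ < π
  D₁₃_lt : D₁₃ < π
  D₁₄_lt : D₁₄ < π
  D₂₃_lt : D₂₃ < π
  D₂₄_lt : D₂₄ < π
  D₃₄_lt : D₃₄ < π
  s₁₂ : t₁ * t₂ * Real.sin D₁₂ = D₁₂
  s₁₃ : t₁ * t₃ * Real.sin D₁₃ = D₁₃
  s₁₄ : t₁ * t₄ * Real.sin D₁₄ = D₁₄
  s₂₃ : t₂ * t₃ * Real.sin D₂₃ = D₂₃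
  s₂₄ : t₂ * t₄ * Real.sin D₂₄ = D₂₄
  s₃₄ : t₃ * t₄ * Real.sin D₃₄ = D₃₄
  r₁ : t₁ + t₂ * Real.cos D₁₂ + t₃ * Real.cos D₁₃ + t₄ * Real.cos D₁₄ = 0
  r₂ : t₂ + t₁ * Real.cos D₁₂ + t₃ * Real.cos D₂₃ + t₄ * Real.cos D₂₄ = 0
  r₃ : t₃ + t₁ * Real.cos D₁₃ + t₂ * Real.cos D₂₃ + t₄ * Real.cos D₃₄ = 0
  r₄ : t₄ + t₁ * Real.cos D₁₄ + t₂ * Real.cos D₂₄ + t₃ * Real.cos D₃₄ = 0
  tri₁₂₃ : D₁₂ + D₁₃ + D₂₃ ≤ 2 * π
  tri₁₂₄ : D₁₂ + D₁₄ + D₂₄ ≤ 2 * π
  tri₁₃₄ : D₁₃ + D₁₄ + D₃₄ ≤ 2 * π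
  tri₂₃₄ : D₂₃ + D₂₄ + D₃₄ ≤ 2 * π

lemma cG_sq' : cG ^ 2 = 1 / (2 * π) := by
  unfold cG
  rw [inv_pow, Real.sq_sqrt (by positivity)]
  simp

omit [FiniteDimensional ℝ E] [MeasurableSpace E] [BorelSpace E] in
/-- The system from the six edge relations. -/
lemma sys_of_edges {ua ub uc ud da db dc dd : E} (T : Tbl ua ub uc ud da db dc dd) {κ : ℝ}
    (hκ : 0 < κ)
    (e1 : ‖ua - ub‖ = κ * InnerProductGeometry.angle dc dd)
    (e2 : ‖ua - uc‖ = κ * InnerProductGeometry.angle db dd)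
    (e3 : ‖ua - ud‖ = κ * InnerProductGeometry.angle db dc)
    (e4 : ‖ub - uc‖ = κ * InnerProductGeometry.angle da dd)
    (e5 : ‖ub - ud‖ = κ * InnerProductGeometry.angle da dc)
    (e6 : ‖uc - ud‖ = κ * InnerProductGeometry.angle da db)
    (g1 : ‖ua - ub‖ ^ 2 * gram3 da dc dd = 16 * (⟪dc, dc⟫ * ⟪dd, dd⟫ - ⟪dc, dd⟫ * ⟪dc, dd⟫))
    (g2 : ‖ua - uc‖ ^ 2 * gram3 da db dd = 16 * (⟪db, db⟫ * ⟪dd, dd⟫ - ⟪db, dd⟫ * ⟪db, dd⟫))
    (g3 : ‖ua - ud‖ ^ 2 * gram3 da db dc = 16 * (⟪db, db⟫ * ⟪dc, dc⟫ - ⟪db, dc⟫ * ⟪db, dc⟫))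
    (g4 : ‖ub - uc‖ ^ 2 * gram3 db da dd = 16 * (⟪da, da⟫ * ⟪dd, dd⟫ - ⟪da, dd⟫ * ⟪da, dd⟫))
    (g5 : ‖ub - ud‖ ^ 2 * gram3 db da dc = 16 * (⟪da, da⟫ * ⟪dc, dc⟫ - ⟪da, dc⟫ * ⟪da, dc⟫))
    (g6 : ‖uc - ud‖ ^ 2 * gram3 dc da db = 16 * (⟪da, da⟫ * ⟪db, db⟫ - ⟪da, db⟫ * ⟪da, db⟫)) :
    ∃ τ : ℝ, FourSys (τ * ‖da‖) (τ * ‖db‖) (τ * ‖dc‖) (τ * ‖dd‖)
      (InnerProductGeometry.angle da db) (InnerProductGeometry.angle da dc)
      (InnerProductGeometry.angle da dd) (InnerProductGeometry.angle db dc)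
      (InnerProductGeometry.angle db dd) (InnerProductGeometry.angle dc dd) := by
  have hdsum := T.dsum
  obtain ⟨Det, hDet⟩ : ∃ Det : ℝ, Det = gram3 da db dc := ⟨_, rfl⟩
  have hg1 : gram3 da dc dd = Det := by
    rw [hDet, gram3_fourth (x := da) (y := dc) (z := db) (w := dd) (by rw [← hdsum]; abel),
      gram3_swap23]
  have hg2 : gram3 da db dd = Det := by
    rw [hDet, gram3_fourth (x := da) (y := db) (z := dc) (w := dd) hdsum]
  have hg3 : gram3 da db dc = Det := hDet.symm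
  have hg4 : gram3 db da dd = Det := by rw [gram3_swap12, hg2]
  have hg5 : gram3 db da dc = Det := by rw [gram3_swap12, hg3]
  have hg6 : gram3 dc da db = Det := by rw [gram3_swap12, gram3_swap23, hg3]
  rw [hg1] at g1
  rw [hg2] at g2
  rw [hg3] at g3
  rw [hg4] at g4
  rw [hg5] at g5
  rw [hg6] at g6
  have c1 := strict_cs_sys T.ecc T.edc T.ecd T.edd
  have c2 := strict_cs_sys T.ebb T.edb T.ebd T.edd
  have c3 := strict_cs_sys T.ebb T.ecb T.ebc T.ecc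
  have c4 := strict_cs_sys T.eaa T.eda T.ead T.edd
  have c5 := strict_cs_sys T.eaa T.eca T.eac T.ecc
  have c6 := strict_cs_sys T.eaa T.eba T.eab T.ebb
  have hDetpos : 0 < Det := by
    have hℓ : 0 < ‖ua - ub‖ ^ 2 := by
      have : ua - ub ≠ 0 := by
        intro e
        have h2 := congrArg (fun v => ⟪da, v⟫) e
        simp only [inner_sub_right, T.eaa, T.eab, inner_zero_right] at h2
        norm_num at h2
      positivity
    have hr : 0 < ‖ua - ub‖ ^ 2 * Det := by rw [g1]; linarith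
    exact (pos_iff_pos_of_mul_pos hr).1 hℓ
  obtain ⟨Sq, hSq⟩ : ∃ Sq : ℝ, Sq = Real.sqrt Det := ⟨_, rfl⟩
  have hSqpos : 0 < Sq := by rw [hSq]; exact Real.sqrt_pos.2 hDetpos
  have hSq2 : Sq ^ 2 = Det := by rw [hSq]; exact Real.sq_sqrt hDetpos.le
  obtain ⟨τ, hτdef⟩ : ∃ τ : ℝ, τ = Real.sqrt (4 / (κ * Sq)) := ⟨_, rfl⟩
  have hτpos : 0 < τ := by
    rw [hτdef]
    exact Real.sqrt_pos.2 (by positivity)
  have hτ : τ ^ 2 * κ * Sq = 4 := by
    rw [hτdef, Real.sq_sqrt (by positivity)]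
    field_simp
  obtain ⟨s1, p1, q1⟩ := angle_system c1 hκ e1 g1 hSq2 hSqpos hτ
  obtain ⟨s2, p2, q2⟩ := angle_system c2 hκ e2 g2 hSq2 hSqpos hτ
  obtain ⟨s3, p3, q3⟩ := angle_system c3 hκ e3 g3 hSq2 hSqpos hτ
  obtain ⟨s4, p4, q4⟩ := angle_system c4 hκ e4 g4 hSq2 hSqpos hτ
  obtain ⟨s5, p5, q5⟩ := angle_system c5 hκ e5 g5 hSq2 hSqpos hτ
  obtain ⟨s6, p6, q6⟩ := angle_system c6 hκ e6 g6 hSq2 hSqpos hτ
  have hda0 : da ≠ 0 := by
    intro e
    have := T.eaa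
    rw [e, inner_zero_left] at this
    norm_num at this
  have hdb0 : db ≠ 0 := by
    intro e
    have := T.ebb
    rw [e, inner_zero_left] at this
    norm_num at this
  have hdc0 : dc ≠ 0 := by
    intro e
    have := T.ecc
    rw [e, inner_zero_left] at this
    norm_num at this
  have hdd0 : dd ≠ 0 := by
    intro e
    have := T.edd
    rw [e, inner_zero_left] at this
    norm_num at this
  have r1 := row_eq hda0 hdsum τ
  have r2 := row_eq hdb0 (p := db) (q := da) (r := dc) (s := dd) (by rw [← hdsum]; abel) τ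
  have r3 := row_eq hdc0 (p := dc) (q := da) (r := db) (s := dd) (by rw [← hdsum]; abel) τ
  have r4 := row_eq hdd0 (p := dd) (q := da) (r := db) (s := dc) (by rw [← hdsum]; abel) τ
  rw [InnerProductGeometry.angle_comm db da] at r2
  rw [InnerProductGeometry.angle_comm dc da, InnerProductGeometry.angle_comm dc db] at r3
  rw [InnerProductGeometry.angle_comm dd da, InnerProductGeometry.angle_comm dd db,
    InnerProductGeometry.angle_comm dd dc] at r4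
  exact ⟨τ, mul_pos hτpos (norm_pos_iff.2 hda0), mul_pos hτpos (norm_pos_iff.2 hdb0),
      mul_pos hτpos (norm_pos_iff.2 hdc0), mul_pos hτpos (norm_pos_iff.2 hdd0),
      p6, p5, p4, p3, p2, p1, q6, q5, q4, q3, q2, q1, s6, s5, s4, s3, s2, s1, r1, r2, r3, r4,
      angle_triple da db dc, angle_triple da db dd, angle_triple da dc dd, angle_triple db dc dd⟩

omit [FiniteDimensional ℝ E] [MeasurableSpace E] [BorelSpace E] in
/-- The energy from the six edge relations. -/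
lemma energy_of_edges {ua ub uc ud : E} (hsum : ua + ub + uc + ud = 0) {D₁ D₂ D₃ D₄ D₅ D₆ : ℝ}
    (e1 : ‖ua - ub‖ = (2 * cG / π) * D₁) (e2 : ‖ua - uc‖ = (2 * cG / π) * D₂)
    (e3 : ‖ua - ud‖ = (2 * cG / π) * D₃) (e4 : ‖ub - uc‖ = (2 * cG / π) * D₄)
    (e5 : ‖ub - ud‖ = (2 * cG / π) * D₅) (e6 : ‖uc - ud‖ = (2 * cG / π) * D₆) :
    ‖ua‖ ^ 2 + ‖ub‖ ^ 2 + ‖uc‖ ^ 2 + ‖ud‖ ^ 2 =
      (D₆ ^ 2 + D₅ ^ 2 + D₄ ^ 2 + D₃ ^ 2 + D₂ ^ 2 + D₁ ^ 2) / (2 * π ^ 3) := by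
  have hpi := Real.pi_pos
  have hκ2 : (2 * cG / π) ^ 2 = 2 / π ^ 3 := by
    rw [div_pow, mul_pow, cG_sq']
    field_simp
  rw [energy_pairs hsum, e1, e2, e3, e4, e5, e6]
  simp only [mul_pow, hκ2]
  field_simp
  ring

/-- The vectors dual to a critical configuration with four cells. -/
lemma crit4_duals {S : Finset ℕ} {u : ℕ → E} {a b c d : ℕ} (h : Crit S u)
    (hS : S = {a, b, c, d}) (nab : a ≠ b) (nac : a ≠ c) (nad : a ≠ d) (nbc : b ≠ c) (nbd : b ≠ d)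
    (ncd : c ≠ d) : ∃ da db dc dd : E, Tbl (u a) (u b) (u c) (u d) da db dc dd := by
  have hSne : S.Nonempty := by rw [hS]; simp
  have hsum : u a + u b + u c + u d = 0 := by
    have h0 := h.sum_eq_zero hSne
    rw [hS, Finset.sum_insert (by simp [nab, nac, nad]), Finset.sum_insert (by simp [nbc, nbd]),
      Finset.sum_insert (by simp [ncd]), Finset.sum_singleton] at h0
    rw [← h0]
    abel
  obtain ⟨da, hVa, haa, hab, hac, had⟩ := h.exists_dual hS nab nac nad nbc nbd ncd hsum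
    (r₁ := 3) (r₂ := -1) (r₃ := -1) (r₄ := -1) (by norm_num)
  obtain ⟨db, hVb, hba, hbb, hbc, hbd⟩ := h.exists_dual hS nab nac nad nbc nbd ncd hsum
    (r₁ := -1) (r₂ := 3) (r₃ := -1) (r₄ := -1) (by norm_num)
  obtain ⟨dc, hVc, hca, hcb, hcc, hcd⟩ := h.exists_dual hS nab nac nad nbc nbd ncd hsum
    (r₁ := -1) (r₂ := -1) (r₃ := 3) (r₄ := -1) (by norm_num)
  obtain ⟨dd, hVd, hda, hdb, hdc, hdd⟩ := h.exists_dual hS nab nac nad nbc nbd ncd hsum
    (r₁ := -1) (r₂ := -1) (r₃ := -1) (r₄ := 3) (by norm_num)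
  have hdsum : da + db + dc + dd = 0 := by
    refine span_ortho_zero (x := u a) (y := u b) (z := u c) (t := u d) ?_ ?_ ?_ ?_ ?_
    · exact Submodule.add_mem _ (Submodule.add_mem _ (Submodule.add_mem _ hVa hVb) hVc) hVd
    · simp only [inner_add_left, haa, hba, hca, hda]; norm_num
    · simp only [inner_add_left, hab, hbb, hcb, hdb]; norm_num
    · simp only [inner_add_left, hac, hbc, hcc, hdc]; norm_num
    · simp only [inner_add_left, had, hbd, hcd, hdd]; norm_num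
  exact ⟨da, db, dc, dd, haa, hab, hac, had, hba, hbb, hbc, hbd, hca, hcb, hcc, hcd, hda, hdb, hdc,
    hdd, hVa, hVb, hVc, hVd, hsum, hdsum⟩

/-- A critical configuration with four cells gives a solution of the closed system, whose energy
is the sum of the squares of the angles divided by `2 π ^ 3`. -/
theorem crit4_system {S : Finset ℕ} {u : ℕ → E} {a b c d : ℕ} (h : Crit S u)
    (hS : S = {a, b, c, d}) (nab : a ≠ b) (nac : a ≠ c) (nad : a ≠ d) (nbc : b ≠ c) (nbd : b ≠ d)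
    (ncd : c ≠ d) :
    ∃ t₁ t₂ t₃ t₄ D₁₂ D₁₃ D₁₄ D₂₃ D₂₄ D₃₄ : ℝ, FourSys t₁ t₂ t₃ t₄ D₁₂ D₁₃ D₁₄ D₂₃ D₂₄ D₃₄ ∧
      ∑ l ∈ S, ‖u l‖ ^ 2 =
        (D₁₂ ^ 2 + D₁₃ ^ 2 + D₁₄ ^ 2 + D₂₃ ^ 2 + D₂₄ ^ 2 + D₃₄ ^ 2) / (2 * π ^ 3) := by
  obtain ⟨da, db, dc, dd, T⟩ := crit4_duals h hS nab nac nad nbc nbd ncd
  have hSsum : ∑ l ∈ S, ‖u l‖ ^ 2 = ‖u a‖ ^ 2 + ‖u b‖ ^ 2 + ‖u c‖ ^ 2 + ‖u d‖ ^ 2 := by
    rw [hS, Finset.sum_insert (by simp [nab, nac, nad]), Finset.sum_insert (by simp [nbc, nbd]),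
      Finset.sum_insert (by simp [ncd]), Finset.sum_singleton]
    ring
  -- (a, c, b, d)
  have hS2 : S = {a, c, b, d} := by rw [S_swap23, hS]
  -- (a, d, b, c)
  have hS3 : S = {a, d, b, c} := by rw [S_swap23, S_swap34, hS]
  -- (b, c, a, d)
  have hS4 : S = {b, c, a, d} := by rw [S_swap23, S_swap12, hS]
  -- (b, d, a, c)
  have hS5 : S = {b, d, a, c} := by rw [S_swap23, S_swap34, S_swap12, hS]
  -- (c, d, a, b)
  have hS6 : S = {c, d, a, b} := by rw [S_swap23, S_swap34, S_swap12, S_swap23, hS]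
  obtain ⟨e1, g1⟩ := edge_full h hS T
  obtain ⟨e2, g2⟩ := edge_full h hS2 T.swap23
  obtain ⟨e3, g3⟩ := edge_full h hS3 T.swap34.swap23
  obtain ⟨e4, g4⟩ := edge_full h hS4 T.swap12.swap23
  obtain ⟨e5, g5⟩ := edge_full h hS5 T.swap12.swap34.swap23
  obtain ⟨e6, g6⟩ := edge_full h hS6 T.swap23.swap12.swap34.swap23
  have hκ : 0 < 2 * cG / π := by
    have := cG_pos
    have hpi := Real.pi_pos
    positivity
  obtain ⟨τ, hsys⟩ := sys_of_edges T hκ e1 e2 e3 e4 e5 e6 g1 g2 g3 g4 g5 g6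
  refine ⟨_, _, _, _, _, _, _, _, _, _, hsys, ?_⟩
  rw [hSsum]
  exact energy_of_edges T.usum e1 e2 e3 e4 e5 e6

/-- The energy bound in the critical case: any contradiction with the system gives the four cell
bound. -/
theorem crit4_big {S : Finset ℕ} {u : ℕ → E} {a b c d : ℕ} (h : Crit S u)
    (hS : S = {a, b, c, d}) (nab : a ≠ b) (nac : a ≠ c) (nad : a ≠ d) (nbc : b ≠ c) (nbd : b ≠ d)
    (ncd : c ≠ d) :
    ∃ t₁ t₂ t₃ t₄ D₁₂ D₁₃ D₁₄ D₂₃ D₂₄ D₃₄ : ℝ, FourSys t₁ t₂ t₃ t₄ D₁₂ D₁₃ D₁₄ D₂₃ D₂₄ D₃₄ ∧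
      9 * π ^ 2 / 4 < D₁₂ ^ 2 + D₁₃ ^ 2 + D₁₄ ^ 2 + D₂₃ ^ 2 + D₂₄ ^ 2 + D₃₄ ^ 2 := by
  obtain ⟨t₁, t₂, t₃, t₄, D₁₂, D₁₃, D₁₄, D₂₃, D₂₄, D₃₄, hsys, henergy⟩ :=
    crit4_system h hS nab nac nad nbc nbd ncd
  refine ⟨t₁, t₂, t₃, t₄, D₁₂, D₁₃, D₁₄, D₂₃, D₂₄, D₃₄, hsys, ?_⟩
  have hb := h.big
  rw [henergy] at hb
  unfold t0 at hb
  have hpi := Real.pi_pos
  rw [div_lt_div_iff₀ (by positivity) (by positivity)] at hb
  have : 0 < 8 * π := by positivity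
  have e : 9 * (2 * π ^ 3) = (9 * π ^ 2 / 4) * (8 * π) := by ring
  rw [e] at hb
  exact lt_of_mul_lt_mul_right hb this.le

end Vale.Agent.Lib.P226
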