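import Vale.Agent.Lib.P226.Y.FourReal
import Vale.Agent.Lib.P226.Y.System

/-!
A checker by natural number arithmetic for the system of four cells: a table of angles (tangent of
half the angle rational, so sine and cosine exact) and a branch and bound over boxes of the four
variables `t`.
-/

open Real

namespace Vale.Agent.Lib.P226

namespace Four

/-- Scale of the variables `t`. -/
def W : ℕ := 1024
/-- Scale of the products `t t'`. -/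
def W2 : ℕ := 1048576
/-- Scale of `1 + cos`. -/
def E : ℕ := 1000000
/-- Scale of the upper bounds of angles. -/
def Qs : ℕ := 1000000
/-- Scale of the enclosures of angles. -/
def Q : ℕ := 1000000000000
/-- Denominator of the tangent of half the angle. -/
def q : ℕ := 1000000

/-- An entry of the table. -/
structure FEnt where
  p : ℕ
  dl : ℕ
  dh : ℕ
  gm : ℕ
  gp : ℕ
  eL : ℕ
  eH : ℕ
  ds : ℕ

/-- A binary search tree of entries. -/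
inductive Tr where
  | nil : Tr
  | node (l : Tr) (e : FEnt) (r : Tr) : Tr

/-- The entries of a tree, in order. -/
def Tr.toList : Tr → List FEnt
  | .nil => []
  | .node l e r => l.toList ++ e :: r.toList

/-- Search for an upper bound of the angle. -/
def upLook : Tr → ℕ → FEnt → FEnt
  | .nil, _, b => b
  | .node l e r, z, b => bif Nat.ble z e.gm then upLook l z e else upLook r z b

/-- Search for a lower bound of the angle. -/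
def loLook : Tr → ℕ → FEnt → FEnt
  | .nil, _, b => b
  | .node l e r, z, b => bif Nat.ble e.gp z then loLook r z e else loLook l z b

/-- Default upper bound of an angle: `π`. -/
def defUp : FEnt := ⟨0, 0, 0, 0, 0, 0, 0, 3141600⟩

/-- Default lower bound of an angle: `0`. -/
def defLo : FEnt := ⟨0, 0, 0, 0, 0, 0, 2000000, 0⟩

/-- Enclosure of the angle with half tangent `p / q`. -/
def Encl (p dl dh : ℕ) : Prop :=
  (dl : ℝ) / Q ≤ 2 * arctan ((p : ℝ) / q) ∧ 2 * arctan ((p : ℝ) / q) ≤ (dh : ℝ) / Q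

/-- One step of the chain of enclosures. -/
def stepOK (p dl dh : ℕ) (e : FEnt) : Bool :=
  Nat.ble p e.p &&
  Nat.ble (dh * (q * q + p * e.p) + 2 * ((e.p - p) * q) * Q) (e.dh * (q * q + p * e.p)) &&
  Nat.ble (e.dl * (((e.p - p) * q) * ((e.p - p) * q) + (q * q + p * e.p) * (q * q + p * e.p)))
    (dl * (((e.p - p) * q) * ((e.p - p) * q) + (q * q + p * e.p) * (q * q + p * e.p))
      + 2 * ((e.p - p) * q) * (q * q + p * e.p) * Q)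

/-- The chain of enclosures. -/
def fchainOK : ℕ → ℕ → ℕ → List FEnt → Bool
  | _, _, _, [] => true
  | p, dl, dh, e :: es => stepOK p dl dh e && fchainOK e.p e.dl e.dh es

/-- The check of one entry from its enclosure. -/
def entOK (e : FEnt) : Bool :=
  Nat.blt 0 e.p &&
  Nat.ble (W2 * e.dh * (e.p * e.p + q * q)) (e.gp * (2 * e.p * q * Q)) &&
  Nat.ble (e.gm * (2 * e.p * q * Q)) (W2 * e.dl * (e.p * e.p + q * q)) &&
  Nat.ble (e.eL * (e.p * e.p + q * q)) (E * (2 * q * q)) &&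
  Nat.ble (E * (2 * q * q)) (e.eH * (e.p * e.p + q * q)) &&
  Nat.ble (e.dh * Qs) (e.ds * Q)

/-- The facts read from an entry giving an upper bound of the angle. -/
def UpFact (D : ℝ) (e : FEnt) : Prop := (e.eL : ℝ) ≤ E * (1 + cos D) ∧ (Qs : ℝ) * D ≤ e.ds

/-- The fact read from an entry giving a lower bound of the angle. -/
def LoFact (D : ℝ) (e : FEnt) : Prop := (E : ℝ) * (1 + cos D) ≤ e.eH

/-- What an entry gives for every solution of `z sin D = D`. -/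
def GoodEnt (e : FEnt) : Prop :=
  ∀ z D : ℝ, 0 < D → D < π → z * sin D = D →
    (z * (W2 : ℝ) ≤ e.gm → UpFact D e) ∧ ((e.gp : ℝ) ≤ z * (W2 : ℝ) → LoFact D e)

/-- All entries of a tree satisfy a predicate. -/
def Tr.All (P : FEnt → Prop) : Tr → Prop
  | .nil => True
  | .node l e r => Tr.All P l ∧ P e ∧ Tr.All P r

lemma W_pos : (0 : ℝ) < (W : ℝ) := by norm_num [W]
lemma E_pos : (0 : ℝ) < (E : ℝ) := by norm_num [E]
lemma Qs_pos : (0 : ℝ) < (Qs : ℝ) := by norm_num [Qs]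
lemma Q_pos : (0 : ℝ) < (Q : ℝ) := by norm_num [Q]
lemma q_pos : (0 : ℝ) < (q : ℝ) := by norm_num [q]
lemma W2_eq : (W2 : ℝ) = (W : ℝ) * W := by norm_num [W2, W]

lemma encl_step {p dl dh : ℕ} {e : FEnt} (h : Encl p dl dh) (hs : stepOK p dl dh e = true) :
    Encl e.p e.dl e.dh := by
  simp only [stepOK, Bool.and_eq_true, Nat.ble_eq] at hs
  obtain ⟨⟨h1, h2⟩, h3⟩ := hs
  have hq := q_pos
  have hQ := Q_pos
  set a : ℝ := (p : ℝ) / q with ha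
  set b : ℝ := (e.p : ℝ) / q with hb
  have ha0 : 0 ≤ a := by positivity
  have hp : (p : ℝ) ≤ e.p := by exact_mod_cast h1
  have hab : a ≤ b := div_le_div_of_nonneg_right hp hq.le
  have hstep := four_arctan_step ha0 hab
  -- the step in natural numbers
  obtain ⟨U, hU⟩ : ∃ U : ℕ, U = (e.p - p) * q := ⟨_, rfl⟩
  obtain ⟨V, hV⟩ : ∃ V : ℕ, V = q * q + p * e.p := ⟨_, rfl⟩
  rw [← hU, ← hV] at h2 h3
  have hUr : (U : ℝ) = ((e.p : ℝ) - p) * q := by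
    rw [hU]; push_cast [Nat.cast_sub h1]; ring
  have hVr : (V : ℝ) = (q : ℝ) * q + p * e.p := by
    rw [hV]; push_cast; ring
  have hV0 : (0 : ℝ) < (V : ℝ) := by
    rw [hVr]; positivity
  have hU0 : (0 : ℝ) ≤ (U : ℝ) := Nat.cast_nonneg _
  have hδ : (b - a) / (1 + a * b) = (U : ℝ) / V := by
    rw [hUr, hVr, ha, hb]
    field_simp
  rw [hδ] at hstep
  have hδ0 : 0 ≤ (U : ℝ) / V := by positivity
  have hu1 := four_arctan_le hδ0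
  have hl1 := four_le_arctan hδ0
  have hlow : (U : ℝ) / V / (1 + ((U : ℝ) / V) ^ 2) = (U : ℝ) * V / ((U : ℝ) * U + (V : ℝ) * V) := by
    have : (U : ℝ) * U + (V : ℝ) * V ≠ 0 := by positivity
    field_simp
    ring
  rw [hlow] at hl1
  obtain ⟨hA, hB⟩ := h
  rw [← ha] at hA hB
  have h2r : (dh : ℝ) * V + 2 * U * Q ≤ (e.dh : ℝ) * V := by exact_mod_cast h2
  have h3r : (e.dl : ℝ) * ((U : ℝ) * U + (V : ℝ) * V)
      ≤ (dl : ℝ) * ((U : ℝ) * U + (V : ℝ) * V) + 2 * U * V * Q := by exact_mod_cast h3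
  constructor
  · rw [hstep]
    have hW : 0 < (U : ℝ) * U + (V : ℝ) * V := by positivity
    have h4 : (e.dl : ℝ) / Q ≤ (dl : ℝ) / Q + 2 * ((U : ℝ) * V / ((U : ℝ) * U + (V : ℝ) * V)) := by
      rw [div_le_iff₀ hQ]
      have e1 : ((dl : ℝ) / Q + 2 * ((U : ℝ) * V / ((U : ℝ) * U + (V : ℝ) * V))) * Q
          = (dl : ℝ) + 2 * U * V * Q / ((U : ℝ) * U + (V : ℝ) * V) := by
        field_simp
      rw [e1, ← sub_le_iff_le_add', le_div_iff₀ hW]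
      nlinarith
    linarith
  · rw [hstep]
    have h4 : (dh : ℝ) / Q + 2 * ((U : ℝ) / V) ≤ (e.dh : ℝ) / Q := by
      rw [le_div_iff₀ hQ]
      have e1 : ((dh : ℝ) / Q + 2 * ((U : ℝ) / V)) * Q = (dh : ℝ) + 2 * U * Q / V := by
        field_simp
      rw [e1, ← le_sub_iff_add_le', div_le_iff₀ hV0]
      nlinarith
    linarith

lemma fchain_sound : ∀ (l : List FEnt) (p dl dh : ℕ), Encl p dl dh → fchainOK p dl dh l = true →
    ∀ e ∈ l, Encl e.p e.dl e.dh := by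
  intro l
  induction l with
  | nil =>
    intro _ _ _ _ _ e he
    simp at he
  | cons x xs ih =>
    intro p dl dh h hc e he
    simp only [fchainOK, Bool.and_eq_true] at hc
    have hx := encl_step h hc.1
    rcases List.mem_cons.mp he with rfl | he
    · exact hx
    · exact ih _ _ _ hx hc.2 e he

lemma good_of_check {e : FEnt} (hE : Encl e.p e.dl e.dh) (hok : entOK e = true) : GoodEnt e := by
  simp only [entOK, Bool.and_eq_true, Nat.ble_eq, Nat.blt_eq] at hok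
  obtain ⟨⟨⟨⟨⟨h0, h1⟩, h2⟩, h3⟩, h4⟩, h5⟩ := hok
  have hq := q_pos
  have hQ := Q_pos
  have hEE := E_pos
  have hQs := Qs_pos
  have hp : (0 : ℝ) < e.p := by exact_mod_cast h0
  have hW2 : (0 : ℝ) < (W2 : ℝ) := by norm_num [W2]
  set τ : ℝ := (e.p : ℝ) / q with hτ
  have hτ0 : 0 < τ := by positivity
  set d : ℝ := 2 * arctan τ with hd
  have hd0 : 0 < d := by
    have := arctan_pos.mpr hτ0
    rw [hd]; linarith
  have hdpi : d < π := by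
    have := arctan_lt_pi_div_two τ
    rw [hd]; linarith
  obtain ⟨hE1, hE2⟩ := hE
  rw [← hτ, ← hd] at hE1 hE2
  -- sine and cosine
  obtain ⟨N, hN⟩ : ∃ N : ℝ, N = (e.p : ℝ) * e.p + (q : ℝ) * q := ⟨_, rfl⟩
  have hN0 : 0 < N := by rw [hN]; positivity
  have hsin : sin d = 2 * e.p * q / N := by
    rw [hd, four_sin_two_arctan, hτ, hN]
    field_simp
    ring
  have hcos : 1 + cos d = 2 * q * q / N := by
    rw [hd, four_one_add_cos_two_arctan, hτ, hN]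
    field_simp
    ring
  have hs0 : 0 ≤ 2 * (e.p : ℝ) * q / N := by positivity
  have h1r : (W2 : ℝ) * e.dh * N ≤ e.gp * (2 * e.p * q * Q) := by
    rw [hN]; exact_mod_cast h1
  have h2r : (e.gm : ℝ) * (2 * e.p * q * Q) ≤ (W2 : ℝ) * e.dl * N := by
    rw [hN]; exact_mod_cast h2
  have h3r : (e.eL : ℝ) * N ≤ E * (2 * q * q) := by
    rw [hN]; exact_mod_cast h3
  have h4r : (E : ℝ) * (2 * q * q) ≤ e.eH * N := by
    rw [hN]; exact_mod_cast h4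
  have h5r : (e.dh : ℝ) * Qs ≤ e.ds * Q := by exact_mod_cast h5
  intro z D hD0 hDpi hz
  constructor
  · -- upper bound of the angle
    intro hzg
    have hle : z * sin d ≤ d := by
      rw [hsin]
      have h6 : z * (W2 : ℝ) * (2 * e.p * q / N) ≤ (e.gm : ℝ) * (2 * e.p * q / N) :=
        mul_le_mul_of_nonneg_right hzg hs0
      have h7 : (e.gm : ℝ) * (2 * e.p * q / N) ≤ (W2 : ℝ) * e.dl / Q := by
        rw [le_div_iff₀ hQ]
        have : (e.gm : ℝ) * (2 * e.p * q / N) * Q = (e.gm : ℝ) * (2 * e.p * q * Q) / N := by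
          field_simp
        rw [this, div_le_iff₀ hN0]
        linarith
      have h8 : z * (2 * e.p * q / N) * (W2 : ℝ) ≤ ((e.dl : ℝ) / Q) * (W2 : ℝ) := by
        have e1 : z * (2 * e.p * q / N) * (W2 : ℝ) = z * (W2 : ℝ) * (2 * e.p * q / N) := by ring
        have e2 : ((e.dl : ℝ) / Q) * (W2 : ℝ) = (W2 : ℝ) * e.dl / Q := by ring
        rw [e1, e2]
        linarith
      have h9 := le_of_mul_le_mul_right h8 hW2
      linarith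
    have hDd := four_ge_of_mul_sin hD0 hDpi hz hd0 hle
    have hc : cos d ≤ cos D := cos_le_cos_of_nonneg_of_le_pi hD0.le hdpi.le hDd
    constructor
    · have h6 : (e.eL : ℝ) ≤ E * (1 + cos d) := by
        rw [hcos]
        have : (E : ℝ) * (2 * q * q / N) = (E : ℝ) * (2 * q * q) / N := by ring
        rw [this, le_div_iff₀ hN0]
        exact h3r
      have h7 : (E : ℝ) * (1 + cos d) ≤ E * (1 + cos D) :=
        mul_le_mul_of_nonneg_left (by linarith) hEE.le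
      linarith
    · have h6 : (Qs : ℝ) * D ≤ Qs * ((e.dh : ℝ) / Q) :=
        mul_le_mul_of_nonneg_left (hDd.trans hE2) hQs.le
      have h7 : (Qs : ℝ) * ((e.dh : ℝ) / Q) ≤ e.ds := by
        have : (Qs : ℝ) * ((e.dh : ℝ) / Q) = (e.dh : ℝ) * Qs / Q := by ring
        rw [this, div_le_iff₀ hQ]
        exact h5r
      linarith
  · -- lower bound of the angle
    intro hzg
    have hle : d ≤ z * sin d := by
      rw [hsin]
      have h6 : (e.gp : ℝ) * (2 * e.p * q / N) ≤ z * (W2 : ℝ) * (2 * e.p * q / N) :=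
        mul_le_mul_of_nonneg_right hzg hs0
      have h7 : (W2 : ℝ) * e.dh / Q ≤ (e.gp : ℝ) * (2 * e.p * q / N) := by
        rw [div_le_iff₀ hQ]
        have : (e.gp : ℝ) * (2 * e.p * q / N) * Q = (e.gp : ℝ) * (2 * e.p * q * Q) / N := by
          field_simp
        rw [this, le_div_iff₀ hN0]
        linarith
      have h8 : ((e.dh : ℝ) / Q) * (W2 : ℝ) ≤ z * (2 * e.p * q / N) * (W2 : ℝ) := by
        have e1 : z * (2 * e.p * q / N) * (W2 : ℝ) = z * (W2 : ℝ) * (2 * e.p * q / N) := by ring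
        have e2 : ((e.dh : ℝ) / Q) * (W2 : ℝ) = (W2 : ℝ) * e.dh / Q := by ring
        rw [e1, e2]
        linarith
      have h9 := le_of_mul_le_mul_right h8 hW2
      linarith
    have hDd := four_le_of_mul_sin hD0 hDpi hz hdpi hle
    have hc : cos D ≤ cos d := cos_le_cos_of_nonneg_of_le_pi hd0.le hDpi.le hDd
    show (E : ℝ) * (1 + cos D) ≤ e.eH
    have h6 : (E : ℝ) * (1 + cos d) ≤ e.eH := by
      rw [hcos]
      have : (E : ℝ) * (2 * q * q / N) = (E : ℝ) * (2 * q * q) / N := by ring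
      rw [this, div_le_iff₀ hN0]
      exact h4r
    have h7 : (E : ℝ) * (1 + cos D) ≤ E * (1 + cos d) :=
      mul_le_mul_of_nonneg_left (by linarith) hEE.le
    linarith

lemma Tr.all_of_toList {P : FEnt → Prop} : ∀ T : Tr, (∀ e ∈ T.toList, P e) → T.All P := by
  intro T
  induction T with
  | nil => intro _; trivial
  | node l e r ihl ihr =>
    intro h
    refine ⟨ihl fun x hx => h x ?_, h e ?_, ihr fun x hx => h x ?_⟩
    · simp [Tr.toList, hx]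
    · simp [Tr.toList]
    · simp [Tr.toList, hx]

lemma up_sound : ∀ (T : Tr), T.All GoodEnt → ∀ {z D : ℝ}, 0 < D → D < π → z * sin D = D →
    ∀ (zN : ℕ), z * (W2 : ℝ) ≤ zN → ∀ b : FEnt, UpFact D b → UpFact D (upLook T zN b) := by
  intro T
  induction T with
  | nil =>
    intro _ _ _ _ _ _ _ _ _ hb
    exact hb
  | node l e r ihl ihr =>
    intro hT z D hD0 hDpi hz zN hzN b hb
    obtain ⟨hl, he, hr⟩ := hT
    simp only [upLook]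
    cases hc : Nat.ble zN e.gm with
    | true =>
      simp only [cond_true]
      have h1 : zN ≤ e.gm := Nat.le_of_ble_eq_true hc
      have h2 : (zN : ℝ) ≤ e.gm := by exact_mod_cast h1
      exact ihl hl hD0 hDpi hz zN hzN e ((he z D hD0 hDpi hz).1 (hzN.trans h2))
    | false =>
      simp only [cond_false]
      exact ihr hr hD0 hDpi hz zN hzN b hb

lemma lo_sound : ∀ (T : Tr), T.All GoodEnt → ∀ {z D : ℝ}, 0 < D → D < π → z * sin D = D →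
    ∀ (zN : ℕ), (zN : ℝ) ≤ z * (W2 : ℝ) → ∀ b : FEnt, LoFact D b → LoFact D (loLook T zN b) := by
  intro T
  induction T with
  | nil =>
    intro _ _ _ _ _ _ _ _ _ hb
    exact hb
  | node l e r ihl ihr =>
    intro hT z D hD0 hDpi hz zN hzN b hb
    obtain ⟨hl, he, hr⟩ := hT
    simp only [loLook]
    cases hc : Nat.ble e.gp zN with
    | true =>
      simp only [cond_true]
      have h1 : e.gp ≤ zN := Nat.le_of_ble_eq_true hc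
      have h2 : (e.gp : ℝ) ≤ zN := by exact_mod_cast h1
      exact ihr hr hD0 hDpi hz zN hzN e ((he z D hD0 hDpi hz).2 (h2.trans hzN))
    | false =>
      simp only [cond_false]
      exact ihl hl hD0 hDpi hz zN hzN b hb

lemma defUp_fact {D : ℝ} (hD : D < π) : UpFact D defUp := by
  have hpi := pi_lt_d4
  constructor
  · have : (0 : ℝ) ≤ 1 + cos D := by linarith [neg_one_le_cos D]
    have h2 := E_pos
    simp only [defUp]
    push_cast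
    positivity
  · simp only [defUp, Qs]
    push_cast
    nlinarith

lemma defLo_fact (D : ℝ) : LoFact D defLo := by
  show (E : ℝ) * (1 + cos D) ≤ ((2000000 : ℕ) : ℝ)
  have := cos_le_one D
  simp only [E]
  push_cast
  nlinarith

/-- Test of a positive value of one equation. -/
def rPos (Aa Ab Bb Ac Bc Ad Bd eb ec ed : ℕ) : Bool :=
  Nat.blt (Bb * (E - eb) + Bc * (E - ec) + Bd * (E - ed))
    (Aa * E + Ab * (eb - E) + Ac * (ec - E) + Ad * (ed - E))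

/-- Test of a negative value of one equation. -/
def rNeg (Ba Ab Bb Ac Bc Ad Bd eb ec ed : ℕ) : Bool :=
  Nat.blt (Ba * E + Bb * (eb - E) + Bc * (ec - E) + Bd * (ed - E))
    (Ab * (E - eb) + Ac * (E - ec) + Ad * (E - ed))

/-- The equation of one vertex has no zero on the box. -/
def rVert (T : Tr) (Aa Ba Ab Bb Ac Bc Ad Bd : ℕ) : Bool :=
  rPos Aa Ab Bb Ac Bc Ad Bd (upLook T (Ba * Bb) defUp).eL (upLook T (Ba * Bc) defUp).eL
      (upLook T (Ba * Bd) defUp).eL ||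
    rNeg Ba Ab Bb Ac Bc Ad Bd (loLook T (Aa * Ab) defLo).eH (loLook T (Aa * Ac) defLo).eH
      (loLook T (Aa * Ad) defLo).eH

/-- The square of an upper bound of the angle of a pair. -/
def dsq (T : Tr) (z : ℕ) : ℕ := (upLook T z defUp).ds * (upLook T z defUp).ds

/-- The test at one box. -/
def leaf (T : Tr) (a1 b1 a2 b2 a3 b3 a4 b4 : ℕ) : Bool :=
  Nat.blt b1 a2 || Nat.blt b2 a3 || Nat.blt b3 a4 ||
  Nat.ble (b3 * b4) W2 || Nat.ble (b2 * b4) W2 || Nat.ble (b1 * b4) W2 ||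
  Nat.ble (b2 * b3) W2 || Nat.ble (b1 * b3) W2 || Nat.ble (b1 * b2) W2 ||
  Nat.ble (1000 * (dsq T (b1 * b2) + dsq T (b1 * b3) + dsq T (b1 * b4) + dsq T (b2 * b3)
    + dsq T (b2 * b4) + dsq T (b3 * b4))) (22205 * (Qs * Qs)) ||
  rVert T a1 b1 a2 b2 a3 b3 a4 b4 || rVert T a2 b2 a1 b1 a3 b3 a4 b4 ||
  rVert T a3 b3 a1 b1 a2 b2 a4 b4 || rVert T a4 b4 a1 b1 a2 b2 a3 b3

/-- Branch and bound over boxes. -/
def chk (T : Tr) : ℕ → ℕ → ℕ → ℕ → ℕ → ℕ → ℕ → ℕ → ℕ → Bool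
  | 0, _, _, _, _, _, _, _, _ => false
  | f + 1, a1, b1, a2, b2, a3, b3, a4, b4 =>
    leaf T a1 b1 a2 b2 a3 b3 a4 b4 ||
    bif Nat.ble (b2 - a2) (b1 - a1) && Nat.ble (b3 - a3) (b1 - a1) && Nat.ble (b4 - a4) (b1 - a1) then
      chk T f a1 ((a1 + b1) / 2) a2 b2 a3 b3 a4 b4 && chk T f ((a1 + b1) / 2) b1 a2 b2 a3 b3 a4 b4
    else bif Nat.ble (b3 - a3) (b2 - a2) && Nat.ble (b4 - a4) (b2 - a2) then
      chk T f a1 b1 a2 ((a2 + b2) / 2) a3 b3 a4 b4 && chk T f a1 b1 ((a2 + b2) / 2) b2 a3 b3 a4 b4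
    else bif Nat.ble (b4 - a4) (b3 - a3) then
      chk T f a1 b1 a2 b2 a3 ((a3 + b3) / 2) a4 b4 && chk T f a1 b1 a2 b2 ((a3 + b3) / 2) b3 a4 b4
    else
      chk T f a1 b1 a2 b2 a3 b3 a4 ((a4 + b4) / 2) && chk T f a1 b1 a2 b2 a3 b3 ((a4 + b4) / 2) b4

private lemma close_pos {EE WW ta P1 P2 P3 Aa Ab Ac Ad Bb Bc Bd X1 X2 X3 Y1 Y2 Y3 : ℝ}
    (hE : 0 ≤ EE) (hr : ta + P1 + P2 + P3 = 0) (h1 : Aa ≤ WW * ta)
    (t1 : Ab * X1 - Bb * Y1 ≤ EE * WW * P1) (t2 : Ac * X2 - Bc * Y2 ≤ EE * WW * P2)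
    (t3 : Ad * X3 - Bd * Y3 ≤ EE * WW * P3)
    (ht : Bb * Y1 + Bc * Y2 + Bd * Y3 < Aa * EE + Ab * X1 + Ac * X2 + Ad * X3) : False := by
  have h2 : EE * Aa ≤ EE * (WW * ta) := mul_le_mul_of_nonneg_left h1 hE
  have key : EE * WW * (ta + P1 + P2 + P3) = 0 := by rw [hr, mul_zero]
  nlinarith

private lemma close_neg {EE WW ta P1 P2 P3 Ba Ab Ac Ad Bb Bc Bd X1 X2 X3 Y1 Y2 Y3 : ℝ}
    (hE : 0 ≤ EE) (hr : ta + P1 + P2 + P3 = 0) (h1 : WW * ta ≤ Ba)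
    (t1 : EE * WW * P1 ≤ Bb * X1 - Ab * Y1) (t2 : EE * WW * P2 ≤ Bc * X2 - Ac * Y2)
    (t3 : EE * WW * P3 ≤ Bd * X3 - Ad * Y3)
    (ht : Ba * EE + Bb * X1 + Bc * X2 + Bd * X3 < Ab * Y1 + Ac * Y2 + Ad * Y3) : False := by
  have h2 : EE * (WW * ta) ≤ EE * Ba := mul_le_mul_of_nonneg_left h1 hE
  have key : EE * WW * (ta + P1 + P2 + P3) = 0 := by rw [hr, mul_zero]
  nlinarith

private lemma close_sum {QQ A B C D' F G d1 d2 d3 d4 d5 d6 : ℝ} (hQ : 0 < QQ)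
    (h1 : (QQ * A) ^ 2 ≤ d1) (h2 : (QQ * B) ^ 2 ≤ d2) (h3 : (QQ * C) ^ 2 ≤ d3)
    (h4 : (QQ * D') ^ 2 ≤ d4) (h5 : (QQ * F) ^ 2 ≤ d5) (h6 : (QQ * G) ^ 2 ≤ d6)
    (hS : 1000 * (d1 + d2 + d3 + d4 + d5 + d6) ≤ 22205 * (QQ * QQ)) :
    A ^ 2 + B ^ 2 + C ^ 2 + D' ^ 2 + F ^ 2 + G ^ 2 ≤ 22205 / 1000 := by
  have hQ2 : 0 < QQ * QQ := mul_pos hQ hQ
  have hsum : (QQ * QQ) * (A ^ 2 + B ^ 2 + C ^ 2 + D' ^ 2 + F ^ 2 + G ^ 2)
      ≤ (QQ * QQ) * (22205 / 1000) := by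
    nlinarith
  exact le_of_mul_le_mul_left hsum hQ2

lemma rPos_false {ta tb tc td cb cc cd : ℝ} {Aa Ab Bb Ac Bc Ad Bd eb ec ed : ℕ}
    (hr : ta + tb * cb + tc * cc + td * cd = 0) (h1 : (Aa : ℝ) ≤ W * ta)
    (hb1 : (Ab : ℝ) ≤ W * tb) (hb2 : (W : ℝ) * tb ≤ Bb) (hb0 : 0 ≤ (W : ℝ) * tb)
    (hc1 : (Ac : ℝ) ≤ W * tc) (hc2 : (W : ℝ) * tc ≤ Bc) (hc0 : 0 ≤ (W : ℝ) * tc)
    (hd1 : (Ad : ℝ) ≤ W * td) (hd2 : (W : ℝ) * td ≤ Bd) (hd0 : 0 ≤ (W : ℝ) * td)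
    (heb : (eb : ℝ) ≤ E * (1 + cb)) (hec : (ec : ℝ) ≤ E * (1 + cc))
    (hed : (ed : ℝ) ≤ E * (1 + cd)) : rPos Aa Ab Bb Ac Bc Ad Bd eb ec ed = false := by
  by_contra hne
  have htrue : rPos Aa Ab Bb Ac Bc Ad Bd eb ec ed = true := by simpa using hne
  simp only [rPos, Nat.blt_eq] at htrue
  have ht : ((Bb * (E - eb) + Bc * (E - ec) + Bd * (E - ed) : ℕ) : ℝ)
      < ((Aa * E + Ab * (eb - E) + Ac * (ec - E) + Ad * (ed - E) : ℕ) : ℝ) := by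
    exact_mod_cast htrue
  rw [Nat.cast_add, Nat.cast_add, Nat.cast_mul, Nat.cast_mul, Nat.cast_mul, Nat.cast_add,
    Nat.cast_add, Nat.cast_add, Nat.cast_mul, Nat.cast_mul, Nat.cast_mul, Nat.cast_mul] at ht
  exact close_pos E_pos.le hr h1 (four_term_lo hb1 hb2 hb0 heb) (four_term_lo hc1 hc2 hc0 hec)
    (four_term_lo hd1 hd2 hd0 hed) ht

lemma rNeg_false {ta tb tc td cb cc cd : ℝ} {Ba Ab Bb Ac Bc Ad Bd eb ec ed : ℕ}
    (hr : ta + tb * cb + tc * cc + td * cd = 0) (h1 : (W : ℝ) * ta ≤ Ba)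
    (hb1 : (Ab : ℝ) ≤ W * tb) (hb2 : (W : ℝ) * tb ≤ Bb) (hb0 : 0 ≤ (W : ℝ) * tb)
    (hc1 : (Ac : ℝ) ≤ W * tc) (hc2 : (W : ℝ) * tc ≤ Bc) (hc0 : 0 ≤ (W : ℝ) * tc)
    (hd1 : (Ad : ℝ) ≤ W * td) (hd2 : (W : ℝ) * td ≤ Bd) (hd0 : 0 ≤ (W : ℝ) * td)
    (heb : (E : ℝ) * (1 + cb) ≤ eb) (hec : (E : ℝ) * (1 + cc) ≤ ec)
    (hed : (E : ℝ) * (1 + cd) ≤ ed) : rNeg Ba Ab Bb Ac Bc Ad Bd eb ec ed = false := by
  by_contra hne
  have htrue : rNeg Ba Ab Bb Ac Bc Ad Bd eb ec ed = true := by simpa using hne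
  simp only [rNeg, Nat.blt_eq] at htrue
  have ht : ((Ba * E + Bb * (eb - E) + Bc * (ec - E) + Bd * (ed - E) : ℕ) : ℝ)
      < ((Ab * (E - eb) + Ac * (E - ec) + Ad * (E - ed) : ℕ) : ℝ) := by
    exact_mod_cast htrue
  rw [Nat.cast_add, Nat.cast_add, Nat.cast_add, Nat.cast_mul, Nat.cast_mul, Nat.cast_mul,
    Nat.cast_mul, Nat.cast_add, Nat.cast_add, Nat.cast_mul, Nat.cast_mul, Nat.cast_mul] at ht
  exact close_neg E_pos.le hr h1 (four_term_hi hb1 hb2 hb0 heb) (four_term_hi hc1 hc2 hc0 hec)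
    (four_term_hi hd1 hd2 hd0 hed) ht

lemma z_up {x y : ℝ} {Bx By : ℕ} (hx0 : 0 ≤ (W : ℝ) * x) (hy0 : 0 ≤ (W : ℝ) * y)
    (hx : (W : ℝ) * x ≤ Bx) (hy : (W : ℝ) * y ≤ By) : x * y * (W2 : ℝ) ≤ ((Bx * By : ℕ) : ℝ) := by
  rw [W2_eq, Nat.cast_mul]
  have : (W : ℝ) * x * ((W : ℝ) * y) ≤ Bx * By := mul_le_mul hx hy hy0 (Nat.cast_nonneg _)
  nlinarith

lemma z_lo {x y : ℝ} {Ax Ay : ℕ} (hy0 : 0 ≤ (W : ℝ) * y)
    (hx : (Ax : ℝ) ≤ (W : ℝ) * x) (hy : (Ay : ℝ) ≤ (W : ℝ) * y) :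
    ((Ax * Ay : ℕ) : ℝ) ≤ x * y * (W2 : ℝ) := by
  rw [W2_eq, Nat.cast_mul]
  have : (Ax : ℝ) * Ay ≤ (W : ℝ) * x * ((W : ℝ) * y) :=
    mul_le_mul hx hy (Nat.cast_nonneg _) (le_trans (Nat.cast_nonneg _) hx)
  nlinarith

lemma rVert_false {T : Tr} (hT : T.All GoodEnt) {ta tb tc td Db Dc Dd : ℝ}
    {Aa Ba Ab Bb Ac Bc Ad Bd : ℕ}
    (hr : ta + tb * cos Db + tc * cos Dc + td * cos Dd = 0)
    (hbD0 : 0 < Db) (hbD1 : Db < π) (hcD0 : 0 < Dc) (hcD1 : Dc < π) (hdD0 : 0 < Dd) (hdD1 : Dd < π)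
    (hzb : ta * tb * sin Db = Db) (hzc : ta * tc * sin Dc = Dc) (hzd : ta * td * sin Dd = Dd)
    (ha1 : (Aa : ℝ) ≤ W * ta) (ha2 : (W : ℝ) * ta ≤ Ba) (ha0 : 0 ≤ (W : ℝ) * ta)
    (hb1 : (Ab : ℝ) ≤ W * tb) (hb2 : (W : ℝ) * tb ≤ Bb) (hb0 : 0 ≤ (W : ℝ) * tb)
    (hc1 : (Ac : ℝ) ≤ W * tc) (hc2 : (W : ℝ) * tc ≤ Bc) (hc0 : 0 ≤ (W : ℝ) * tc)
    (hd1 : (Ad : ℝ) ≤ W * td) (hd2 : (W : ℝ) * td ≤ Bd) (hd0 : 0 ≤ (W : ℝ) * td) :
    rVert T Aa Ba Ab Bb Ac Bc Ad Bd = false := by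
  simp only [rVert, Bool.or_eq_false_iff]
  constructor
  · refine rPos_false hr ha1 hb1 hb2 hb0 hc1 hc2 hc0 hd1 hd2 hd0 ?_ ?_ ?_
    · exact (up_sound T hT hbD0 hbD1 hzb _ (z_up ha0 hb0 ha2 hb2) _ (defUp_fact hbD1)).1
    · exact (up_sound T hT hcD0 hcD1 hzc _ (z_up ha0 hc0 ha2 hc2) _ (defUp_fact hcD1)).1
    · exact (up_sound T hT hdD0 hdD1 hzd _ (z_up ha0 hd0 ha2 hd2) _ (defUp_fact hdD1)).1
  · refine rNeg_false hr ha2 hb1 hb2 hb0 hc1 hc2 hc0 hd1 hd2 hd0 ?_ ?_ ?_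
    · exact lo_sound T hT hbD0 hbD1 hzb _ (z_lo hb0 ha1 hb1) _ (defLo_fact _)
    · exact lo_sound T hT hcD0 hcD1 hzc _ (z_lo hc0 ha1 hc1) _ (defLo_fact _)
    · exact lo_sound T hT hdD0 hdD1 hzd _ (z_lo hd0 ha1 hd1) _ (defLo_fact _)

lemma pair_le_one {x y D : ℝ} {Bx By : ℕ} (hx0 : 0 ≤ (W : ℝ) * x) (hy0 : 0 ≤ (W : ℝ) * y)
    (hx : (W : ℝ) * x ≤ Bx) (hy : (W : ℝ) * y ≤ By) (hD0 : 0 < D) (hD1 : D < π)
    (hz : x * y * sin D = D) : Nat.ble (Bx * By) W2 = false := by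
  by_contra hne
  have htrue : Nat.ble (Bx * By) W2 = true := by simpa using hne
  have h1 : Bx * By ≤ W2 := Nat.le_of_ble_eq_true htrue
  have h2 : ((Bx * By : ℕ) : ℝ) ≤ (W2 : ℝ) := by exact_mod_cast h1
  have h3 := z_up hx0 hy0 hx hy
  have h4 := four_one_lt_mul hD0 hD1 hz
  have hW2 : (0 : ℝ) < (W2 : ℝ) := by norm_num [W2]
  have h5 : 1 * (W2 : ℝ) < x * y * (W2 : ℝ) := mul_lt_mul_of_pos_right h4 hW2
  linarith

lemma dsq_bound {T : Tr} (hT : T.All GoodEnt) {x y D : ℝ} {Bx By : ℕ} (hx0 : 0 ≤ (W : ℝ) * x)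
    (hy0 : 0 ≤ (W : ℝ) * y) (hx : (W : ℝ) * x ≤ Bx) (hy : (W : ℝ) * y ≤ By) (hD0 : 0 < D)
    (hD1 : D < π) (hz : x * y * sin D = D) :
    ((Qs : ℝ) * D) ^ 2 ≤ (dsq T (Bx * By) : ℝ) := by
  have h1 := (up_sound T hT hD0 hD1 hz _ (z_up hx0 hy0 hx hy) _ (defUp_fact hD1)).2
  have h0 : 0 ≤ (Qs : ℝ) * D := mul_nonneg Qs_pos.le hD0.le
  have h2 := pow_le_pow_left₀ h0 h1 2
  simp only [dsq]
  push_cast
  nlinarith

/-- Soundness of the test at one box. -/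
lemma leaf_sound {T : Tr} (hT : T.All GoodEnt) {t₁ t₂ t₃ t₄ D₁₂ D₁₃ D₁₄ D₂₃ D₂₄ D₃₄ : ℝ}
    (h : FourSys t₁ t₂ t₃ t₄ D₁₂ D₁₃ D₁₄ D₂₃ D₂₄ D₃₄) (h12 : t₂ ≤ t₁) (h23 : t₃ ≤ t₂) (h34 : t₄ ≤ t₃)
    {a1 b1 a2 b2 a3 b3 a4 b4 : ℕ}
    (l1 : (a1 : ℝ) ≤ W * t₁) (u1 : (W : ℝ) * t₁ ≤ b1) (l2 : (a2 : ℝ) ≤ W * t₂)
    (u2 : (W : ℝ) * t₂ ≤ b2) (l3 : (a3 : ℝ) ≤ W * t₃) (u3 : (W : ℝ) * t₃ ≤ b3)
    (l4 : (a4 : ℝ) ≤ W * t₄) (u4 : (W : ℝ) * t₄ ≤ b4)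
    (hl : leaf T a1 b1 a2 b2 a3 b3 a4 b4 = true) :
    D₁₂ ^ 2 + D₁₃ ^ 2 + D₁₄ ^ 2 + D₂₃ ^ 2 + D₂₄ ^ 2 + D₃₄ ^ 2 ≤ 22205 / 1000 := by
  have hW := W_pos
  have p1 : 0 ≤ (W : ℝ) * t₁ := mul_nonneg hW.le h.t₁_pos.le
  have p2 : 0 ≤ (W : ℝ) * t₂ := mul_nonneg hW.le h.t₂_pos.le
  have p3 : 0 ≤ (W : ℝ) * t₃ := mul_nonneg hW.le h.t₃_pos.le
  have p4 : 0 ≤ (W : ℝ) * t₄ := mul_nonneg hW.le h.t₄_pos.le
  have s21 : t₂ * t₁ * sin D₁₂ = D₁₂ := by rw [mul_comm t₂]; exact h.s₁₂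
  have s31 : t₃ * t₁ * sin D₁₃ = D₁₃ := by rw [mul_comm t₃]; exact h.s₁₃
  have s32 : t₃ * t₂ * sin D₂₃ = D₂₃ := by rw [mul_comm t₃]; exact h.s₂₃
  have s41 : t₄ * t₁ * sin D₁₄ = D₁₄ := by rw [mul_comm t₄]; exact h.s₁₄
  have s42 : t₄ * t₂ * sin D₂₄ = D₂₄ := by rw [mul_comm t₄]; exact h.s₂₄
  have s43 : t₄ * t₃ * sin D₃₄ = D₃₄ := by rw [mul_comm t₄]; exact h.s₃₄
  -- false branches
  have o1 : Nat.blt b1 a2 = false := by
    by_contra hne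
    have : Nat.blt b1 a2 = true := by simpa using hne
    rw [Nat.blt_eq] at this
    have h3 : (b1 : ℝ) < a2 := by exact_mod_cast this
    have h4 : (W : ℝ) * t₂ ≤ W * t₁ := mul_le_mul_of_nonneg_left h12 hW.le
    linarith
  have o2 : Nat.blt b2 a3 = false := by
    by_contra hne
    have : Nat.blt b2 a3 = true := by simpa using hne
    rw [Nat.blt_eq] at this
    have h3 : (b2 : ℝ) < a3 := by exact_mod_cast this
    have h4 : (W : ℝ) * t₃ ≤ W * t₂ := mul_le_mul_of_nonneg_left h23 hW.le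
    linarith
  have o3 : Nat.blt b3 a4 = false := by
    by_contra hne
    have : Nat.blt b3 a4 = true := by simpa using hne
    rw [Nat.blt_eq] at this
    have h3 : (b3 : ℝ) < a4 := by exact_mod_cast this
    have h4 : (W : ℝ) * t₄ ≤ W * t₃ := mul_le_mul_of_nonneg_left h34 hW.le
    linarith
  have z34 := pair_le_one p3 p4 u3 u4 h.D₃₄_pos h.D₃₄_lt h.s₃₄
  have z24 := pair_le_one p2 p4 u2 u4 h.D₂₄_pos h.D₂₄_lt h.s₂₄
  have z14 := pair_le_one p1 p4 u1 u4 h.D₁₄_pos h.D₁₄_lt h.s₁₄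
  have z23 := pair_le_one p2 p3 u2 u3 h.D₂₃_pos h.D₂₃_lt h.s₂₃
  have z13 := pair_le_one p1 p3 u1 u3 h.D₁₃_pos h.D₁₃_lt h.s₁₃
  have z12 := pair_le_one p1 p2 u1 u2 h.D₁₂_pos h.D₁₂_lt h.s₁₂
  have r1 := rVert_false hT h.r₁ h.D₁₂_pos h.D₁₂_lt h.D₁₃_pos h.D₁₃_lt h.D₁₄_pos h.D₁₄_lt
    h.s₁₂ h.s₁₃ h.s₁₄ l1 u1 p1 l2 u2 p2 l3 u3 p3 l4 u4 p4 (T := T)
  have r2 := rVert_false hT h.r₂ h.D₁₂_pos h.D₁₂_lt h.D₂₃_pos h.D₂₃_lt h.D₂₄_pos h.D₂₄_lt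
    s21 h.s₂₃ h.s₂₄ l2 u2 p2 l1 u1 p1 l3 u3 p3 l4 u4 p4 (T := T)
  have r3 := rVert_false hT h.r₃ h.D₁₃_pos h.D₁₃_lt h.D₂₃_pos h.D₂₃_lt h.D₃₄_pos h.D₃₄_lt
    s31 s32 h.s₃₄ l3 u3 p3 l1 u1 p1 l2 u2 p2 l4 u4 p4 (T := T)
  have r4 := rVert_false hT h.r₄ h.D₁₄_pos h.D₁₄_lt h.D₂₄_pos h.D₂₄_lt h.D₃₄_pos h.D₃₄_lt
    s41 s42 s43 l4 u4 p4 l1 u1 p1 l2 u2 p2 l3 u3 p3 (T := T)
  simp only [leaf, o1, o2, o3, z34, z24, z14, z23, z13, z12, r1, r2, r3, r4, Bool.false_or,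
    Bool.or_false] at hl
  -- only the test on the sum of squares remains
  have hS := Nat.le_of_ble_eq_true hl
  have hSr : ((1000 * (dsq T (b1 * b2) + dsq T (b1 * b3) + dsq T (b1 * b4) + dsq T (b2 * b3)
      + dsq T (b2 * b4) + dsq T (b3 * b4)) : ℕ) : ℝ) ≤ ((22205 * (Qs * Qs) : ℕ) : ℝ) := by
    exact_mod_cast hS
  push_cast at hSr
  have d1 := dsq_bound (T := T) hT p1 p2 u1 u2 h.D₁₂_pos h.D₁₂_lt h.s₁₂
  have d2 := dsq_bound (T := T) hT p1 p3 u1 u3 h.D₁₃_pos h.D₁₃_lt h.s₁₃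
  have d3 := dsq_bound (T := T) hT p1 p4 u1 u4 h.D₁₄_pos h.D₁₄_lt h.s₁₄
  have d4 := dsq_bound (T := T) hT p2 p3 u2 u3 h.D₂₃_pos h.D₂₃_lt h.s₂₃
  have d5 := dsq_bound (T := T) hT p2 p4 u2 u4 h.D₂₄_pos h.D₂₄_lt h.s₂₄
  have d6 := dsq_bound (T := T) hT p3 p4 u3 u4 h.D₃₄_pos h.D₃₄_lt h.s₃₄
  exact close_sum Qs_pos d1 d2 d3 d4 d5 d6 hSr

/-- Soundness of the branch and bound. -/
theorem chk_sound {T : Tr} (hT : T.All GoodEnt) {t₁ t₂ t₃ t₄ D₁₂ D₁₃ D₁₄ D₂₃ D₂₄ D₃₄ : ℝ}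
    (h : FourSys t₁ t₂ t₃ t₄ D₁₂ D₁₃ D₁₄ D₂₃ D₂₄ D₃₄) (h12 : t₂ ≤ t₁) (h23 : t₃ ≤ t₂) (h34 : t₄ ≤ t₃) :
    ∀ (f a1 b1 a2 b2 a3 b3 a4 b4 : ℕ), chk T f a1 b1 a2 b2 a3 b3 a4 b4 = true →
    (a1 : ℝ) ≤ W * t₁ → (W : ℝ) * t₁ ≤ b1 → (a2 : ℝ) ≤ W * t₂ → (W : ℝ) * t₂ ≤ b2 →
    (a3 : ℝ) ≤ W * t₃ → (W : ℝ) * t₃ ≤ b3 → (a4 : ℝ) ≤ W * t₄ → (W : ℝ) * t₄ ≤ b4 →
    D₁₂ ^ 2 + D₁₃ ^ 2 + D₁₄ ^ 2 + D₂₃ ^ 2 + D₂₄ ^ 2 + D₃₄ ^ 2 ≤ 22205 / 1000 := by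
  intro f
  induction f with
  | zero =>
    intro a1 b1 a2 b2 a3 b3 a4 b4 hc
    simp [chk] at hc
  | succ f ih =>
    intro a1 b1 a2 b2 a3 b3 a4 b4 hc l1 u1 l2 u2 l3 u3 l4 u4
    simp only [chk, Bool.or_eq_true] at hc
    rcases hc with hc | hc
    · exact leaf_sound hT h h12 h23 h34 l1 u1 l2 u2 l3 u3 l4 u4 hc
    · -- the split
      have S1 : ∀ m : ℕ, chk T f a1 m a2 b2 a3 b3 a4 b4 = true →
          chk T f m b1 a2 b2 a3 b3 a4 b4 = true →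
          D₁₂ ^ 2 + D₁₃ ^ 2 + D₁₄ ^ 2 + D₂₃ ^ 2 + D₂₄ ^ 2 + D₃₄ ^ 2 ≤ 22205 / 1000 := by
        intro m c1 c2
        rcases le_total ((W : ℝ) * t₁) (m : ℝ) with hm | hm
        · exact ih _ _ _ _ _ _ _ _ c1 l1 hm l2 u2 l3 u3 l4 u4
        · exact ih _ _ _ _ _ _ _ _ c2 hm u1 l2 u2 l3 u3 l4 u4
      have S2 : ∀ m : ℕ, chk T f a1 b1 a2 m a3 b3 a4 b4 = true →
          chk T f a1 b1 m b2 a3 b3 a4 b4 = true →
          D₁₂ ^ 2 + D₁₃ ^ 2 + D₁₄ ^ 2 + D₂₃ ^ 2 + D₂₄ ^ 2 + D₃₄ ^ 2 ≤ 22205 / 1000 := by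
        intro m c1 c2
        rcases le_total ((W : ℝ) * t₂) (m : ℝ) with hm | hm
        · exact ih _ _ _ _ _ _ _ _ c1 l1 u1 l2 hm l3 u3 l4 u4
        · exact ih _ _ _ _ _ _ _ _ c2 l1 u1 hm u2 l3 u3 l4 u4
      have S3 : ∀ m : ℕ, chk T f a1 b1 a2 b2 a3 m a4 b4 = true →
          chk T f a1 b1 a2 b2 m b3 a4 b4 = true →
          D₁₂ ^ 2 + D₁₃ ^ 2 + D₁₄ ^ 2 + D₂₃ ^ 2 + D₂₄ ^ 2 + D₃₄ ^ 2 ≤ 22205 / 1000 := by
        intro m c1 c2
        rcases le_total ((W : ℝ) * t₃) (m : ℝ) with hm | hm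
        · exact ih _ _ _ _ _ _ _ _ c1 l1 u1 l2 u2 l3 hm l4 u4
        · exact ih _ _ _ _ _ _ _ _ c2 l1 u1 l2 u2 hm u3 l4 u4
      have S4 : ∀ m : ℕ, chk T f a1 b1 a2 b2 a3 b3 a4 m = true →
          chk T f a1 b1 a2 b2 a3 b3 m b4 = true →
          D₁₂ ^ 2 + D₁₃ ^ 2 + D₁₄ ^ 2 + D₂₃ ^ 2 + D₂₄ ^ 2 + D₃₄ ^ 2 ≤ 22205 / 1000 := by
        intro m c1 c2
        rcases le_total ((W : ℝ) * t₄) (m : ℝ) with hm | hm
        · exact ih _ _ _ _ _ _ _ _ c1 l1 u1 l2 u2 l3 u3 l4 hm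
        · exact ih _ _ _ _ _ _ _ _ c2 l1 u1 l2 u2 l3 u3 hm u4
      cases c1 : (Nat.ble (b2 - a2) (b1 - a1) && Nat.ble (b3 - a3) (b1 - a1) &&
          Nat.ble (b4 - a4) (b1 - a1)) with
      | true =>
        rw [c1] at hc
        simp only [cond_true, Bool.and_eq_true] at hc
        exact S1 _ hc.1 hc.2
      | false =>
        rw [c1] at hc
        simp only [cond_false] at hc
        cases c2 : (Nat.ble (b3 - a3) (b2 - a2) && Nat.ble (b4 - a4) (b2 - a2)) with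
        | true =>
          rw [c2] at hc
          simp only [cond_true, Bool.and_eq_true] at hc
          exact S2 _ hc.1 hc.2
        | false =>
          rw [c2] at hc
          simp only [cond_false] at hc
          cases c3 : Nat.ble (b4 - a4) (b3 - a3) with
          | true =>
            rw [c3] at hc
            simp only [cond_true, Bool.and_eq_true] at hc
            exact S3 _ hc.1 hc.2
          | false =>
            rw [c3] at hc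
            simp only [cond_false, Bool.and_eq_true] at hc
            exact S4 _ hc.1 hc.2

end Four

end Vale.Agent.Lib.P226
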