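import Mathlib

/-!
Real analysis facts for the cover of the system of four cells: the function `x / sin x` is
increasing on `(0, π)`, exact values of sine and cosine at `2 arctan τ`, two sided bounds for
`arctan`, and elementary inequalities for the terms `t cos D`.
-/

open Real

namespace Vale.Agent.Lib.P226

/-- `sin x / x` is decreasing on `(0, π]`. -/
lemma four_sin_mul_lt {x y : ℝ} (hx : 0 < x) (hxy : x < y) (hy : y ≤ π) :
    x * sin y < y * sin x := by
  have hy0 : 0 < y := hx.trans hxy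
  have hc := strictConcaveOn_sin_Icc
  have h0 : (0 : ℝ) ∈ Set.Icc 0 π := ⟨le_rfl, pi_pos.le⟩
  have h1 : y ∈ Set.Icc 0 π := ⟨hy0.le, hy⟩
  have ha : 0 < x / y := div_pos hx hy0
  have hb : 0 < 1 - x / y := by
    rw [sub_pos, div_lt_one hy0]; exact hxy
  have h2 := hc.2 h1 h0 hy0.ne' ha hb (by ring)
  simp only [smul_eq_mul, sin_zero, mul_zero, add_zero] at h2
  have e : x / y * y = x := by field_simp
  rw [e] at h2
  have h3 : y * (x / y * sin y) < y * sin x := mul_lt_mul_of_pos_left h2 hy0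
  have e2 : y * (x / y * sin y) = x * sin y := by field_simp
  rwa [e2] at h3

/-- Comparison of the solution of `z sin D = D` with a point `d`, lower bound. -/
lemma four_le_of_mul_sin {z D d : ℝ} (hD0 : 0 < D) (hDpi : D < π) (hz : z * sin D = D)
    (hdpi : d < π) (h : d ≤ z * sin d) : d ≤ D := by
  by_contra hlt
  push Not at hlt
  have h1 := four_sin_mul_lt hD0 hlt hdpi.le
  have hs : 0 < sin D := sin_pos_of_pos_of_lt_pi hD0 hDpi
  have h2 : D * sin d = z * sin d * sin D := by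
    nth_rewrite 1 [← hz]; ring
  rw [h2] at h1
  have h3 : z * sin d < d := lt_of_mul_lt_mul_right h1 hs.le
  linarith

/-- Comparison of the solution of `z sin D = D` with a point `d`, upper bound. -/
lemma four_ge_of_mul_sin {z D d : ℝ} (hD0 : 0 < D) (hDpi : D < π) (hz : z * sin D = D)
    (hd0 : 0 < d) (h : z * sin d ≤ d) : D ≤ d := by
  by_contra hlt
  push Not at hlt
  have h1 := four_sin_mul_lt hd0 hlt hDpi.le
  have hs : 0 < sin D := sin_pos_of_pos_of_lt_pi hD0 hDpi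
  have h2 : D * sin d = z * sin d * sin D := by
    nth_rewrite 1 [← hz]; ring
  rw [h2] at h1
  have h3 : d < z * sin d := lt_of_mul_lt_mul_right h1 hs.le
  linarith

lemma four_one_lt_mul {z D : ℝ} (hD0 : 0 < D) (hDpi : D < π) (hz : z * sin D = D) : 1 < z := by
  have hs : 0 < sin D := sin_pos_of_pos_of_lt_pi hD0 hDpi
  have h1 : sin D < D := sin_lt hD0
  by_contra hle
  push Not at hle
  have : z * sin D ≤ 1 * sin D := mul_le_mul_of_nonneg_right hle hs.le
  linarith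

lemma four_sin_two_arctan (τ : ℝ) : sin (2 * arctan τ) = 2 * τ / (1 + τ ^ 2) := by
  rw [sin_two_mul, sin_arctan, cos_arctan]
  have h : 0 < 1 + τ ^ 2 := by positivity
  have h2 : √(1 + τ ^ 2) * √(1 + τ ^ 2) = 1 + τ ^ 2 := mul_self_sqrt h.le
  have h3 : √(1 + τ ^ 2) ≠ 0 := (sqrt_pos.mpr h).ne'
  field_simp
  rw [sq_sqrt h.le]

lemma four_one_add_cos_two_arctan (τ : ℝ) : 1 + cos (2 * arctan τ) = 2 / (1 + τ ^ 2) := by
  rw [cos_two_mul, cos_arctan]
  have h : 0 < 1 + τ ^ 2 := by positivity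
  have h3 : √(1 + τ ^ 2) ≠ 0 := (sqrt_pos.mpr h).ne'
  rw [div_pow, sq_sqrt h.le]
  field_simp
  ring

lemma four_arctan_le {δ : ℝ} (h : 0 ≤ δ) : arctan δ ≤ δ := by
  have h1 : 0 ≤ arctan δ := arctan_nonneg.mpr h
  have h2 := le_tan h1 (arctan_lt_pi_div_two δ)
  rwa [tan_arctan] at h2

lemma four_le_arctan {δ : ℝ} (h : 0 ≤ δ) : δ / (1 + δ ^ 2) ≤ arctan δ := by
  have h1 : 0 ≤ arctan δ := arctan_nonneg.mpr h
  have h2 : sin (2 * arctan δ) ≤ 2 * arctan δ := sin_le (by linarith)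
  rw [four_sin_two_arctan] at h2
  have e : 2 * δ / (1 + δ ^ 2) = 2 * (δ / (1 + δ ^ 2)) := by ring
  rw [e] at h2
  linarith

lemma four_arctan_step {a b : ℝ} (ha : 0 ≤ a) (hab : a ≤ b) :
    arctan b = arctan a + arctan ((b - a) / (1 + a * b)) := by
  have h0 : 0 < 1 + a * b := by nlinarith
  have h1 : a * ((b - a) / (1 + a * b)) < 1 := by
    rw [mul_div_assoc', div_lt_one h0]
    nlinarith [sq_nonneg a]
  rw [arctan_add h1]
  congr 1
  have h2 : 1 - a * ((b - a) / (1 + a * b)) = (1 + a ^ 2) / (1 + a * b) := by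
    field_simp
    ring
  have h3 : a + (b - a) / (1 + a * b) = b * (1 + a ^ 2) / (1 + a * b) := by
    field_simp
    ring
  have h4 : 0 < 1 + a ^ 2 := by positivity
  rw [h2, h3, div_div_div_cancel_right₀ h0.ne', mul_div_assoc, div_self h4.ne', mul_one]

/-- Lower bound of a term `t c`. Truncated subtraction of natural numbers. -/
lemma four_term_lo {t c : ℝ} {A B e E W : ℕ} (hA : (A : ℝ) ≤ W * t) (hB : (W : ℝ) * t ≤ B)
    (ht : 0 ≤ (W : ℝ) * t) (he : (e : ℝ) ≤ E * (1 + c)) :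
    (A : ℝ) * ((e - E : ℕ) : ℝ) - B * ((E - e : ℕ) : ℝ) ≤ E * W * (t * c) := by
  rcases le_total E e with h | h
  · have e1 : ((e - E : ℕ) : ℝ) = (e : ℝ) - E := by rw [Nat.cast_sub h]
    have e2 : ((E - e : ℕ) : ℝ) = 0 := by simp [Nat.sub_eq_zero_of_le h]
    rw [e1, e2]
    have hn : (0 : ℝ) ≤ (e : ℝ) - E := by
      have : (E : ℝ) ≤ e := by exact_mod_cast h
      linarith
    have h1 : (A : ℝ) * ((e : ℝ) - E) ≤ (W * t) * ((e : ℝ) - E) :=
      mul_le_mul_of_nonneg_right hA hn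
    have h2 : (W * t) * ((e : ℝ) - E) ≤ (W * t) * (E * c) :=
      mul_le_mul_of_nonneg_left (by linarith) ht
    have h3 : (W * t) * (E * c) = E * W * (t * c) := by ring
    linarith
  · have e1 : ((e - E : ℕ) : ℝ) = 0 := by simp [Nat.sub_eq_zero_of_le h]
    have e2 : ((E - e : ℕ) : ℝ) = (E : ℝ) - e := by rw [Nat.cast_sub h]
    rw [e1, e2]
    have hn : (0 : ℝ) ≤ (E : ℝ) - e := by
      have : (e : ℝ) ≤ E := by exact_mod_cast h
      linarith
    have h1 : (W * t) * ((E : ℝ) - e) ≤ (B : ℝ) * ((E : ℝ) - e) :=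
      mul_le_mul_of_nonneg_right hB hn
    have h2 : (W * t) * (-((E : ℝ) - e)) ≤ (W * t) * (E * c) :=
      mul_le_mul_of_nonneg_left (by linarith) ht
    have h3 : (W * t) * (E * c) = E * W * (t * c) := by ring
    nlinarith

/-- Upper bound of a term `t c`. Truncated subtraction of natural numbers. -/
lemma four_term_hi {t c : ℝ} {A B e E W : ℕ} (hA : (A : ℝ) ≤ W * t) (hB : (W : ℝ) * t ≤ B)
    (ht : 0 ≤ (W : ℝ) * t) (he : (E : ℝ) * (1 + c) ≤ e) :
    E * W * (t * c) ≤ (B : ℝ) * ((e - E : ℕ) : ℝ) - A * ((E - e : ℕ) : ℝ) := by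
  rcases le_total E e with h | h
  · have e1 : ((e - E : ℕ) : ℝ) = (e : ℝ) - E := by rw [Nat.cast_sub h]
    have e2 : ((E - e : ℕ) : ℝ) = 0 := by simp [Nat.sub_eq_zero_of_le h]
    rw [e1, e2]
    have hn : (0 : ℝ) ≤ (e : ℝ) - E := by
      have : (E : ℝ) ≤ e := by exact_mod_cast h
      linarith
    have h1 : (W * t) * ((e : ℝ) - E) ≤ (B : ℝ) * ((e : ℝ) - E) :=
      mul_le_mul_of_nonneg_right hB hn
    have h2 : (W * t) * (E * c) ≤ (W * t) * ((e : ℝ) - E) :=
      mul_le_mul_of_nonneg_left (by linarith) ht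
    have h3 : (W * t) * (E * c) = E * W * (t * c) := by ring
    linarith
  · have e1 : ((e - E : ℕ) : ℝ) = 0 := by simp [Nat.sub_eq_zero_of_le h]
    have e2 : ((E - e : ℕ) : ℝ) = (E : ℝ) - e := by rw [Nat.cast_sub h]
    rw [e1, e2]
    have hn : (0 : ℝ) ≤ (E : ℝ) - e := by
      have : (e : ℝ) ≤ E := by exact_mod_cast h
      linarith
    have h1 : (A : ℝ) * ((E : ℝ) - e) ≤ (W * t) * ((E : ℝ) - e) :=
      mul_le_mul_of_nonneg_right hA hn
    have h2 : (W * t) * (E * c) ≤ (W * t) * (-((E : ℝ) - e)) :=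
      mul_le_mul_of_nonneg_left (by linarith) ht
    have h3 : (W * t) * (E * c) = E * W * (t * c) := by ring
    nlinarith

end Vale.Agent.Lib.P226
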