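import Vale.Agent.Lib.P226.X.Frame
import Vale.Agent.Lib.P226.X.JForm

/-!
The Gaussian measure of a wedge `{x | 0 ≤ ⟪a, x⟫ ∧ 0 ≤ ⟪b, x⟫}`.
-/

open MeasureTheory ProbabilityTheory Real Set Filter Topology
open scoped RealInnerProductSpace ENNReal NNReal

namespace Vale.Agent.Lib.P226

section Y1

lemma integral_Ioi_mul_exp_scaled (c : ℝ) (hc : 0 < c) :
    ∫ g in Ioi (0 : ℝ), g * rexp (-(c * g ^ 2 / 2)) = 1 / c := by
  have hderiv : ∀ x ∈ Ioi (0 : ℝ), HasDerivAt (fun y : ℝ => -rexp (-(c * y ^ 2 / 2)) / c)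
      (x * rexp (-(c * x ^ 2 / 2))) x := by
    intro x _
    have h1 : HasDerivAt (fun y : ℝ => -(c * y ^ 2 / 2)) (-(c * x)) x := by
      have := (((hasDerivAt_pow 2 x).const_mul c).div_const 2).neg
      refine this.congr_deriv ?_
      push_cast
      ring
    have h2 := (h1.exp.neg).div_const c
    refine h2.congr_deriv ?_
    field_simp
  have hlim : Tendsto (fun y : ℝ => -rexp (-(c * y ^ 2 / 2)) / c) atTop (𝓝 0) := by
    have h1 : Tendsto (fun y : ℝ => c * y ^ 2 / 2) atTop atTop :=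
      ((tendsto_pow_atTop (by norm_num)).const_mul_atTop hc).atTop_div_const (by norm_num)
    have h2 := ((Real.tendsto_exp_neg_atTop_nhds_zero.comp h1).neg).div_const c
    simpa using h2
  have hcont : ContinuousWithinAt (fun y : ℝ => -rexp (-(c * y ^ 2 / 2)) / c) (Ici 0) 0 :=
    Continuous.continuousWithinAt (by fun_prop)
  have hint : IntegrableOn (fun g : ℝ => g * rexp (-(c * g ^ 2 / 2))) (Ioi 0) := by
    have h := integrable_mul_exp_neg_mul_sq (b := c / 2) (by positivity)
    refine (h.congr (Eventually.of_forall fun y => ?_)).integrableOn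
    simp only
    congr 2
    ring
  have := integral_Ioi_of_hasDerivAt_of_tendsto hcont hderiv hint hlim
  rw [this]
  simp only [ne_eq, OfNat.ofNat_ne_zero, not_false_eq_true, zero_pow, mul_zero, zero_div, neg_zero,
    exp_zero]
  field_simp
  ring

lemma integrable_mul_phi : Integrable (fun g : ℝ => g * phi g) := by
  have h : Integrable (fun g => cG * (g * rexp (-(g ^ 2 / 2)))) :=
    integrable_mul_gauss.const_mul _
  refine h.congr (Eventually.of_forall fun g => ?_)
  simp only [phi]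
  ring

/-- The function `T`. -/
noncomputable def wedgeT (κ : ℝ) : ℝ := ∫ g in Ioi (0 : ℝ), Qf (-(κ * g)) * phi g

lemma integrable_Qf_phi (κ : ℝ) : Integrable (fun g : ℝ => Qf (-(κ * g)) * phi g) := by
  refine integrable_phi.bdd_mul (c := 1) ?_ ?_
  · exact (continuous_Qf.comp (by fun_prop)).aestronglyMeasurable
  · refine ae_of_all _ fun g => ?_
    rw [Real.norm_of_nonneg (Qf_nonneg _)]
    exact Qf_le_one _

lemma hasDerivAt_wedgeT (κ₀ : ℝ) : HasDerivAt wedgeT (cG ^ 2 * (1 / (1 + κ₀ ^ 2))) κ₀ := by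
  have hmain := hasDerivAt_integral_of_dominated_loc_of_deriv_le
    (μ := volume.restrict (Ioi (0 : ℝ))) (s := univ) (x₀ := κ₀)
    (F := fun κ g => Qf (-(κ * g)) * phi g)
    (F' := fun κ g => g * phi (κ * g) * phi g)
    (bound := fun g => cG * (|g| * phi g)) Filter.univ_mem
    (Eventually.of_forall fun κ => (integrable_Qf_phi κ).aestronglyMeasurable.restrict)
    (integrable_Qf_phi κ₀).integrableOn
    (Continuous.aestronglyMeasurable (by
      have := continuous_phi
      fun_prop))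
    (ae_of_all _ fun g κ _ => by
      rw [Real.norm_eq_abs, abs_mul, abs_mul, abs_of_nonneg (phi_nonneg _),
        abs_of_nonneg (phi_nonneg _)]
      have h1 := phi_le (κ * g)
      have h2 := phi_nonneg g
      have h3 : |g| * phi (κ * g) ≤ |g| * cG := mul_le_mul_of_nonneg_left h1 (abs_nonneg _)
      calc |g| * phi (κ * g) * phi g ≤ |g| * cG * phi g := mul_le_mul_of_nonneg_right h3 h2
        _ = cG * (|g| * phi g) := by ring)
    (by
      have h := (integrable_mul_phi.norm).const_mul cG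
      refine h.integrableOn.congr (ae_of_all _ fun g => ?_)
      simp only [Real.norm_eq_abs, abs_mul, abs_of_nonneg (phi_nonneg _)])
    (ae_of_all _ fun g κ _ => by
      have h1 : HasDerivAt (fun κ : ℝ => -(κ * g)) (-g) κ := by
        have := ((hasDerivAt_id' κ).mul_const g).fun_neg
        rwa [one_mul] at this
      have h2 := (hasDerivAt_Qf (-(κ * g))).comp κ h1
      have h3 := h2.mul_const (phi g)
      refine h3.congr_deriv ?_
      have e : phi (-(κ * g)) = phi (κ * g) := by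
        unfold phi
        congr 2
        ring
      rw [e]
      ring)
  have hval : ∫ g in Ioi (0 : ℝ), g * phi (κ₀ * g) * phi g = cG ^ 2 * (1 / (1 + κ₀ ^ 2)) := by
    have e : ∀ g : ℝ, g * phi (κ₀ * g) * phi g =
        cG ^ 2 * (g * rexp (-((1 + κ₀ ^ 2) * g ^ 2 / 2))) := by
      intro g
      unfold phi
      have : rexp (-((1 + κ₀ ^ 2) * g ^ 2 / 2)) = rexp (-((κ₀ * g) ^ 2 / 2)) * rexp (-(g ^ 2 / 2)) := by
        rw [← exp_add]
        congr 1
        ring
      rw [this]
      ring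
    simp_rw [e]
    rw [integral_const_mul, integral_Ioi_mul_exp_scaled _ (by positivity)]
  rw [← hval]
  exact hmain.2

theorem wedgeT_eq (κ : ℝ) : wedgeT κ = 1 / 4 + arctan κ / (2 * π) := by
  have hpi := Real.pi_pos
  have hconst : ∀ x y : ℝ, (fun κ => wedgeT κ - arctan κ / (2 * π)) x =
      (fun κ => wedgeT κ - arctan κ / (2 * π)) y := by
    have hd : ∀ x : ℝ, HasDerivAt (fun κ => wedgeT κ - arctan κ / (2 * π)) 0 x := by
      intro x
      have h1 := hasDerivAt_wedgeT x
      have h2 := (Real.hasDerivAt_arctan x).div_const (2 * π)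
      have h3 := h1.sub h2
      refine h3.congr_deriv ?_
      rw [one_div_two_pi_eq]
      field_simp
      ring
    exact is_const_of_deriv_eq_zero (fun x => (hd x).differentiableAt) (fun x => (hd x).deriv)
  have h0 := hconst κ 0
  simp only [arctan_zero, zero_div, sub_zero] at h0
  have h00 : wedgeT 0 = 1 / 4 := by
    unfold wedgeT
    simp only [zero_mul, neg_zero]
    rw [integral_const_mul]
    have : ∫ g in Ioi (0 : ℝ), phi g = Qf 0 := rfl
    rw [this, Qf_zero]
    norm_num
  rw [h00] at h0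
  linarith

end Y1

variable {E : Type*} [NormedAddCommGroup E] [InnerProductSpace ℝ E] [FiniteDimensional ℝ E]
  [MeasurableSpace E] [BorelSpace E]

/-- Split in the other order. -/
lemma integral_split' (e : E) (he : ‖e‖ = 1) (f : E → ℝ) (hf : Integrable f (stdGaussian E)) :
    ∫ x, f x ∂(stdGaussian E) =
      ∫ t, ∫ y, f (splitMap e (t, y)) ∂(stdGaussian E) ∂(gaussianReal 0 1) := by
  have hmap := map_splitMap e he
  have hs : AEStronglyMeasurable f
      (((gaussianReal 0 1).prod (stdGaussian E)).map (splitMap e)) := by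
    rw [hmap]; exact hf.aestronglyMeasurable
  have h1 : ∫ x, f x ∂(stdGaussian E) =
      ∫ x, f x ∂(((gaussianReal 0 1).prod (stdGaussian E)).map (splitMap e)) := by
    rw [hmap]
  rw [h1, integral_map (measurable_splitMap e).aemeasurable hs]
  have hi : Integrable (fun p => f (splitMap e p)) ((gaussianReal 0 1).prod (stdGaussian E)) := by
    have h2 : Integrable f (((gaussianReal 0 1).prod (stdGaussian E)).map (splitMap e)) := by
      rw [hmap]; exact hf
    exact (integrable_map_measure hs (measurable_splitMap e).aemeasurable).mp h2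
  exact integral_prod _ hi

/-- Tail of a unit linear form. -/
lemma real_inner_ge (f : E) (hf : ‖f‖ = 1) (u : ℝ) :
    (stdGaussian E).real {y | u ≤ ⟪f, y⟫} = Qf u := by
  have h1 : (stdGaussian E).real {y | u ≤ ⟪f, y⟫} = (gaussianReal 0 1).real (Ici u) := by
    unfold Measure.real
    have := stdGaussian_inner_unit f hf (Ici u) measurableSet_Ici
    simp only [mem_Ici] at this
    rw [this]
  have h2 : (gaussianReal 0 1).real (Ici u) = (gaussianReal 0 1).real (Ioi u) := by
    apply measureReal_congr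
    filter_upwards [ae_ne_gauss u] with g hg
    apply propext
    show u ≤ g ↔ u < g
    exact ⟨fun h => lt_of_le_of_ne h hg.symm, le_of_lt⟩
  have h3 := gauss_indicator u (fun _ => (1 : ℝ))
  have h4 : ∫ g, (Ioi u).indicator (fun _ => (1 : ℝ)) g ∂(gaussianReal 0 1) =
      (gaussianReal 0 1).real (Ioi u) := integral_indicator_one measurableSet_Ioi
  rw [h1, h2, ← h4, h3]
  simp [Qf]

/-- The Gaussian measure of a wedge between two unit normals. -/
theorem orthant_unit (a b : E) (ha : ‖a‖ = 1) (hb : ‖b‖ = 1) (hρ : |⟪a, b⟫| < 1) :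
    (stdGaussian E).real {x | 0 ≤ ⟪a, x⟫ ∧ 0 ≤ ⟪b, x⟫} = 1 / 4 + arcsin ⟪a, b⟫ / (2 * π) := by
  set ρ : ℝ := ⟪a, b⟫ with hρdef
  have hρ2 : 0 < 1 - ρ ^ 2 := by
    have := abs_lt.1 hρ
    nlinarith
  set s : ℝ := √(1 - ρ ^ 2) with hs
  have hspos : 0 < s := Real.sqrt_pos.2 hρ2
  have hs2 : s ^ 2 = 1 - ρ ^ 2 := Real.sq_sqrt hρ2.le
  set f : E := (1 / s) • (b - ρ • a) with hf
  have haa : ⟪a, a⟫ = 1 := by rw [real_inner_self_eq_norm_sq, ha]; norm_num
  have hbb : ⟪b, b⟫ = 1 := by rw [real_inner_self_eq_norm_sq, hb]; norm_num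
  have hfa : ⟪f, a⟫ = 0 := by
    rw [hf, inner_smul_left, inner_sub_left, inner_smul_left, haa, real_inner_comm a b, ← hρdef]
    simp
  have hff : ‖f‖ = 1 := by
    have h1 : ‖f‖ ^ 2 = 1 := by
      rw [← real_inner_self_eq_norm_sq, hf, inner_smul_left, inner_smul_right, inner_sub_left,
        inner_sub_right, inner_sub_right, inner_smul_left, inner_smul_left, inner_smul_right,
        inner_smul_right, haa, hbb, real_inner_comm a b, ← hρdef]
      simp only [conj_trivial]
      field_simp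
      nlinarith
    have h2 : 0 ≤ ‖f‖ := norm_nonneg _
    nlinarith
  have hb_eq : ∀ x : E, ⟪b, x⟫ = ρ * ⟪a, x⟫ + s * ⟪f, x⟫ := by
    intro x
    rw [hf, inner_smul_left, inner_sub_left, inner_smul_left]
    simp only [conj_trivial]
    field_simp
    ring
  set κ : ℝ := ρ / s with hκ
  set A : Set E := {x | 0 ≤ ⟪a, x⟫ ∧ 0 ≤ ⟪b, x⟫} with hA
  have hma : Measurable fun x : E => ⟪a, x⟫ := by fun_prop
  have hmb : Measurable fun x : E => ⟪b, x⟫ := by fun_prop
  have hmf : Measurable fun x : E => ⟪f, x⟫ := by fun_prop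
  have hAm : MeasurableSet A :=
    (measurableSet_le measurable_const hma).inter (measurableSet_le measurable_const hmb)
  have hint : Integrable (A.indicator (fun _ => (1 : ℝ))) (stdGaussian E) :=
    (integrable_const _).indicator hAm
  have h1 : (stdGaussian E).real A = ∫ x, A.indicator (fun _ => (1 : ℝ)) x ∂(stdGaussian E) :=
    (integral_indicator_one hAm).symm
  rw [h1, integral_split' a ha _ hint]
  have hin : ∀ t : ℝ, ∫ y, A.indicator (fun _ => (1 : ℝ)) (splitMap a (t, y)) ∂(stdGaussian E) =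
      (Ici (0 : ℝ)).indicator (fun t => Qf (-(κ * t))) t := by
    intro t
    have hmem : ∀ y : E, splitMap a (t, y) ∈ A ↔ 0 ≤ t ∧ -(κ * t) ≤ ⟪f, y⟫ := by
      intro y
      have e1 : ⟪a, splitMap a (t, y)⟫ = t := inner_e_splitMap a ha t y
      have e2 : ⟪f, splitMap a (t, y)⟫ = ⟪f, y⟫ := by
        rw [inner_splitMap, hfa]
        ring
      show 0 ≤ ⟪a, splitMap a (t, y)⟫ ∧ 0 ≤ ⟪b, splitMap a (t, y)⟫ ↔ _
      rw [hb_eq, e1, e2]
      have e3 : ρ * t + s * ⟪f, y⟫ = s * (κ * t + ⟪f, y⟫) := by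
        rw [hκ]
        field_simp
      rw [e3, mul_nonneg_iff_of_pos_left hspos]
      constructor
      · rintro ⟨h1, h2⟩
        exact ⟨h1, by linarith⟩
      · rintro ⟨h1, h2⟩
        exact ⟨h1, by linarith⟩
    by_cases ht : 0 ≤ t
    · rw [indicator_of_mem (show t ∈ Ici (0 : ℝ) from ht), ← real_inner_ge f hff,
        ← integral_indicator_one (measurableSet_le measurable_const hmf)]
      apply integral_congr_ae
      refine ae_of_all _ fun y => ?_
      show A.indicator (fun _ => (1 : ℝ)) (splitMap a (t, y)) = _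
      by_cases hy : -(κ * t) ≤ ⟪f, y⟫
      · rw [indicator_of_mem ((hmem y).2 ⟨ht, hy⟩), indicator_of_mem (show y ∈ _ from hy)]
        rfl
      · rw [indicator_of_notMem (fun h => hy ((hmem y).1 h).2),
          indicator_of_notMem (show y ∉ _ from hy)]
    · rw [indicator_of_notMem (show t ∉ Ici (0 : ℝ) from ht)]
      have : ∀ y : E, A.indicator (fun _ => (1 : ℝ)) (splitMap a (t, y)) = 0 := fun y =>
        indicator_of_notMem (fun h => ht ((hmem y).1 h).1) _
      simp [this]
  simp_rw [hin]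
  have hic : (Ici (0 : ℝ)).indicator (fun t => Qf (-(κ * t))) =ᵐ[gaussianReal 0 1]
      (Ioi (0 : ℝ)).indicator (fun t => Qf (-(κ * t))) := by
    filter_upwards [ae_ne_gauss 0] with g hg
    by_cases h0 : 0 < g
    · rw [indicator_of_mem (show g ∈ Ici (0 : ℝ) from h0.le),
        indicator_of_mem (show g ∈ Ioi (0 : ℝ) from h0)]
    · have h0' : g < 0 := lt_of_le_of_ne (not_lt.1 h0) hg
      rw [indicator_of_notMem (show g ∉ Ici (0 : ℝ) from not_le.2 h0'),
        indicator_of_notMem (show g ∉ Ioi (0 : ℝ) from h0)]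
  rw [integral_congr_ae hic, gauss_indicator]
  have hT := wedgeT_eq κ
  unfold wedgeT at hT
  rw [hT]
  have hρ' : ρ ∈ Ioo (-(1 : ℝ)) 1 := abs_lt.1 hρ
  rw [Real.arcsin_eq_arctan hρ', hκ, hs]

/-- The Gaussian measure of a wedge, general normals. -/
theorem orthant_prob (a b : E) (ha : a ≠ 0) (hb : b ≠ 0)
    (hind : ⟪a, b⟫ ^ 2 < ‖a‖ ^ 2 * ‖b‖ ^ 2) :
    (stdGaussian E).real {x | 0 ≤ ⟪a, x⟫ ∧ 0 ≤ ⟪b, x⟫} =
      1 / 4 + arcsin (⟪a, b⟫ / (‖a‖ * ‖b‖)) / (2 * π) := by
  have hna : 0 < ‖a‖ := norm_pos_iff.2 ha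
  have hnb : 0 < ‖b‖ := norm_pos_iff.2 hb
  have h1 := orthant_unit (‖a‖⁻¹ • a) (‖b‖⁻¹ • b) (by rw [norm_smul, norm_inv, norm_norm]; field_simp)
    (by rw [norm_smul, norm_inv, norm_norm]; field_simp) (by
      rw [inner_smul_left, inner_smul_right]
      simp only [conj_trivial]
      rw [abs_lt]
      have h2 : |⟪a, b⟫| < ‖a‖ * ‖b‖ := by
        apply abs_lt_of_sq_lt_sq _ (by positivity)
        rw [mul_pow]
        exact hind
      have h3 := abs_lt.1 h2
      constructor
      · have : -1 * (‖a‖ * ‖b‖) < ⟪a, b⟫ := by linarith [h3.1]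
        have e : ‖a‖⁻¹ * (‖b‖⁻¹ * ⟪a, b⟫) = ⟪a, b⟫ / (‖a‖ * ‖b‖) := by
          field_simp
        rw [e, lt_div_iff₀ (by positivity)]
        exact this
      · have e : ‖a‖⁻¹ * (‖b‖⁻¹ * ⟪a, b⟫) = ⟪a, b⟫ / (‖a‖ * ‖b‖) := by
          field_simp
        rw [e, div_lt_iff₀ (by positivity)]
        linarith [h3.2])
  have e : ⟪‖a‖⁻¹ • a, ‖b‖⁻¹ • b⟫ = ⟪a, b⟫ / (‖a‖ * ‖b‖) := by
    rw [inner_smul_left, inner_smul_right]
    simp only [conj_trivial]
    field_simp
  rw [e] at h1
  rw [← h1]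
  congr 1
  ext x
  simp only [mem_ofPred_eq, inner_smul_left, conj_trivial]
  have h2 : 0 < ‖a‖⁻¹ := by positivity
  have h3 : 0 < ‖b‖⁻¹ := by positivity
  rw [mul_nonneg_iff_of_pos_left h2, mul_nonneg_iff_of_pos_left h3]

end Vale.Agent.Lib.P226
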