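import Vale.Agent.Lib.P226.Y.Crit4

/-!
The propeller bound for partitions into at most four cells, unconditionally.
-/

open MeasureTheory ProbabilityTheory Real Set Filter
open scoped RealInnerProductSpace ENNReal

namespace Vale.Agent.Lib.P226.Y

variable {E : Type*} [NormedAddCommGroup E] [InnerProductSpace ℝ E] [FiniteDimensional ℝ E]
  [MeasurableSpace E] [BorelSpace E]

/-- Every partition into at most four cells has energy at most `9 / (8 π)`. -/
theorem pb_four : PB E 4 := by
  intro S hS A hA
  by_cases h3 : S.card ≤ 3
  · exact pb_three S h3 A hA
  · have hc : S.card = 4 := by omega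
    by_contra hF
    push Not at hF
    obtain ⟨u, hu⟩ := exists_crit (n := 3) (by norm_num) pb_three (by omega : S.card = 3 + 1) hA hF
    exact crit_four_false hc hu

end Vale.Agent.Lib.P226.Y
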