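import Vale.Agent.Lib.P226.Y.Three
import Vale.Agent.Lib.P226.X.Stein

/-!
The Gaussian measure of the intersection of two half-spaces.
-/

open MeasureTheory ProbabilityTheory Real Set Filter
open scoped RealInnerProductSpace ENNReal

namespace Vale.Agent.Lib.P226.Y

variable {E : Type*} [NormedAddCommGroup E] [InnerProductSpace ℝ E] [FiniteDimensional ℝ E]
  [MeasurableSpace E] [BorelSpace E]

/-- The set in the plane. -/
def planeSet (θ : ℝ) : Set (ℝ × ℝ) := {p | 0 < p.1 ∧ 0 < cos θ * p.1 + sin θ * p.2}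

lemma measurableSet_planeSet (θ : ℝ) : MeasurableSet (planeSet θ) := by
  have h1 : MeasurableSet {p : ℝ × ℝ | 0 < p.1} := measurableSet_lt measurable_const measurable_fst
  have h2 : MeasurableSet {p : ℝ × ℝ | 0 < cos θ * p.1 + sin θ * p.2} :=
    measurableSet_lt measurable_const (by fun_prop)
  exact h1.inter h2

lemma polar_mem_planeSet {θ : ℝ} (h0 : 0 < θ) (hπ : θ < π) {r ψ : ℝ} (hr : 0 < r)
    (h1 : -π < ψ) (h2 : ψ < π) :
    (r * cos ψ, r * sin ψ) ∈ planeSet θ ↔ ψ ∈ Ioo (θ - π / 2) (π / 2) := by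
  have hcos : cos θ * (r * cos ψ) + sin θ * (r * sin ψ) = r * cos (ψ - θ) := by
    rw [cos_sub]; ring
  simp only [planeSet, mem_ofPred_eq, hcos]
  rw [mul_pos_iff_of_pos_left hr, mul_pos_iff_of_pos_left hr]
  have hpi := Real.pi_pos
  constructor
  · rintro ⟨h3, h4⟩
    have hlo : -(π / 2) < ψ := by
      by_contra hc
      push Not at hc
      have h5 : cos (-ψ) ≤ 0 := cos_nonpos_of_pi_div_two_le_of_le (by linarith) (by linarith)
      rw [cos_neg] at h5
      linarith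
    constructor
    · by_contra hc
      push Not at hc
      have h5 : cos (θ - ψ) ≤ 0 := cos_nonpos_of_pi_div_two_le_of_le (by linarith) (by linarith)
      rw [← cos_neg] at h4
      have h6 : -(ψ - θ) = θ - ψ := by ring
      rw [h6] at h4
      linarith
    · by_contra hc
      push Not at hc
      have h5 : cos ψ ≤ 0 := cos_nonpos_of_pi_div_two_le_of_le hc (by linarith)
      linarith
  · rintro ⟨h3, h4⟩
    constructor
    · exact cos_pos_of_mem_Ioo ⟨by linarith, h4⟩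
    · exact cos_pos_of_mem_Ioo ⟨by linarith, by linarith⟩

/-- The integral over the sector in the plane. -/
lemma integral_plane_sector {θ : ℝ} (h0 : 0 < θ) (hπ : θ < π) :
    ∫ p : ℝ × ℝ, (planeSet θ).indicator
      (fun p => cG * rexp (-(p.1 ^ 2 / 2)) * (cG * rexp (-(p.2 ^ 2 / 2)))) p = (π - θ) / (2 * π) := by
  rw [← integral_comp_polarCoord_symm]
  have htarget : polarCoord.target = Ioi (0 : ℝ) ×ˢ Ioo (-π) π := polarCoord_target
  rw [htarget]
  have hcongr : ∫ p in Ioi (0 : ℝ) ×ˢ Ioo (-π) π, p.1 • (planeSet θ).indicator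
      (fun p => cG * rexp (-(p.1 ^ 2 / 2)) * (cG * rexp (-(p.2 ^ 2 / 2)))) (polarCoord.symm p) =
      ∫ p in Ioi (0 : ℝ) ×ˢ Ioo (-π) π,
        (p.1 * (cG ^ 2 * rexp (-(p.1 ^ 2 / 2)))) *
          (Ioo (θ - π / 2) (π / 2)).indicator (fun _ => (1 : ℝ)) p.2 := by
    apply setIntegral_congr_fun (measurableSet_Ioi.prod measurableSet_Ioo)
    rintro ⟨r, ψ⟩ ⟨hr, hψ⟩
    simp only [mem_Ioi, mem_Ioo] at hr hψ
    have hsymm : polarCoord.symm (r, ψ) = (r * cos ψ, r * sin ψ) := by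
      simp [polarCoord]
    simp only [hsymm, smul_eq_mul]
    by_cases hm : ψ ∈ Ioo (θ - π / 2) (π / 2)
    · have hm2 := (polar_mem_planeSet h0 hπ hr hψ.1 hψ.2).mpr hm
      rw [indicator_of_mem hm2, indicator_of_mem hm]
      have h3 : rexp (-((r * cos ψ) ^ 2 / 2)) * rexp (-((r * sin ψ) ^ 2 / 2)) = rexp (-(r ^ 2 / 2)) := by
        rw [← Real.exp_add]
        congr 1
        have := Real.sin_sq_add_cos_sq ψ
        have h5 : (r * cos ψ) ^ 2 + (r * sin ψ) ^ 2 = r ^ 2 * (sin ψ ^ 2 + cos ψ ^ 2) := by ring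
        rw [this, mul_one] at h5
        linarith
      calc r * (cG * rexp (-((r * cos ψ) ^ 2 / 2)) * (cG * rexp (-((r * sin ψ) ^ 2 / 2))))
          = r * (cG ^ 2 * (rexp (-((r * cos ψ) ^ 2 / 2)) * rexp (-((r * sin ψ) ^ 2 / 2)))) := by ring
        _ = _ := by rw [h3]; ring
    · have hm2 : (r * cos ψ, r * sin ψ) ∉ planeSet θ :=
        fun hc => hm ((polar_mem_planeSet h0 hπ hr hψ.1 hψ.2).mp hc)
      rw [indicator_of_notMem hm2, indicator_of_notMem hm]
      ring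
  rw [hcongr]
  have hprod := setIntegral_prod_mul (μ := (volume : Measure ℝ)) (ν := (volume : Measure ℝ))
    (fun r : ℝ => r * (cG ^ 2 * rexp (-(r ^ 2 / 2))))
    (fun ψ : ℝ => (Ioo (θ - π / 2) (π / 2)).indicator (fun _ => (1 : ℝ)) ψ)
    (Ioi (0 : ℝ)) (Ioo (-π) π)
  have hvol : (volume : Measure (ℝ × ℝ)) = (volume : Measure ℝ).prod volume := rfl
  rw [hvol, hprod]
  have h1 : ∫ r in Ioi (0 : ℝ), r * (cG ^ 2 * rexp (-(r ^ 2 / 2))) = cG ^ 2 := by
    have h2 : ∀ r : ℝ, r * (cG ^ 2 * rexp (-(r ^ 2 / 2))) = cG ^ 2 * (r * rexp (-(r ^ 2 / 2))) := by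
      intro r; ring
    simp_rw [h2]
    rw [integral_const_mul, integral_Ioi_mul_gauss]
    simp
  have hpi := Real.pi_pos
  have h3 : ∫ ψ in Ioo (-π) π, (Ioo (θ - π / 2) (π / 2)).indicator (fun _ => (1 : ℝ)) ψ = π - θ := by
    rw [setIntegral_indicator measurableSet_Ioo]
    have h4 : Ioo (-π) π ∩ Ioo (θ - π / 2) (π / 2) = Ioo (θ - π / 2) (π / 2) := by
      apply inter_eq_right.mpr
      intro x hx
      exact ⟨by linarith [hx.1], by linarith [hx.2]⟩
    rw [h4, setIntegral_const]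
    simp only [smul_eq_mul, mul_one, measureReal_def, Real.volume_Ioo]
    rw [ENNReal.toReal_ofReal (by linarith)]
    ring
  rw [h1, h3, cG_sq]
  field_simp

/-- The law of two independent coordinates, applied to the sector. -/
lemma prod_real_planeSet {θ : ℝ} (h0 : 0 < θ) (hπ : θ < π) :
    ((gaussianReal 0 1).prod (gaussianReal 0 1)).real (planeSet θ) = (π - θ) / (2 * π) := by
  have hB := measurableSet_planeSet θ
  rw [← integral_plane_sector h0 hπ, ← integral_indicator_one hB]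
  have hint1 : Integrable ((planeSet θ).indicator (fun _ => (1 : ℝ)))
      ((gaussianReal 0 1).prod (gaussianReal 0 1)) :=
    (integrable_const (1 : ℝ)).indicator hB
  have e0 : ((planeSet θ).indicator (1 : ℝ × ℝ → ℝ)) = (planeSet θ).indicator (fun _ => (1 : ℝ)) := rfl
  rw [e0, integral_prod _ hint1]
  have hφ : Integrable (fun p : ℝ × ℝ => cG * rexp (-(p.1 ^ 2 / 2)) * (cG * rexp (-(p.2 ^ 2 / 2)))) :=
    Integrable.mul_prod (f := fun x : ℝ => cG * rexp (-(x ^ 2 / 2)))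
      (g := fun x : ℝ => cG * rexp (-(x ^ 2 / 2))) (integrable_gauss.const_mul cG)
      (integrable_gauss.const_mul cG)
  have hint2 := hφ.indicator hB
  have hvol : (volume : Measure (ℝ × ℝ)) = (volume : Measure ℝ).prod volume := rfl
  rw [hvol, integral_prod _ (by rw [← hvol]; exact hint2)]
  rw [integral_gaussianReal_eq_integral_smul (by norm_num)]
  apply integral_congr_ae
  refine Eventually.of_forall fun x => ?_
  simp only [smul_eq_mul]
  rw [integral_gaussianReal_eq_integral_smul (by norm_num), ← integral_const_mul]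
  apply integral_congr_ae
  refine Eventually.of_forall fun y => ?_
  simp only [smul_eq_mul, gaussianPDFReal_01]
  by_cases hm : (x, y) ∈ planeSet θ
  · rw [indicator_of_mem hm, indicator_of_mem hm]
    ring
  · rw [indicator_of_notMem hm, indicator_of_notMem hm]
    ring

/-- Two orthonormal coordinates are independent standard Gaussians. -/
lemma real_two_coords (e₁ e₂ : E) (he₁ : ‖e₁‖ = 1) (he₂ : ‖e₂‖ = 1) (h12 : ⟪e₁, e₂⟫ = 0)
    (B : Set (ℝ × ℝ)) (hB : MeasurableSet B) :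
    (stdGaussian E).real {x | (⟪e₁, x⟫, ⟪e₂, x⟫) ∈ B} =
      ((gaussianReal 0 1).prod (gaussianReal 0 1)).real B := by
  have hS : MeasurableSet {x : E | (⟪e₁, x⟫, ⟪e₂, x⟫) ∈ B} := by
    have : Measurable (fun x : E => (⟪e₁, x⟫, ⟪e₂, x⟫)) := by fun_prop
    exact this hB
  have hmapℓ : (stdGaussian E).map (fun y : E => ⟪e₂, y⟫) = gaussianReal 0 1 := by
    have := map_inner_unit e₂ he₂
    exact this
  have hm : Measurable (Prod.map id (fun y : E => ⟪e₂, y⟫) : ℝ × E → ℝ × ℝ) := by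
    apply Measurable.prodMap measurable_id
    fun_prop
  have h1 : stdGaussian E {x | (⟪e₁, x⟫, ⟪e₂, x⟫) ∈ B} =
      ((gaussianReal 0 1).prod (gaussianReal 0 1)) B := by
    conv_lhs => rw [← map_splitMap e₁ he₁]
    rw [Measure.map_apply (measurable_splitMap e₁) hS]
    have hpre : splitMap e₁ ⁻¹' {x : E | (⟪e₁, x⟫, ⟪e₂, x⟫) ∈ B} =
        (Prod.map id (fun y : E => ⟪e₂, y⟫)) ⁻¹' B := by
      ext ⟨g, y⟩
      simp only [mem_preimage, mem_ofPred_eq, Prod.map_apply, id_eq]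
      rw [inner_e_splitMap e₁ he₁, inner_splitMap]
      have h3 : ⟪e₂, e₁⟫ = 0 := by rw [real_inner_comm]; exact h12
      rw [h3]
      simp
    rw [hpre, ← Measure.map_apply hm hB]
    have h4 : ((gaussianReal 0 1).prod (stdGaussian E)).map (Prod.map id (fun y : E => ⟪e₂, y⟫)) =
        ((gaussianReal 0 1).map id).prod ((stdGaussian E).map (fun y : E => ⟪e₂, y⟫)) :=
      (Measure.map_prod_map _ _ measurable_id (by fun_prop)).symm
    rw [h4, hmapℓ, Measure.map_id]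
  rw [measureReal_def, h1, measureReal_def]

/-- Sheppard's formula: the Gaussian measure of the intersection of two half-spaces. -/
theorem sector_real (r r' : E) (hind : ⟪r, r'⟫ ^ 2 < ‖r‖ ^ 2 * ‖r'‖ ^ 2) :
    (stdGaussian E).real {x | 0 < ⟪r, x⟫ ∧ 0 < ⟪r', x⟫} =
      (π - InnerProductGeometry.angle r r') / (2 * π) := by
  have hr : r ≠ 0 := by
    rintro rfl
    simp at hind
  have hr' : r' ≠ 0 := by
    rintro rfl
    simp at hind
  have hs : 0 < ‖r‖ := norm_pos_iff.mpr hr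
  have hs' : 0 < ‖r'‖ := norm_pos_iff.mpr hr'
  set θ := InnerProductGeometry.angle r r' with hθ
  have hcos : cos θ = ⟪r, r'⟫ / (‖r‖ * ‖r'‖) := InnerProductGeometry.cos_angle r r'
  have hcos' : ⟪r, r'⟫ = ‖r‖ * ‖r'‖ * cos θ := by rw [hcos]; field_simp
  have hcos2 : cos θ ^ 2 < 1 := by
    have h1 : ⟪r, r'⟫ ^ 2 = (‖r‖ * ‖r'‖) ^ 2 * cos θ ^ 2 := by rw [hcos']; ring
    rw [h1] at hind
    have h2 : 0 < (‖r‖ * ‖r'‖) ^ 2 := by positivity
    have h3 : (‖r‖ * ‖r'‖) ^ 2 * cos θ ^ 2 < (‖r‖ * ‖r'‖) ^ 2 * 1 := by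
      have h4 : (‖r‖ * ‖r'‖) ^ 2 = ‖r‖ ^ 2 * ‖r'‖ ^ 2 := mul_pow _ _ _
      rw [mul_one]
      rw [h4] at hind ⊢
      exact hind
    exact lt_of_mul_lt_mul_left h3 h2.le
  have hθ0 : 0 ≤ θ := InnerProductGeometry.angle_nonneg r r'
  have hθπ : θ ≤ π := InnerProductGeometry.angle_le_pi r r'
  have hne0 : θ ≠ 0 := by
    intro h
    rw [h, cos_zero] at hcos2
    norm_num at hcos2
  have hneπ : θ ≠ π := by
    intro h
    rw [h, cos_pi] at hcos2
    norm_num at hcos2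
  have h0 : 0 < θ := lt_of_le_of_ne hθ0 (Ne.symm hne0)
  have hπ : θ < π := lt_of_le_of_ne hθπ hneπ
  have hsin : 0 < sin θ := sin_pos_of_pos_of_lt_pi h0 hπ
  obtain ⟨e₁, he₁_def⟩ : ∃ e₁ : E, e₁ = (1 / ‖r‖) • r := ⟨_, rfl⟩
  have he₁ : ‖e₁‖ = 1 := by
    rw [he₁_def, norm_smul, Real.norm_of_nonneg (by positivity)]
    field_simp
  obtain ⟨e₂, he₂_def⟩ : ∃ e₂ : E, e₂ = (1 / (‖r'‖ * sin θ)) • (r' - (‖r'‖ * cos θ) • e₁) :=
    ⟨_, rfl⟩
  have hinner1 : ⟪e₁, r'⟫ = ‖r'‖ * cos θ := by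
    rw [he₁_def, real_inner_smul_left, hcos']
    field_simp
  have hdiffnorm : ‖r' - (‖r'‖ * cos θ) • e₁‖ ^ 2 = (‖r'‖ * sin θ) ^ 2 := by
    rw [@norm_sub_sq_real, norm_smul, inner_smul_right, real_inner_comm, hinner1, he₁,
      Real.norm_eq_abs]
    have h5 := Real.sin_sq_add_cos_sq θ
    have h6 : |‖r'‖ * cos θ| ^ 2 = (‖r'‖ * cos θ) ^ 2 := sq_abs _
    have h7 : ‖r'‖ ^ 2 = ‖r'‖ ^ 2 * (sin θ ^ 2 + cos θ ^ 2) := by rw [h5, mul_one]
    rw [mul_one, h6]
    nlinarith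
  have hdiffnorm' : ‖r' - (‖r'‖ * cos θ) • e₁‖ = ‖r'‖ * sin θ := by
    have h8 : 0 ≤ ‖r'‖ * sin θ := by positivity
    exact (pow_left_inj₀ (norm_nonneg _) h8 (by norm_num)).mp hdiffnorm
  have he₂ : ‖e₂‖ = 1 := by
    rw [he₂_def, norm_smul, hdiffnorm', Real.norm_of_nonneg (by positivity)]
    field_simp
  have h12 : ⟪e₁, e₂⟫ = 0 := by
    rw [he₂_def, inner_smul_right, inner_sub_right, hinner1, inner_smul_right,
      real_inner_self_eq_norm_sq, he₁]
    ring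
  have hset : {x : E | 0 < ⟪r, x⟫ ∧ 0 < ⟪r', x⟫} = {x | (⟪e₁, x⟫, ⟪e₂, x⟫) ∈ planeSet θ} := by
    ext x
    simp only [mem_ofPred_eq, planeSet]
    have h1 : ⟪r, x⟫ = ‖r‖ * ⟪e₁, x⟫ := by
      rw [he₁_def, real_inner_smul_left]
      field_simp
    have h2 : ⟪r', x⟫ = ‖r'‖ * (cos θ * ⟪e₁, x⟫ + sin θ * ⟪e₂, x⟫) := by
      rw [he₂_def, real_inner_smul_left, inner_sub_left, real_inner_smul_left]
      field_simp
      ring
    rw [h1, h2, mul_pos_iff_of_pos_left hs, mul_pos_iff_of_pos_left hs']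
  rw [hset, real_two_coords e₁ e₂ he₁ he₂ h12 _ (measurableSet_planeSet θ),
    prod_real_planeSet h0 hπ]

end Vale.Agent.Lib.P226.Y
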