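import Vale.Agent.Lib.P226.OneDim

/-!
Rational enclosures of sine and cosine on the nonnegative reals (alternating Taylor polynomials),
evaluated by a Horner scheme over the rationals.
-/

open Real Set Finset

namespace Vale.Agent.Lib.P226.Y

/-- Taylor polynomial of sine, `n` terms. -/
noncomputable def sS (n : ℕ) (x : ℝ) : ℝ :=
  ∑ k ∈ range n, (-1) ^ k * x ^ (2 * k + 1) / ((2 * k + 1).factorial : ℝ)

/-- Taylor polynomial of cosine, `n` terms. -/
noncomputable def sC (n : ℕ) (x : ℝ) : ℝ :=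
  ∑ k ∈ range n, (-1) ^ k * x ^ (2 * k) / ((2 * k).factorial : ℝ)

lemma sS_zero_arg (n : ℕ) : sS n 0 = 0 := by
  unfold sS
  apply Finset.sum_eq_zero
  intro k _
  simp

lemma sC_succ_zero_arg (n : ℕ) : sC (n + 1) 0 = 1 := by
  unfold sC
  rw [Finset.sum_range_succ']
  have : ∑ k ∈ range n, (-1 : ℝ) ^ (k + 1) * (0 : ℝ) ^ (2 * (k + 1)) / ((2 * (k + 1)).factorial : ℝ) = 0 := by
    apply Finset.sum_eq_zero
    intro k _
    simp
  rw [this]
  simp

lemma hasDerivAt_sS (n : ℕ) (x : ℝ) : HasDerivAt (sS n) (sC n x) x := by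
  unfold sS sC
  have h : ∀ k ∈ range n, HasDerivAt
      (fun y : ℝ => (-1) ^ k * y ^ (2 * k + 1) / ((2 * k + 1).factorial : ℝ))
      ((-1) ^ k * x ^ (2 * k) / ((2 * k).factorial : ℝ)) x := by
    intro k _
    have h1 := ((hasDerivAt_pow (2 * k + 1) x).const_mul ((-1 : ℝ) ^ k)).div_const
      ((2 * k + 1).factorial : ℝ)
    refine h1.congr_deriv ?_
    have h2 : ((2 * k + 1).factorial : ℝ) = (2 * (k : ℝ) + 1) * ((2 * k).factorial : ℝ) := by
      rw [Nat.factorial_succ]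
      push_cast
      ring
    have h3 : ((2 * k).factorial : ℝ) ≠ 0 := by positivity
    have h4 : (2 * (k : ℝ) + 1) ≠ 0 := by positivity
    rw [h2]
    simp only [Nat.add_sub_cancel]
    push_cast
    field_simp
  have := HasDerivAt.fun_sum h
  exact this

lemma hasDerivAt_sC (n : ℕ) (x : ℝ) : HasDerivAt (sC (n + 1)) (-sS n x) x := by
  have h0 : sC (n + 1) = fun y => ∑ k ∈ range n,
      (-1 : ℝ) ^ (k + 1) * y ^ (2 * (k + 1)) / ((2 * (k + 1)).factorial : ℝ) + 1 := by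
    ext y
    unfold sC
    rw [Finset.sum_range_succ']
    simp
  rw [h0]
  unfold sS
  rw [← Finset.sum_neg_distrib]
  have h : ∀ k ∈ range n, HasDerivAt
      (fun y : ℝ => (-1 : ℝ) ^ (k + 1) * y ^ (2 * (k + 1)) / ((2 * (k + 1)).factorial : ℝ))
      (-((-1) ^ k * x ^ (2 * k + 1) / ((2 * k + 1).factorial : ℝ))) x := by
    intro k _
    have h1 := ((hasDerivAt_pow (2 * (k + 1)) x).const_mul ((-1 : ℝ) ^ (k + 1))).div_const
      ((2 * (k + 1)).factorial : ℝ)
    refine h1.congr_deriv ?_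
    have h2 : ((2 * (k + 1)).factorial : ℝ) = (2 * (k : ℝ) + 2) * ((2 * k + 1).factorial : ℝ) := by
      have : 2 * (k + 1) = (2 * k + 1) + 1 := by ring
      rw [this, Nat.factorial_succ]
      push_cast
      ring
    have h3 : ((2 * k + 1).factorial : ℝ) ≠ 0 := by positivity
    have h4 : (2 * (k : ℝ) + 2) ≠ 0 := by positivity
    have h5 : 2 * (k + 1) - 1 = 2 * k + 1 := by omega
    rw [h2, h5]
    push_cast
    rw [pow_succ]
    field_simp
  exact (HasDerivAt.fun_sum h).add_const 1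

lemma step1 {n : ℕ} (h : ∀ x, 0 ≤ x → cos x ≤ sC n x) : ∀ x, 0 ≤ x → sin x ≤ sS n x := by
  intro x hx
  have := nonneg_of_hasDerivAt (f := fun y => sS n y - sin y) (f' := fun y => sC n y - cos y)
    (fun y => (hasDerivAt_sS n y).sub (hasDerivAt_sin y))
    (by simp [sS_zero_arg]) (fun y hy => by have := h y hy; linarith) x hx
  linarith

lemma step2 {n : ℕ} (h : ∀ x, 0 ≤ x → sin x ≤ sS n x) : ∀ x, 0 ≤ x → sC (n + 1) x ≤ cos x := by
  intro x hx
  have := nonneg_of_hasDerivAt (f := fun y => cos y - sC (n + 1) y)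
    (f' := fun y => -sin y - -sS n y)
    (fun y => (hasDerivAt_cos y).sub (hasDerivAt_sC n y))
    (by simp [sC_succ_zero_arg]) (fun y hy => by have := h y hy; linarith) x hx
  linarith

lemma step3 {n : ℕ} (h : ∀ x, 0 ≤ x → sC n x ≤ cos x) : ∀ x, 0 ≤ x → sS n x ≤ sin x := by
  intro x hx
  have := nonneg_of_hasDerivAt (f := fun y => sin y - sS n y) (f' := fun y => cos y - sC n y)
    (fun y => (hasDerivAt_sin y).sub (hasDerivAt_sS n y))
    (by simp [sS_zero_arg]) (fun y hy => by have := h y hy; linarith) x hx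
  linarith

lemma step4 {n : ℕ} (h : ∀ x, 0 ≤ x → sS n x ≤ sin x) : ∀ x, 0 ≤ x → cos x ≤ sC (n + 1) x := by
  intro x hx
  have := nonneg_of_hasDerivAt (f := fun y => sC (n + 1) y - cos y)
    (f' := fun y => -sS n y - -sin y)
    (fun y => (hasDerivAt_sC n y).sub (hasDerivAt_cos y))
    (by simp [sC_succ_zero_arg]) (fun y hy => by have := h y hy; linarith) x hx
  linarith

/-- Alternating bounds. -/
theorem trig_bounds (m : ℕ) :
    (∀ x, 0 ≤ x → cos x ≤ sC (2 * m + 1) x) ∧ (∀ x, 0 ≤ x → sin x ≤ sS (2 * m + 1) x) ∧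
    (∀ x, 0 ≤ x → sC (2 * m + 2) x ≤ cos x) ∧ (∀ x, 0 ≤ x → sS (2 * m + 2) x ≤ sin x) := by
  induction m with
  | zero =>
    have h1 : ∀ x, 0 ≤ x → cos x ≤ sC (2 * 0 + 1) x := by
      intro x _
      have : sC (2 * 0 + 1) x = 1 := by simp [sC]
      rw [this]
      exact cos_le_one x
    have h2 := step1 h1
    have h3 := step2 h2
    have h4 := step3 h3
    exact ⟨h1, h2, h3, h4⟩
  | succ m ih =>
    obtain ⟨_, _, _, h4⟩ := ih
    have h1 := step4 h4
    have h2 := step1 h1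
    have h3 := step2 h2
    have h5 := step3 h3
    exact ⟨h1, h2, h3, h5⟩

/-- Horner scheme for the sine. -/
def hS (y : ℚ) : ℕ → ℚ → ℚ
  | 0, acc => acc
  | k + 1, acc => hS y k (1 - y * acc / ((2 * (k : ℚ) + 2) * (2 * (k : ℚ) + 3)))

/-- Horner scheme for the cosine. -/
def hC (y : ℚ) : ℕ → ℚ → ℚ
  | 0, acc => acc
  | k + 1, acc => hC y k (1 - y * acc / ((2 * (k : ℚ) + 1) * (2 * (k : ℚ) + 2)))

lemma hS_cast (y : ℚ) (n : ℕ) (acc : ℚ) :
    ((hS y n acc : ℚ) : ℝ) = ∑ k ∈ range n, (-(y : ℝ)) ^ k / ((2 * k + 1).factorial : ℝ)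
      + (-(y : ℝ)) ^ n / ((2 * n + 1).factorial : ℝ) * (acc : ℝ) := by
  induction n generalizing acc with
  | zero => simp [hS]
  | succ n ih =>
    rw [hS, ih, Finset.sum_range_succ]
    have h1 : ((2 * (n + 1) + 1).factorial : ℝ) =
        (2 * (n : ℝ) + 3) * ((2 * (n : ℝ) + 2) * ((2 * n + 1).factorial : ℝ)) := by
      have : 2 * (n + 1) + 1 = (2 * n + 1) + 1 + 1 := by ring
      rw [this, Nat.factorial_succ, Nat.factorial_succ]
      push_cast
      ring
    have h2 : ((2 * n + 1).factorial : ℝ) ≠ 0 := by positivity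
    have h3 : (2 * (n : ℝ) + 2) ≠ 0 := by positivity
    have h4 : (2 * (n : ℝ) + 3) ≠ 0 := by positivity
    rw [h1]
    push_cast
    rw [pow_succ]
    field_simp
    ring

lemma hC_cast (y : ℚ) (n : ℕ) (acc : ℚ) :
    ((hC y n acc : ℚ) : ℝ) = ∑ k ∈ range n, (-(y : ℝ)) ^ k / ((2 * k).factorial : ℝ)
      + (-(y : ℝ)) ^ n / ((2 * n).factorial : ℝ) * (acc : ℝ) := by
  induction n generalizing acc with
  | zero => simp [hC]
  | succ n ih =>
    rw [hC, ih, Finset.sum_range_succ]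
    have h1 : ((2 * (n + 1)).factorial : ℝ) =
        (2 * (n : ℝ) + 2) * ((2 * (n : ℝ) + 1) * ((2 * n).factorial : ℝ)) := by
      have : 2 * (n + 1) = (2 * n) + 1 + 1 := by ring
      rw [this, Nat.factorial_succ, Nat.factorial_succ]
      push_cast
      ring
    have h2 : ((2 * n).factorial : ℝ) ≠ 0 := by positivity
    have h3 : (2 * (n : ℝ) + 2) ≠ 0 := by positivity
    have h4 : (2 * (n : ℝ) + 1) ≠ 0 := by positivity
    rw [h1]
    push_cast
    rw [pow_succ]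
    field_simp
    ring

lemma d_hS_eq (d : ℚ) (n : ℕ) : ((d * hS (d * d) n 1 : ℚ) : ℝ) = sS (n + 1) (d : ℝ) := by
  push_cast
  rw [hS_cast]
  unfold sS
  rw [Finset.sum_range_succ, mul_add, Finset.mul_sum]
  push_cast
  congr 1
  · apply Finset.sum_congr rfl
    intro k _
    have : (-((d : ℝ) * (d : ℝ))) ^ k = (-1) ^ k * (d : ℝ) ^ (2 * k) := by
      rw [pow_mul, neg_pow]
      congr 1
      ring
    rw [this, pow_succ]
    ring
  · have : (-((d : ℝ) * (d : ℝ))) ^ n = (-1) ^ n * (d : ℝ) ^ (2 * n) := by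
      rw [pow_mul, neg_pow]
      congr 1
      ring
    rw [this, pow_succ]
    ring

lemma hC_eq (d : ℚ) (n : ℕ) : ((hC (d * d) n 1 : ℚ) : ℝ) = sC (n + 1) (d : ℝ) := by
  rw [hC_cast]
  unfold sC
  rw [Finset.sum_range_succ]
  push_cast
  congr 1
  · apply Finset.sum_congr rfl
    intro k _
    have : (-((d : ℝ) * (d : ℝ))) ^ k = (-1) ^ k * (d : ℝ) ^ (2 * k) := by
      rw [pow_mul, neg_pow]
      congr 1
      ring
    rw [this]
  · have : (-((d : ℝ) * (d : ℝ))) ^ n = (-1) ^ n * (d : ℝ) ^ (2 * n) := by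
      rw [pow_mul, neg_pow]
      congr 1
      ring
    rw [this, mul_one]

/-- Upper bound for the sine at a rational point. -/
def sinHi (d : ℚ) : ℚ := d * hS (d * d) 10 1
/-- Lower bound for the sine at a rational point. -/
def sinLo (d : ℚ) : ℚ := d * hS (d * d) 9 1
/-- Upper bound for the cosine at a rational point. -/
def cosHi (d : ℚ) : ℚ := hC (d * d) 10 1
/-- Lower bound for the cosine at a rational point. -/
def cosLo (d : ℚ) : ℚ := hC (d * d) 9 1

lemma sin_le_sinHi {d : ℚ} (hd : 0 ≤ d) : sin (d : ℝ) ≤ (sinHi d : ℚ) := by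
  rw [sinHi, d_hS_eq]
  exact (trig_bounds 5).2.1 _ (by exact_mod_cast hd)

lemma sinLo_le_sin {d : ℚ} (hd : 0 ≤ d) : ((sinLo d : ℚ) : ℝ) ≤ sin (d : ℝ) := by
  rw [sinLo, d_hS_eq]
  exact (trig_bounds 4).2.2.2 _ (by exact_mod_cast hd)

lemma cos_le_cosHi {d : ℚ} (hd : 0 ≤ d) : cos (d : ℝ) ≤ (cosHi d : ℚ) := by
  rw [cosHi, hC_eq]
  exact (trig_bounds 5).1 _ (by exact_mod_cast hd)

lemma cosLo_le_cos {d : ℚ} (hd : 0 ≤ d) : ((cosLo d : ℚ) : ℝ) ≤ cos (d : ℝ) := by
  rw [cosLo, hC_eq]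
  exact (trig_bounds 4).2.2.1 _ (by exact_mod_cast hd)

end Vale.Agent.Lib.P226.Y
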